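import Vale.Agent.P147.Geo

/-!
# P147: the events of the second walker
-/

open MeasureTheory Filter
open scoped ENNReal

namespace Vale.Agent.P147.Geo

open Cyl

variable {d : ℕ} (G : Geo d)

/-- The event of the second walker: it steps back, regenerates against the direction and escapes there. -/
def Back : Set (Steps d) := {η | η 0 = flip G.es} ∩ shift 1 ⁻¹' G.neg.S

/-- From `z`, the walk stays below the level `U` for ever and escapes against the direction. -/
def Band (U : ℝ) (z : Site d) : Set (Steps d) :=
  {η | ∀ j, G.lev (z + pos η j) < U} ∩ G.neg.Esc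

lemma measurableSet_Band (U : ℝ) (z : Site d) : MeasurableSet (G.Band U z) := by
  refine MeasurableSet.inter ?_ G.neg.measurableSet_Esc
  have : {η : Steps d | ∀ j, G.lev (z + pos η j) < U} = ⋂ j, {η | G.lev z + G.lv η j < U} := by
    ext η; simp [lev_add, lv]
  rw [this]
  exact .iInter fun j => measurableSet_lt (measurable_const.add (G.measurable_lv j)) measurable_const

lemma measurableSet_Back : MeasurableSet G.Back := by
  have h : MeasurableSet ((fun η : Steps d => η 0) ⁻¹' {flip G.es}) :=
    measurable_pi_apply 0 (measurableSet_singleton _)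
  exact h.inter (measurable_shift 1 G.neg.measurableSet_S)

lemma back_lv {η : Steps d} (h : η ∈ G.Back) {j : ℕ} (hj : 2 ≤ j) : G.lv η j ≤ -2 := by
  have h0 : η 0 = flip G.es := h.1
  have := h.2.2.1 (j - 1) (by omega)
  rw [lv_neg, lv_shift, Nat.add_sub_cancel' (by omega : 1 ≤ j), lv_succ, lv_zero, h0, vec_flip,
    lev_neg, lev_es] at this
  linarith

lemma back_lv_nonpos {η : Steps d} (h : η ∈ G.Back) (j : ℕ) : G.lv η j ≤ 0 := by
  match j with
  | 0 => simp
  | 1 =>
    rw [lv_succ, lv_zero, show η 0 = flip G.es from h.1, vec_flip, lev_neg, lev_es]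
    norm_num
  | j + 2 => linarith [G.back_lv h (show 2 ≤ j + 2 by omega)]

lemma back_subset_esc : G.Back ⊆ G.neg.Esc := fun _ h => (G.neg.esc_shift 1).1 h.2.2.2

lemma back_subset_band {U : ℝ} {y : Site d} (hy : G.lev y < U) : G.Back ⊆ G.Band U y := by
  intro η h
  refine ⟨fun j => ?_, G.back_subset_esc h⟩
  have h1 : G.lev (pos η j) ≤ 0 := G.back_lv_nonpos h j
  rw [lev_add]
  linarith

end Vale.Agent.P147.Geo
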