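import Vale.Agent.P147.Quenched

/-!
# P147: the quenched strong Markov property at a first hitting time
-/

open MeasureTheory Filter
open scoped ENNReal

namespace Vale.Agent.P147

open Cyl

variable {d : ℕ} [NeZero d]

omit [NeZero d] in
lemma decided_disjointed {P : ℕ → Set (Steps d)} (hP : ∀ t, Decided t (P t)) (t : ℕ) :
    Decided t (disjointed P t) := by
  intro ξ η h hξ
  rw [disjointed_apply, Finset.sup_set_eq_biUnion] at hξ ⊢
  obtain ⟨h1, h2⟩ := hξ
  refine ⟨hP t ξ η h h1, fun h3 => h2 ?_⟩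
  simp only [Set.mem_iUnion, Finset.mem_Iio] at h3 ⊢
  obtain ⟨s, hs, hs'⟩ := h3
  exact ⟨s, hs, (hP s).mono hs.le η ξ (fun i hi => (h i hi).symm) hs'⟩

lemma measurableSet_future (x : Site d) (t : ℕ) {E : Site d → Set (Steps d)}
    (hE : ∀ z, MeasurableSet (E z)) :
    MeasurableSet {ξ : Steps d | shift t ξ ∈ E (x + pos ξ t)} := by
  have : {ξ : Steps d | shift t ξ ∈ E (x + pos ξ t)} =
      ⋃ z : Site d, {ξ | pos ξ t = z} ∩ shift t ⁻¹' E (x + z) := by
    ext ξ; simp
  rw [this]
  exact .iUnion fun z => (Decided.measurableSet fun ξ η h h1 => (pos_congr h).trans h1).inter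
    (measurable_shift t (hE _))

/-- If from every possible first hit the future event has probability at most `ε`, so has the whole. -/
theorem quen_le_of_hit {ω : Env d} (hω : GoodEnv ω) (x : Site d) {P : ℕ → Set (Steps d)}
    (hP : ∀ t, Decided t (P t)) {E : Site d → Set (Steps d)} (hE : ∀ z, MeasurableSet (E z))
    {B : Set (Steps d)} (hB : B ⊆ ⋃ t, P t)
    (hBE : ∀ ξ ∈ B, ∀ t, ξ ∈ P t → shift t ξ ∈ E (x + pos ξ t)) {ε : ℝ≥0∞}
    (hε : ∀ t, ∀ ξ ∈ P t, quen ω (x + pos ξ t) (E (x + pos ξ t)) ≤ ε) :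
    quen ω x B ≤ ε := by
  have hsub : B ⊆ ⋃ t, disjointed P t ∩ {ξ | shift t ξ ∈ E (x + pos ξ t)} := by
    intro ξ hξ
    rw [← iUnion_disjointed] at hB
    obtain ⟨t, ht⟩ := Set.mem_iUnion.1 (hB hξ)
    exact Set.mem_iUnion.2 ⟨t, ht, hBE ξ hξ t (disjointed_subset P t ht)⟩
  have hdm : ∀ t, MeasurableSet (disjointed P t) := fun t => (decided_disjointed hP t).measurableSet
  calc quen ω x B ≤ ∑' t, quen ω x (disjointed P t ∩ {ξ | shift t ξ ∈ E (x + pos ξ t)}) :=
        (measure_mono hsub).trans (measure_iUnion_le _)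
    _ ≤ ∑' t, ε * quen ω x (disjointed P t) := by
        refine ENNReal.tsum_le_tsum fun t => ?_
        rw [quen_markov_int hω x (decided_disjointed hP t) E hE, ← setLIntegral_const]
        exact setLIntegral_mono measurable_const fun ξ hξ =>
          hε t ξ (disjointed_subset P t hξ)
    _ = ε * quen ω x (⋃ t, disjointed P t) := by
        rw [ENNReal.tsum_mul_left, measure_iUnion (disjoint_disjointed P) hdm]
    _ ≤ ε * 1 := mul_le_mul_right prob_le_one ε
    _ = ε := mul_one ε

/-- If from every possible hit the future event has probability at least `ε`, then so has the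
event of hitting and then continuing in it, relative to hitting. -/
theorem mul_quen_hit_le {ω : Env d} (hω : GoodEnv ω) (x : Site d) {P : ℕ → Set (Steps d)}
    (hP : ∀ t, Decided t (P t)) {E : Site d → Set (Steps d)} (hE : ∀ z, MeasurableSet (E z))
    {G' : Set (Steps d)} (hG : ∀ t, ∀ ξ ∈ P t, shift t ξ ∈ E (x + pos ξ t) → ξ ∈ G') {ε : ℝ≥0∞}
    (hε : ∀ t, ∀ ξ ∈ P t, ε ≤ quen ω (x + pos ξ t) (E (x + pos ξ t))) :
    ε * quen ω x (⋃ t, P t) ≤ quen ω x G' := by
  have hdm : ∀ t, MeasurableSet (disjointed P t) := fun t => (decided_disjointed hP t).measurableSet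
  calc ε * quen ω x (⋃ t, P t) = ∑' t, ε * quen ω x (disjointed P t) := by
        rw [← iUnion_disjointed, measure_iUnion (disjoint_disjointed P) hdm, ENNReal.tsum_mul_left]
    _ ≤ ∑' t, quen ω x (disjointed P t ∩ {ξ | shift t ξ ∈ E (x + pos ξ t)}) := by
        refine ENNReal.tsum_le_tsum fun t => ?_
        rw [quen_markov_int hω x (decided_disjointed hP t) E hE, ← setLIntegral_const]
        exact setLIntegral_mono' (hdm t) fun ξ hξ => hε t ξ (disjointed_subset P t hξ)
    _ = quen ω x (⋃ t, disjointed P t ∩ {ξ | shift t ξ ∈ E (x + pos ξ t)}) := by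
        rw [measure_iUnion
          (fun i j hij => (disjoint_disjointed P hij).mono Set.inter_subset_left Set.inter_subset_left)
          fun t => (hdm t).inter (measurableSet_future x t hE)]
    _ ≤ quen ω x G' := measure_mono (Set.iUnion_subset fun t ξ hξ =>
        hG t ξ (disjointed_subset P t hξ.1) hξ.2)

/-- The event of hitting a set of sites at a given time. -/
def hitAt (y : Site d) (Z : Set (Site d)) (j : ℕ) : Set (Steps d) := {η | y + pos η j ∈ Z}

omit [NeZero d] in
lemma decided_hitAt (y : Site d) (Z : Set (Site d)) (j : ℕ) : Decided j (hitAt y Z j) :=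
  fun ξ η h hξ => by
    show y + pos η j ∈ Z
    rw [pos_congr h]
    exact hξ

lemma measurableSet_avoid (x : Site d) (n : ℕ) (ξ : Steps d) (y : Site d) :
    MeasurableSet (Avoid x n ξ y) := by
  have : Avoid x n ξ y = ⋂ j, hitAt y {z | z ∉ rows x n ξ} j := by
    ext η; simp [Avoid, hitAt]
  rw [this]
  exact .iInter fun j => (decided_hitAt y _ j).measurableSet

end Vale.Agent.P147
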