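import Vale.Agent.P147.Band
import Vale.Agent.P147.Hit

/-!
# P147: two walkers in independent environments rarely meet after a given prefix
-/

open MeasureTheory Filter
open scoped ENNReal

namespace Vale.Agent.P147.Geo

open Cyl

variable {d : ℕ} [NeZero d] (G : Geo d)

/-- The prefixes of the continuations of `ξ` stopped at the level `U`, and at the time `N` at the latest. -/
def Stop (n : ℕ) (ξ : Steps d) (U : ℝ) (N k : ℕ) : Set (Steps d) :=
  {η | n ≤ k ∧ k ≤ N ∧ η ∈ cyl n ξ ∧ (∀ i, n ≤ i → i < k → G.lv η i < U) ∧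
    (k = N ∨ U ≤ G.lv η k)}

omit [NeZero d] in
lemma decided_stop (n : ℕ) (ξ : Steps d) (U : ℝ) (N k : ℕ) : Decided k (G.Stop n ξ U N k) := by
  rintro a b h ⟨h1, h2, h3, h4, h5⟩
  refine ⟨h1, h2, (decided_cyl n ξ).mono h1 a b h h3, fun i hi hik => ?_, ?_⟩
  · rw [G.lv_congr hik.le h]; exact h4 i hi hik
  · rwa [G.lv_congr le_rfl h]

omit [NeZero d] in
lemma stop_disjoint (n : ℕ) (ξ : Steps d) (U : ℝ) (N : ℕ) :
    Pairwise (Function.onFun Disjoint (G.Stop n ξ U N)) := by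
  have key : ∀ a b, a < b → Disjoint (G.Stop n ξ U N a) (G.Stop n ξ U N b) := by
    intro a b hab
    refine Set.disjoint_left.2 fun η ha hb => ?_
    obtain ⟨ha1, -, -, -, ha5⟩ := ha
    obtain ⟨-, hb2, -, hb4, -⟩ := hb
    rcases ha5 with rfl | h
    · omega
    · linarith [hb4 a ha1 hab]
  intro a b hab
  rcases lt_or_gt_of_ne hab with h | h
  · exact key a b h
  · exact (key b a h).symm

omit [NeZero d] in
lemma cyl_eq_iUnion_stop {n N : ℕ} (hN : n ≤ N) (ξ : Steps d) (U : ℝ) :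
    cyl n ξ = ⋃ k, G.Stop n ξ U N k := by
  classical
  ext η
  constructor
  · intro hη
    have hex : ∃ k, n ≤ k ∧ (k = N ∨ U ≤ G.lv η k) := ⟨N, hN, Or.inl rfl⟩
    refine Set.mem_iUnion.2 ⟨Nat.find hex, (Nat.find_spec hex).1, Nat.find_min' hex ⟨hN, Or.inl rfl⟩,
      hη, fun i hi hik => ?_, (Nat.find_spec hex).2⟩
    have := Nat.find_min hex hik
    push Not at this
    exact (this hi).2
  · intro h
    obtain ⟨k, hk⟩ := Set.mem_iUnion.1 h
    exact hk.2.2.1

lemma sum_stop {n N : ℕ} (hN : n ≤ N) (ξ : Steps d) (U : ℝ) (ν : Measure (Steps d)) :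
    ∑ k ∈ Finset.range (N + 1), ∑ w ∈ wordsIn k (G.Stop n ξ U N k), ν (cyl k (ext w)) =
      ν (cyl n ξ) := by
  simp only [← (G.decided_stop n ξ U N _).measure_eq]
  rw [G.cyl_eq_iUnion_stop hN ξ U,
    measure_iUnion (G.stop_disjoint n ξ U N) fun k => (G.decided_stop n ξ U N k).measurableSet,
    tsum_eq_sum fun k hk => ?_]
  rw [show G.Stop n ξ U N k = ∅ from Set.eq_empty_of_forall_notMem fun η h =>
    hk (Finset.mem_range.2 (Nat.lt_succ_of_le h.2.1)), measure_empty]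

variable (μ : Measure (Dir d → ℝ)) [Law μ]

/-- Meeting in independent environments has the law of meeting in one environment. -/
lemma meet_transfer {n N : ℕ} (hN : n ≤ N) (ξ : Steps d) (U : ℝ) (y : Site d)
    {F' : Set (Steps d)} (hF : MeasurableSet F') (hsub : F' ⊆ Avoid 0 n ξ y) :
    ∑ k ∈ Finset.range (N + 1), ∑ w ∈ wordsIn k (G.Stop n ξ U N k),
        ann μ (cyl k (ext w)) * ann μ (F' \ Avoid 0 k (ext w) y) =
      ∑ k ∈ Finset.range (N + 1), ∑ w ∈ wordsIn k (G.Stop n ξ U N k),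
        ∫⁻ ω, wt ω 0 k (ext w) * quen ω y (F' \ Avoid 0 k (ext w) y) ∂envLaw μ := by
  classical
  set K := Finset.range (N + 1)
  set W : ∀ k : ℕ, Finset (Fin k → Dir d) := fun k => wordsIn k (G.Stop n ξ U N k)
  set C := ∑ k ∈ K, ∑ w ∈ W k, ann μ (cyl k (ext w)) * ann μ (F' ∩ Avoid 0 k (ext w) y)
  have hA : ∀ k (w : Fin k → Dir d), MeasurableSet (Avoid 0 k (ext w) y) :=
    fun k w => measurableSet_avoid _ _ _ _
  have h1 : (∑ k ∈ K, ∑ w ∈ W k, ann μ (cyl k (ext w)) * ann μ (F' \ Avoid 0 k (ext w) y)) + C =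
      ann μ (cyl n ξ) * ann μ F' := by
    rw [← G.sum_stop hN ξ U, Finset.sum_mul, ← Finset.sum_add_distrib]
    refine Finset.sum_congr rfl fun k _ => ?_
    rw [Finset.sum_mul, ← Finset.sum_add_distrib]
    refine Finset.sum_congr rfl fun w _ => ?_
    rw [← mul_add, measure_sdiff_add_inter F' (hA k w)]
  have hC : C = ∑ k ∈ K, ∑ w ∈ W k,
      ∫⁻ ω, wt ω 0 k (ext w) * quen ω y (F' ∩ Avoid 0 k (ext w) y) ∂envLaw μ :=
    Finset.sum_congr rfl fun k _ => Finset.sum_congr rfl fun w _ =>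
      (lintegral_wt_mul_quen μ 0 k (ext w) y (hF.inter (hA k w)) Set.inter_subset_right).symm
  have h2 : (∑ k ∈ K, ∑ w ∈ W k,
      ∫⁻ ω, wt ω 0 k (ext w) * quen ω y (F' \ Avoid 0 k (ext w) y) ∂envLaw μ) + C =
      ann μ (cyl n ξ) * ann μ F' := by
    rw [hC, ← lintegral_wt_mul_quen μ 0 n ξ y hF hsub, ← Finset.sum_add_distrib]
    have hm : ∀ k (w : Fin k → Dir d) (E : Set (Steps d)), MeasurableSet E →
        Measurable fun ω => wt ω 0 k (ext w) * quen ω y E :=
      fun k w E hE => (measurable_wt 0 k (ext w)).mul (measurable_quen y hE)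
    have hmid : ∀ k, (∑ w ∈ W k, ∫⁻ ω, wt ω 0 k (ext w) * quen ω y (F' \ Avoid 0 k (ext w) y)
        ∂envLaw μ) + ∑ w ∈ W k, ∫⁻ ω, wt ω 0 k (ext w) * quen ω y (F' ∩ Avoid 0 k (ext w) y)
        ∂envLaw μ = ∫⁻ ω, ∑ w ∈ W k, wt ω 0 k (ext w) * quen ω y F' ∂envLaw μ := by
      intro k
      rw [← Finset.sum_add_distrib, lintegral_finsetSum _ fun w _ => hm k w F' hF]
      refine Finset.sum_congr rfl fun w _ => ?_
      rw [← lintegral_add_left (hm k w _ (hF.diff (hA k w)))]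
      refine lintegral_congr fun ω => ?_
      rw [← mul_add, measure_sdiff_add_inter F' (hA k w)]
    simp only [hmid]
    rw [← lintegral_finsetSum _ fun k _ => Finset.measurable_sum _ fun w _ => hm k w F' hF]
    refine lintegral_congr_ae ((ae_goodEnv μ).mono fun ω hω => ?_)
    simp only
    rw [← quen_cyl hω 0 n ξ, ← G.sum_stop hN ξ U (quen ω 0), Finset.sum_mul]
    refine Finset.sum_congr rfl fun k _ => ?_
    rw [Finset.sum_mul]
    exact Finset.sum_congr rfl fun w _ => by rw [quen_cyl hω]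
  have hfin : C ≠ ∞ := ne_top_of_le_ne_top
    (ENNReal.mul_ne_top (measure_ne_top _ _) (measure_ne_top _ _)) (h1 ▸ le_add_self)
  exact (ENNReal.add_left_inj hfin).1 (h1.trans h2.symm)

/-- The good-environment bound for meeting after the prefix. -/
lemma meet_quenched {ω : Env d} (hω : GoodEnv ω) {n N : ℕ} (hN : n ≤ N) (ξ : Steps d)
    (y : Site d) {U U' : ℝ} (hUU : U ≤ U') {F' : Set (Steps d)} (hsub : F' ⊆ G.Band U' y)
    (hav : F' ⊆ Avoid 0 n ξ y) {ε : ℝ≥0∞} (hε : ε ≠ 0) (hε' : ε ≠ ∞) :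
    ∑ k ∈ Finset.range (N + 1), ∑ w ∈ wordsIn k (G.Stop n ξ U N k),
        wt ω 0 k (ext w) * quen ω y (F' \ Avoid 0 k (ext w) y) ≤
      ε * wt ω 0 n ξ + ε⁻¹ * (wt ω 0 n ξ * quen ω (pos ξ n) (G.Band U' (pos ξ n))) := by
  classical
  set g : Site d → ℝ≥0∞ := fun z => quen ω z (G.Band U' z)
  set P : ℕ → Set (Steps d) := fun t => {η | n ≤ t ∧ η ∈ cyl n ξ ∧
    (∀ i, n ≤ i → i ≤ t → G.lv η i < U) ∧ ε ≤ g (pos η t)}
  have hP : ∀ t, Decided t (P t) := by
    rintro t a b h ⟨h1, h2, h3, h4⟩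
    refine ⟨h1, (decided_cyl n ξ).mono h1 a b h h2, fun i hi hit => ?_, ?_⟩
    · rw [G.lv_congr hit h]; exact h3 i hi hit
    · rwa [pos_congr h]
  set Bad : Set (Steps d) := ⋃ t, P t
  have key : ∀ k, ∀ w ∈ wordsIn k (G.Stop n ξ U N k),
      wt ω 0 k (ext w) * quen ω y (F' \ Avoid 0 k (ext w) y) ≤
        ε * quen ω 0 (cyl k (ext w)) + quen ω 0 (cyl k (ext w) ∩ Bad) := by
    intro k w hw
    have hw' : ext w ∈ G.Stop n ξ U N k := by simpa [wordsIn] using hw
    by_cases hbad : ∃ t, n ≤ t ∧ t < k ∧ ε ≤ g (pos (ext w) t)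
    · obtain ⟨t, ht, htk, htg⟩ := hbad
      have hsubB : cyl k (ext w) ⊆ Bad := by
        intro η hη
        refine Set.mem_iUnion.2 ⟨t, ht, fun i hi => ?_, fun i hi hit => ?_, ?_⟩
        · rw [hη i (by omega)]; exact hw'.2.2.1 i hi
        · rw [G.lv_congr (by omega : i ≤ k) hη]
          exact hw'.2.2.2.1 i hi (by omega)
        · rwa [pos_cyl htk.le hη]
      rw [Set.inter_eq_left.2 hsubB, ← quen_cyl hω]
      exact (mul_le_of_le_one_right zero_le prob_le_one).trans le_add_self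
    · push Not at hbad
      refine le_trans ?_ le_self_add
      rw [quen_cyl hω, mul_comm]
      refine mul_le_mul_left ?_ _
      refine quen_le_of_hit hω y (P := fun j => hitAt y
          {z | ∃ t, n ≤ t ∧ t < k ∧ pos (ext w) t = z} j)
        (fun j => decided_hitAt _ _ _) (E := fun z => G.Band U' z)
        (fun z => G.measurableSet_Band U' z) ?_ ?_ ?_
      · rintro η ⟨hη, hη'⟩
        simp only [Avoid, Set.mem_ofPred_eq, not_forall, not_not] at hη'
        obtain ⟨j, hj⟩ := hη'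
        obtain ⟨t, htk, he⟩ := mem_rows.1 hj
        rw [zero_add] at he
        refine Set.mem_iUnion.2 ⟨j, ?_⟩
        rcases lt_or_ge t n with htn | htn
        · refine absurd (mem_rows.2 ⟨t, htn, ?_⟩) (hav hη j)
          rw [zero_add, ← he, pos_cyl htn.le hw'.2.2.1]
        · exact ⟨t, htn, htk, he⟩
      · intro η hη j _
        obtain ⟨h1, h2⟩ := hsub hη.1
        refine ⟨fun i => ?_, (G.neg.esc_shift j).2 h2⟩
        rw [add_assoc, ← pos_add]
        exact h1 _
      · rintro j η ⟨t, ht, htk, he⟩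
        rw [← he]
        exact (hbad t ht htk).le
  have hBad : ε * quen ω 0 Bad ≤ wt ω 0 n ξ * g (pos ξ n) := by
    have hG : ∀ t, ∀ η ∈ P t, shift t η ∈ G.Band U' (0 + pos η t) →
        η ∈ cyl n ξ ∩ shift n ⁻¹' G.Band U' (pos ξ n) := by
      rintro t η ⟨ht, hc, hlv, -⟩ hb
      rw [zero_add] at hb
      refine ⟨hc, fun j => ?_, ?_⟩
      · rw [← pos_cyl le_rfl hc, ← pos_add]
        rcases le_or_gt (n + j) t with h | h
        · exact (hlv (n + j) (by omega) h).trans_le hUU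
        · have := hb.1 (n + j - t)
          rwa [← pos_add, Nat.add_sub_cancel' h.le] at this
      · exact (G.neg.esc_shift n).2 ((G.neg.esc_shift t).1 hb.2)
    have := mul_quen_hit_le hω 0 hP (E := fun z => G.Band U' z)
      (fun z => G.measurableSet_Band U' z) hG (ε := ε) (fun t η h => by rw [zero_add]; exact h.2.2.2)
    rwa [quen_markov hω 0 n ξ (G.measurableSet_Band U' _), zero_add] at this
  have hBm : MeasurableSet Bad := .iUnion fun t => (hP t).measurableSet
  calc ∑ k ∈ Finset.range (N + 1), ∑ w ∈ wordsIn k (G.Stop n ξ U N k),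
        wt ω 0 k (ext w) * quen ω y (F' \ Avoid 0 k (ext w) y)
      ≤ ∑ k ∈ Finset.range (N + 1), ∑ w ∈ wordsIn k (G.Stop n ξ U N k),
          (ε * quen ω 0 (cyl k (ext w)) + (quen ω 0).restrict Bad (cyl k (ext w))) :=
        Finset.sum_le_sum fun k _ => Finset.sum_le_sum fun w hw => by
          rw [Measure.restrict_apply (measurableSet_cyl _ _)]
          exact key k w hw
    _ = ε * quen ω 0 (cyl n ξ) + (quen ω 0).restrict Bad (cyl n ξ) := by
        simp only [Finset.sum_add_distrib, ← Finset.mul_sum, G.sum_stop hN]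
    _ ≤ ε * wt ω 0 n ξ + ε⁻¹ * (wt ω 0 n ξ * g (pos ξ n)) := by
        rw [quen_cyl hω]
        refine add_le_add le_rfl ?_
        rw [Measure.restrict_apply (measurableSet_cyl _ _), ← ENNReal.div_eq_inv_mul,
          ENNReal.le_div_iff_mul_le (Or.inl hε) (Or.inl hε'), mul_comm]
        exact le_trans (mul_le_mul_right (measure_mono Set.inter_subset_right) ε) hBad

/-- The second walker, avoiding the prefix of the first, rarely meets its continuation below `U`. -/
theorem meet_lemma (n : ℕ) (ξ : Steps d) (y : Site d) {U U' : ℝ} (hUU : U ≤ U')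
    {F : Set (Steps d)} (hF : MeasurableSet F) (hsub : F ⊆ G.Band U' y)
    {ε : ℝ≥0∞} (hε : ε ≠ 0) (hε' : ε ≠ ∞) :
    (ann μ).prod (ann μ) {z : Steps d × Steps d | z.1 ∈ cyl n ξ ∧ z.2 ∈ F ∩ Avoid 0 n ξ y ∧
        ∃ t, n ≤ t ∧ (∀ i ≤ t, G.lv z.1 i < U) ∧ ∃ j, pos z.1 t = y + pos z.2 j}
      ≤ ε * ann μ (cyl n ξ) +
        ε⁻¹ * ∫⁻ ω, wt ω 0 n ξ * quen ω (pos ξ n) (G.Band U' (pos ξ n)) ∂envLaw μ := by
  classical
  set F' := F ∩ Avoid 0 n ξ y
  have hF' : MeasurableSet F' := hF.inter (measurableSet_avoid _ _ _ _)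
  set A : ℕ → Set (Steps d × Steps d) := fun M => {z | z.1 ∈ cyl n ξ ∧ z.2 ∈ F' ∧
    ∃ t, n ≤ t ∧ t < n + M ∧ (∀ i ≤ t, G.lv z.1 i < U) ∧ ∃ j, pos z.1 t = y + pos z.2 j}
  have hmono : Monotone A := by
    rintro a b hab z ⟨h1, h2, t, ht, ht', h3⟩
    exact ⟨h1, h2, t, ht, by omega, h3⟩
  refine le_trans (measure_mono (t := ⋃ M, A M) ?_) (le_of_eq_of_le hmono.measure_iUnion (iSup_le fun M => ?_))
  · rintro z ⟨h1, h2, t, ht, h3⟩
    exact Set.mem_iUnion.2 ⟨t + 1, h1, h2, t, ht, by omega, h3⟩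
  have hN : n ≤ n + M := Nat.le_add_right _ _
  calc (ann μ).prod (ann μ) (A M)
      ≤ (ann μ).prod (ann μ) (⋃ k ∈ Finset.range (n + M + 1),
          ⋃ w ∈ wordsIn k (G.Stop n ξ U (n + M) k),
            cyl k (ext w) ×ˢ (F' \ Avoid 0 k (ext w) y)) := by
        refine measure_mono ?_
        rintro ⟨X, W⟩ ⟨h1, h2, t, ht, htM, hlv, j, hj⟩
        have h1' : X ∈ ⋃ k, G.Stop n ξ U (n + M) k := G.cyl_eq_iUnion_stop hN ξ U ▸ h1
        obtain ⟨k, hk⟩ := Set.mem_iUnion.1 h1'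
        simp only [Set.mem_iUnion, Finset.mem_range, exists_prop, Set.mem_prod, Set.mem_sdiff]
        refine ⟨k, Nat.lt_succ_of_le hk.2.1, fun i => X i, ?_, (mem_cyl_ext _ _).2 rfl, h2, ?_⟩
        · simp only [wordsIn, Finset.mem_filter, Finset.mem_univ, true_and]
          exact G.decided_stop n ξ U _ k X _ (fun i hi => ext_apply _ hi) hk
        · have htk : t < k := by
            rcases hk.2.2.2.2 with h | h
            · omega
            · by_contra hc
              linarith [hlv k (by omega)]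
          intro hav
          refine hav j (mem_rows.2 ⟨t, htk, ?_⟩)
          rw [zero_add, pos_cyl htk.le ((mem_cyl_ext (fun i : Fin k => X i) X).2 rfl) |>.symm]
          exact hj
    _ ≤ ∑ k ∈ Finset.range (n + M + 1), ∑ w ∈ wordsIn k (G.Stop n ξ U (n + M) k),
          ann μ (cyl k (ext w)) * ann μ (F' \ Avoid 0 k (ext w) y) := by
        refine (measure_biUnion_finset_le _ _).trans (Finset.sum_le_sum fun k _ => ?_)
        refine (measure_biUnion_finset_le _ _).trans (Finset.sum_le_sum fun w _ => ?_)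
        rw [Measure.prod_prod]
    _ = ∑ k ∈ Finset.range (n + M + 1), ∑ w ∈ wordsIn k (G.Stop n ξ U (n + M) k),
          ∫⁻ ω, wt ω 0 k (ext w) * quen ω y (F' \ Avoid 0 k (ext w) y) ∂envLaw μ :=
        G.meet_transfer μ hN ξ U y hF' Set.inter_subset_right
    _ ≤ ∫⁻ ω, (ε * wt ω 0 n ξ +
          ε⁻¹ * (wt ω 0 n ξ * quen ω (pos ξ n) (G.Band U' (pos ξ n)))) ∂envLaw μ := by
        have hm : ∀ k (w : Fin k → Dir d),
            Measurable fun ω => wt ω 0 k (ext w) * quen ω y (F' \ Avoid 0 k (ext w) y) :=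
          fun k w => (measurable_wt 0 k (ext w)).mul
            (measurable_quen y (hF'.diff (measurableSet_avoid _ _ _ _)))
        simp only [← lintegral_finsetSum _ fun w _ => hm _ w]
        rw [← lintegral_finsetSum _ fun k _ => Finset.measurable_sum _ fun w _ => hm k w]
        exact lintegral_mono_ae ((ae_goodEnv μ).mono fun ω hω =>
          G.meet_quenched hω hN ξ y hUU (Set.inter_subset_left.trans hsub) Set.inter_subset_right hε hε')
    _ = ε * ann μ (cyl n ξ) +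
          ε⁻¹ * ∫⁻ ω, wt ω 0 n ξ * quen ω (pos ξ n) (G.Band U' (pos ξ n)) ∂envLaw μ := by
        rw [lintegral_add_left ((measurable_wt 0 n ξ).const_mul ε),
          lintegral_const_mul ε (measurable_wt 0 n ξ), ← ann_cyl μ 0 n ξ,
          lintegral_const_mul' ε⁻¹ _ (ENNReal.inv_ne_top.2 hε)]

end Vale.Agent.P147.Geo
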