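import Vale.Agent.P147.Check
import Vale.Agent.P147.MeetLemma

/-!
# P147: the meeting probability in a window of levels

For a target of the first walker, the probability that the second walker meets it for the first time between
the first passages of two levels is controlled by the expected number of checkpoints and by the probability
of a backtracking event in a band.
-/

open MeasureTheory Filter
open scoped ENNReal

namespace Vale.Agent.P147.Geo

open Cyl

variable {d : ℕ} (G : Geo d)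

/-- The site `pos ξ t` is the first site of `ξ` visited by the walk `η` from `y`. -/
def FirstMeet (y : Site d) (η : Steps d) (t : ℕ) : Set (Steps d) :=
  {ξ | (∀ w < t, ∀ j, pos ξ w ≠ y + pos η j) ∧ ∃ j, pos ξ t = y + pos η j}

/-- The second walker, from `y`, first meets the target's walk in the window of levels `[a, b)`. -/
def Win (A : Set (Steps d)) (y : Site d) (a b : ℕ) : Set (Steps d × Steps d) :=
  {z | z.1 ∈ A ∧ z.2 ∈ G.Back ∧ ∃ t, z.1 ∈ FirstMeet y z.2 t ∧
    (∃ u ≤ t, (a : ℝ) ≤ G.lv z.1 u) ∧ ∀ w ≤ t, G.lv z.1 w < b}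

/-- The walk reaches level `a`, stays below `U` and escapes against the direction. -/
def BandEv (a : ℕ) (U : ℝ) : Set (Steps d) :=
  {ξ | (∃ n, (a : ℝ) ≤ G.lv ξ n) ∧ ∀ n, G.lv ξ n < U} ∩ G.neg.Esc

lemma decided_firstMeet (y : Site d) (η : Steps d) (t : ℕ) : Decided t (FirstMeet y η t) := by
  rintro ξ ζ h ⟨h1, h2⟩
  refine ⟨fun w hw j => ?_, ?_⟩
  · rw [pos_congr fun i hi => h i (lt_trans hi hw)]
    exact h1 w hw j
  · rwa [pos_congr h]

lemma firstMeet_unique {y : Site d} {η ξ : Steps d} {s t : ℕ} (hs : ξ ∈ FirstMeet y η s)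
    (ht : ξ ∈ FirstMeet y η t) : s = t := by
  rcases lt_trichotomy s t with h | h | h
  · obtain ⟨j, hj⟩ := hs.2; exact absurd hj (ht.1 s h j)
  · exact h
  · obtain ⟨j, hj⟩ := ht.2; exact absurd hj (hs.1 t h j)

lemma measurable_pos (t : ℕ) : Measurable fun ξ : Steps d => pos ξ t :=
  Finset.measurable_sum _ fun i _ =>
    (measurable_of_countable (vec (d := d))).fun_comp (measurable_pi_apply i)

lemma measurableSet_pair_firstMeet (y : Site d) (t : ℕ) :
    MeasurableSet {z : Steps d × Steps d | z.1 ∈ FirstMeet y z.2 t} := by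
  have he : ∀ w j, MeasurableSet {z : Steps d × Steps d | pos z.1 w = y + pos z.2 j} := by
    intro w j
    have hm : Measurable fun z : Steps d × Steps d => pos z.1 w - (y + pos z.2 j) :=
      ((measurable_pos w).comp measurable_fst).sub
        (measurable_const.add ((measurable_pos j).comp measurable_snd))
    have := hm (measurableSet_singleton (0 : Site d))
    simpa [Set.preimage, sub_eq_zero] using this
  have : {z : Steps d × Steps d | z.1 ∈ FirstMeet y z.2 t} =
      (⋂ w, ⋂ (_ : w < t), ⋂ j, {z : Steps d × Steps d | pos z.1 w = y + pos z.2 j}ᶜ) ∩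
        ⋃ j, {z : Steps d × Steps d | pos z.1 t = y + pos z.2 j} := by
    ext z; simp [FirstMeet]
  rw [this]
  exact (MeasurableSet.iInter fun w => .iInter fun _ => .iInter fun j => (he w j).compl).inter
    (.iUnion fun j => he t j)

variable [NeZero d] (μ : Measure (Dir d → ℝ))

/-- The probability to continue from the first `t` steps into the band. -/
noncomputable def bandW (U : ℝ) (t : ℕ) (ξ : Steps d) : ℝ≥0∞ :=
  ann μ (cyl t ξ ∩ shift t ⁻¹' G.Band U (pos ξ t))

/-- At time `t` a walk that has reached level `a` and is still below `U` has a large band probability. -/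
def Bad (a : ℕ) (U : ℝ) (ε : ℝ≥0∞) (t : ℕ) : Set (Steps d) :=
  {ξ | (∃ u ≤ t, (a : ℝ) ≤ G.lv ξ u) ∧ (∀ w ≤ t, G.lv ξ w < U) ∧
    ε * ε * ann μ (cyl t ξ) < G.bandW μ U t ξ}

lemma bandW_congr (U : ℝ) {t : ℕ} {ξ η : Steps d} (h : ∀ i < t, η i = ξ i) :
    G.bandW μ U t η = G.bandW μ U t ξ := by
  rw [bandW, bandW, pos_congr h, cyl_eq_of_mem h]

lemma decided_bad (a : ℕ) (U : ℝ) (ε : ℝ≥0∞) (t : ℕ) : Decided t (G.Bad μ a U ε t) := by
  rintro ξ η h ⟨⟨u, hu, h1⟩, h2, h3⟩
  refine ⟨⟨u, hu, by rwa [G.lv_congr hu h]⟩, fun w hw => ?_, ?_⟩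
  · rw [G.lv_congr hw h]; exact h2 w hw
  · rwa [G.bandW_congr μ U h, cyl_eq_of_mem h]

variable [Law μ]

lemma bandW_eq (U : ℝ) (t : ℕ) (ξ : Steps d) :
    ∫⁻ ω, wt ω 0 t ξ * quen ω (pos ξ t) (G.Band U (pos ξ t)) ∂envLaw μ = G.bandW μ U t ξ := by
  rw [bandW, ← lintegral_quen μ 0
    ((measurableSet_cyl t ξ).inter (measurable_shift t (G.measurableSet_Band U _)))]
  refine lintegral_congr_ae ((ae_goodEnv μ).mono fun ω hω => ?_)
  simp only
  rw [quen_markov hω 0 t ξ (G.measurableSet_Band U _), zero_add]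

omit [Law μ] in
/-- Bad times are rare. -/
theorem ann_bad_le (a : ℕ) (U : ℝ) (ε : ℝ≥0∞) :
    ε * ε * ann μ (⋃ t, G.Bad μ a U ε t) ≤ ann μ (G.BandEv a U) := by
  classical
  set FB : ℕ → Set (Steps d) := fun t => G.Bad μ a U ε t ∩ ⋂ w, ⋂ (_ : w < t), (G.Bad μ a U ε w)ᶜ
  have hdec : ∀ t, Decided t (FB t) := by
    intro t ξ η h hξ
    refine ⟨G.decided_bad μ a U ε t ξ η h hξ.1, ?_⟩
    simp only [Set.mem_iInter, Set.mem_compl_iff]
    intro w hw hη
    exact (Set.mem_iInter₂.1 hξ.2 w hw)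
      (G.decided_bad μ a U ε w η ξ (fun i hi => (h i (lt_trans hi hw)).symm) hη)
  have huniq : Pairwise (Function.onFun Disjoint FB) := by
    intro s t hst
    refine Set.disjoint_left.2 fun ξ hs ht => ?_
    rcases lt_or_gt_of_ne hst with h | h
    · exact (Set.mem_iInter₂.1 ht.2 s h) hs.1
    · exact (Set.mem_iInter₂.1 hs.2 t h) ht.1
  have hcover : (⋃ t, G.Bad μ a U ε t) ⊆ ⋃ t, FB t := fun ξ hξ => by
    have hex : ∃ t, ξ ∈ G.Bad μ a U ε t := Set.mem_iUnion.1 hξ
    exact Set.mem_iUnion.2 ⟨Nat.find hex, Nat.find_spec hex,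
      Set.mem_iInter₂.2 fun w hw => Nat.find_min hex hw⟩
  set E : ℕ → Set (Steps d) := fun t =>
    ⋃ w ∈ wordsIn t (FB t), cyl t (ext w) ∩ shift t ⁻¹' G.Band U (pos (ext w) t)
  have hEm : ∀ t, MeasurableSet (E t) := fun t => (wordsIn t (FB t)).measurableSet_biUnion fun w _ =>
    (measurableSet_cyl t _).inter (measurable_shift t (G.measurableSet_Band U _))
  have hEsub : ∀ t, E t ⊆ FB t := fun t => Set.iUnion₂_subset fun w hw =>
    Set.inter_subset_left.trans ((hdec t).cyl_subset (by simpa [wordsIn] using hw))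
  have hle : ∀ t, ε * ε * ann μ (FB t) ≤ ann μ (E t) := by
    intro t
    rw [(hdec t).measure_eq, Finset.mul_sum, measure_biUnion_finset]
    · refine Finset.sum_le_sum fun w hw => ?_
      have hw' : ext w ∈ FB t := by simpa [wordsIn] using hw
      exact le_of_lt hw'.1.2.2
    · exact fun v _ w _ hvw => (disjoint_cyl_ext hvw).mono Set.inter_subset_left Set.inter_subset_left
    · exact fun w _ => (measurableSet_cyl t _).inter (measurable_shift t (G.measurableSet_Band U _))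
  calc ε * ε * ann μ (⋃ t, G.Bad μ a U ε t) ≤ ε * ε * ∑' t, ann μ (FB t) :=
        mul_le_mul_right ((measure_mono hcover).trans (measure_iUnion_le _)) _
    _ ≤ ∑' t, ann μ (E t) := by
        rw [← ENNReal.tsum_mul_left]
        exact ENNReal.tsum_le_tsum hle
    _ = ann μ (⋃ t, E t) :=
        (measure_iUnion (fun s t hst => (huniq hst).mono (hEsub s) (hEsub t)) hEm).symm
    _ ≤ ann μ (G.BandEv a U) := by
        refine measure_mono (Set.iUnion_subset fun t => Set.iUnion₂_subset fun w hw ξ hξ => ?_)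
        have hw' : ext w ∈ FB t := by simpa [wordsIn] using hw
        obtain ⟨hξc, hband⟩ := hξ
        obtain ⟨⟨u, hu, hua⟩, hbelow, -⟩ := hw'.1
        refine ⟨⟨⟨u, by rw [G.lv_congr hu hξc]; exact hua⟩, fun n => ?_⟩, (G.neg.esc_shift t).1 hband.2⟩
        rcases le_or_gt n t with hn | hn
        · rw [G.lv_congr hn hξc]; exact hbelow n hn
        · have h := hband.1 (n - t)
          rw [← pos_congr hξc, ← pos_add, Nat.add_sub_cancel' hn.le] at h
          exact h

/-- The meeting in a window: at most six `ε` per checkpoint, up to the bad times. -/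
theorem ann_win_le {A : Set (Steps d)} (hA : MeasurableSet A) (y : Site d) {a b : ℕ} {U : ℝ}
    (hbU : (b : ℝ) ≤ U) (hy : G.lev y < U) {ε : ℝ≥0∞} (hε : ε ≠ 0) (hε' : ε ≠ ∞) :
    (ann μ).prod (ann μ) (G.Win A y a b) ≤
      6 * ε * G.cost μ A a b + ann μ (A ∩ ⋃ t, G.Bad μ a U ε t) := by
  classical
  set Z : Set (Steps d) := {ξ | ξ ∈ A ∧ ∃ t, cnd μ A t ξ = 0}
  have hZ : ann μ Z = 0 := by
    rw [measure_eq_zero_iff_ae_notMem]
    filter_upwards [ae_all_iff.2 fun t => ae_cnd_pos μ A t] with ξ hξ h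
    obtain ⟨t, ht⟩ := h.2
    exact (hξ t h.1).ne' ht
  set Pc : ℕ → ℕ → Set (Steps d × Steps d) := fun i s =>
    {z | z.1 ∈ A ∧ z.1 ∈ G.CP μ A a b i s \ G.Bad μ a U ε s ∧ z.2 ∈ G.Back ∧ ∃ t ≥ s,
      z.1 ∈ FirstMeet y z.2 t ∧ (∀ w ≤ t, G.lv z.1 w < b) ∧ cnd μ A t z.1 ≤ 3 * cnd μ A s z.1}
  have hsub : G.Win A y a b ⊆
      ((A ∩ ⋃ t, G.Bad μ a U ε t) ×ˢ Set.univ ∪ Z ×ˢ Set.univ) ∪ ⋃ i, ⋃ s, Pc i s := by
    rintro ⟨ξ, η⟩ ⟨hξ, hη, t, hmeet, ⟨v, hvt, hva⟩, hbelow⟩
    by_cases hz : ξ ∈ Z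
    · exact Or.inl (Or.inr ⟨hz, trivial⟩)
    have hu : ξ ∈ G.Hit a (G.T a ξ) := G.hit_T ⟨v, hva⟩
    have hut : G.T a ξ ≤ t := by
      refine le_trans (not_lt.1 fun h => ?_) hvt
      exact absurd hva (not_le.2 (hu.2 v h))
    have hpos : 0 < cnd μ A (G.T a ξ) ξ := pos_iff_ne_zero.2 fun h => hz ⟨hξ, _, h⟩
    obtain ⟨i, s, hst, hs, hc⟩ := G.exists_CP_le μ hu hut hpos hbelow
    by_cases hbad : ξ ∈ G.Bad μ a U ε s
    · exact Or.inl (Or.inl ⟨⟨hξ, Set.mem_iUnion.2 ⟨s, hbad⟩⟩, trivial⟩)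
    · exact Or.inr (Set.mem_iUnion₂.2 ⟨i, s, hξ, ⟨hs, hbad⟩, hη, t, hst, hmeet, hbelow, hc⟩)
  have hpc : ∀ i s, (ann μ).prod (ann μ) (Pc i s) ≤ 6 * ε * ann μ (G.CP μ A a b i s ∩ A) := by
    intro i s
    set D : Set (Steps d) := G.CP μ A a b i s \ G.Bad μ a U ε s
    have hD : Decided s D := (G.decided_CP μ A a b i s).inter (G.decided_bad μ a U ε s).compl
    set M : (Fin s → Dir d) → Set (Steps d × Steps d) := fun w =>
      {z | z.1 ∈ cyl s (ext w) ∧ z.2 ∈ G.Back ∩ Avoid 0 s (ext w) y ∧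
        ∃ t, s ≤ t ∧ (∀ k ≤ t, G.lv z.1 k < b) ∧ ∃ j, pos z.1 t = y + pos z.2 j}
    have hslice : ∀ η, ann μ ((fun ξ => (ξ, η)) ⁻¹' Pc i s) ≤
        ∑ w ∈ wordsIn s D, 3 * cnd μ A s (ext w) * ann μ ((fun ξ => (ξ, η)) ⁻¹' M w) := by
      intro η
      have hcov : (fun ξ => (ξ, η)) ⁻¹' Pc i s ⊆ ⋃ w ∈ wordsIn s D,
          {ξ | ξ ∈ A ∧ ξ ∈ cyl s (ext w) ∧ η ∈ G.Back ∧ ∃ t ≥ s, ξ ∈ FirstMeet y η t ∧
            (∀ k ≤ t, G.lv ξ k < b) ∧ cnd μ A t ξ ≤ 3 * cnd μ A s ξ} := by
        rintro ξ ⟨h1, h2, h3, h4⟩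
        refine Set.mem_iUnion₂.2 ⟨fun k : Fin s => ξ k, ?_, h1, (mem_cyl_ext _ _).2 rfl, h3, h4⟩
        simp only [wordsIn, Finset.mem_filter, Finset.mem_univ, true_and]
        exact hD ξ _ (fun k hk => ext_apply _ hk) h2
      refine (measure_mono hcov).trans ((measure_biUnion_finset_le _ _).trans
        (Finset.sum_le_sum fun w _ => ?_))
      set B : ℕ → Set (Steps d) := fun t => {ξ | η ∈ G.Back ∧ s ≤ t ∧ ξ ∈ cyl s (ext w) ∧
        ξ ∈ FirstMeet y η t ∧ (∀ k ≤ t, G.lv ξ k < b) ∧ cnd μ A t ξ ≤ 3 * cnd μ A s (ext w)}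
      have hB : ∀ t, Decided t (B t) := by
        rintro t ξ ζ h ⟨h0, h1, h2, h3, h4, h5⟩
        refine ⟨h0, h1, fun k hk => (h k (lt_of_lt_of_le hk h1)).trans (h2 k hk),
          decided_firstMeet y η t ξ ζ h h3, fun k hk => ?_, by rwa [cnd_congr μ A h]⟩
        rw [G.lv_congr hk h]; exact h4 k hk
      have hBd : Pairwise (Function.onFun Disjoint B) := fun t t' htt =>
        Set.disjoint_left.2 fun ξ h h' => htt (firstMeet_unique h.2.2.2.1 h'.2.2.2.1)
      calc ann μ {ξ | ξ ∈ A ∧ ξ ∈ cyl s (ext w) ∧ η ∈ G.Back ∧ ∃ t ≥ s, ξ ∈ FirstMeet y η t ∧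
              (∀ k ≤ t, G.lv ξ k < b) ∧ cnd μ A t ξ ≤ 3 * cnd μ A s ξ}
          ≤ ann μ (⋃ t, B t ∩ A) := by
            refine measure_mono ?_
            rintro ξ ⟨h1, h2, h3, t, ht, h4, h5, h6⟩
            exact Set.mem_iUnion.2 ⟨t, ⟨h3, ht, h2, h4, h5, by rwa [← cnd_congr μ A h2]⟩, h1⟩
        _ ≤ ∑' t, ann μ (B t ∩ A) := measure_iUnion_le _
        _ ≤ ∑' t, 3 * cnd μ A s (ext w) * ann μ (B t) := by
            refine ENNReal.tsum_le_tsum fun t => ?_
            rw [← lintegral_cnd_self μ (hB t) A, ← setLIntegral_const]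
            exact setLIntegral_mono' (hB t).measurableSet fun ξ hξ => hξ.2.2.2.2.2
        _ = 3 * cnd μ A s (ext w) * ann μ (⋃ t, B t) := by
            rw [ENNReal.tsum_mul_left, measure_iUnion hBd fun t => (hB t).measurableSet]
        _ ≤ _ := by
            refine mul_le_mul_right (measure_mono (Set.iUnion_subset fun t => ?_)) _
            rintro ξ ⟨h0, h1, h2, ⟨h3, h3'⟩, h4, -⟩
            refine ⟨h2, ⟨h0, fun j hj => ?_⟩, t, h1, h4, h3'⟩
            obtain ⟨k, hk, he⟩ := mem_rows.1 hj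
            rw [zero_add, ← pos_cyl hk.le h2] at he
            exact h3 k (lt_of_lt_of_le hk h1) j he
    have hMm : ∀ w, MeasurableSet (M w) := by
      intro w
      have hM : M w = (Prod.fst ⁻¹' cyl s (ext w) ∩ Prod.snd ⁻¹' (G.Back ∩ Avoid 0 s (ext w) y)) ∩
          ⋃ t, ⋃ (_ : s ≤ t), ((⋂ k, ⋂ (_ : k ≤ t), {z : Steps d × Steps d | G.lv z.1 k < b}) ∩
            ⋃ j, {z : Steps d × Steps d | pos z.1 t = y + pos z.2 j}) := by
        ext z
        simp only [M, Set.mem_ofPred_eq, Set.mem_inter_iff, Set.mem_preimage, Set.mem_iUnion,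
          Set.mem_iInter, exists_prop]
        constructor
        · rintro ⟨h1, ⟨h2, h2'⟩, t, h3, h4, h5⟩
          exact ⟨⟨h1, h2, h2'⟩, t, h3, h4, h5⟩
        · rintro ⟨⟨h1, h2, h2'⟩, t, h3, h4, h5⟩
          exact ⟨h1, ⟨h2, h2'⟩, t, h3, h4, h5⟩
      rw [hM]
      refine ((measurable_fst (measurableSet_cyl s _)).inter (measurable_snd ?_)).inter
        (.iUnion fun t => .iUnion fun _ => MeasurableSet.inter ?_ (.iUnion fun j => ?_))
      · refine G.measurableSet_Back.inter ?_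
        have : Avoid 0 s (ext w) y = ⋂ j, (fun η : Steps d => y + pos η j) ⁻¹'
            (↑(rows 0 s (ext w)) : Set (Site d))ᶜ := by
          ext η; simp [Avoid]
        rw [this]
        exact .iInter fun j => (measurable_const.add (measurable_pos j)) (Finset.measurableSet _).compl
      · exact .iInter fun k => .iInter fun _ =>
          measurableSet_lt ((G.measurable_lv k).comp measurable_fst) measurable_const
      · exact measurableSet_eq_fun ((measurable_pos t).comp measurable_fst)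
          (measurable_const.add ((measurable_pos j).comp measurable_snd))
    have hPcm : MeasurableSet (Pc i s) := by
      have : Pc i s = (Prod.fst ⁻¹' (A ∩ D) ∩ Prod.snd ⁻¹' G.Back) ∩ ⋃ t, ⋃ (_ : s ≤ t),
          ({z : Steps d × Steps d | z.1 ∈ FirstMeet y z.2 t} ∩
            ((⋂ k, ⋂ (_ : k ≤ t), {z : Steps d × Steps d | G.lv z.1 k < b}) ∩
              {z : Steps d × Steps d | cnd μ A t z.1 ≤ 3 * cnd μ A s z.1})) := by
        ext z
        simp only [Pc, D, Set.mem_ofPred_eq, Set.mem_inter_iff, Set.mem_preimage, Set.mem_iUnion,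
          Set.mem_iInter, exists_prop, ge_iff_le]
        constructor
        · rintro ⟨h1, h2, h3, t, h4, h5, h6, h7⟩
          exact ⟨⟨⟨h1, h2⟩, h3⟩, t, h4, h5, h6, h7⟩
        · rintro ⟨⟨⟨h1, h2⟩, h3⟩, t, h4, h5, h6, h7⟩
          exact ⟨h1, h2, h3, t, h4, h5, h6, h7⟩
      rw [this]
      refine ((measurable_fst (hA.inter hD.measurableSet)).inter (measurable_snd G.measurableSet_Back)).inter
        (.iUnion fun t => .iUnion fun _ => (measurableSet_pair_firstMeet y t).inter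
          (MeasurableSet.inter ?_ ?_))
      · exact .iInter fun k => .iInter fun _ =>
          measurableSet_lt ((G.measurable_lv k).comp measurable_fst) measurable_const
      · exact measurableSet_le ((measurable_cnd μ A t).comp measurable_fst)
          (((measurable_cnd μ A s).comp measurable_fst).const_mul _)
    calc (ann μ).prod (ann μ) (Pc i s)
        ≤ ∫⁻ η, ∑ w ∈ wordsIn s D, 3 * cnd μ A s (ext w) * ann μ ((fun ξ => (ξ, η)) ⁻¹' M w) ∂ann μ := by
          rw [Measure.prod_apply_symm hPcm]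
          exact lintegral_mono hslice
      _ = ∑ w ∈ wordsIn s D, 3 * cnd μ A s (ext w) * (ann μ).prod (ann μ) (M w) := by
          rw [lintegral_finsetSum _ fun w _ => (measurable_measure_prodMk_right (hMm w)).const_mul _]
          exact Finset.sum_congr rfl fun w _ => by
            rw [lintegral_const_mul _ (measurable_measure_prodMk_right (hMm w)),
              Measure.prod_apply_symm (hMm w)]
      _ ≤ ∑ w ∈ wordsIn s D, 6 * ε * ann μ (cyl s (ext w) ∩ A) := by
          refine Finset.sum_le_sum fun w hw => ?_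
          have hw' : ext w ∈ D := by simpa [wordsIn] using hw
          have hlem := G.meet_lemma μ s (ext w) y hbU (G.measurableSet_Back)
            (G.back_subset_band hy) hε hε'
          rw [G.bandW_eq μ U s (ext w)] at hlem
          have hnb : G.bandW μ U s (ext w) ≤ ε * ε * ann μ (cyl s (ext w)) := by
            obtain ⟨⟨u, hus, hu, -⟩, hbelow⟩ := hw'.1
            exact not_lt.1 fun h => hw'.2
              ⟨⟨u, hus, hu.1⟩, fun k hk => lt_of_lt_of_le (hbelow k hk) hbU, h⟩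
          have h2 : ε⁻¹ * G.bandW μ U s (ext w) ≤ ε * ann μ (cyl s (ext w)) := by
            refine (mul_le_mul_right hnb _).trans_eq ?_
            rw [← mul_assoc, ← mul_assoc, ENNReal.inv_mul_cancel hε hε', one_mul]
          calc 3 * cnd μ A s (ext w) * (ann μ).prod (ann μ) (M w)
              ≤ 3 * cnd μ A s (ext w) * (ε * ann μ (cyl s (ext w)) + ε * ann μ (cyl s (ext w))) :=
                mul_le_mul_right (hlem.trans (add_le_add_right h2 _)) _
            _ = 6 * ε * (cnd μ A s (ext w) * ann μ (cyl s (ext w))) := by ring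
            _ = _ := by rw [cnd_mul]
      _ = 6 * ε * ann μ (D ∩ A) := by
          rw [hD.measure_inter _ hA, Finset.mul_sum]
      _ ≤ _ := mul_le_mul_right (measure_mono (Set.inter_subset_inter_left _ Set.sdiff_subset)) _
  calc (ann μ).prod (ann μ) (G.Win A y a b)
      ≤ (ann μ).prod (ann μ) (((A ∩ ⋃ t, G.Bad μ a U ε t) ×ˢ Set.univ ∪ Z ×ˢ Set.univ) ∪
          ⋃ i, ⋃ s, Pc i s) := measure_mono hsub
    _ ≤ (ann μ).prod (ann μ) ((A ∩ ⋃ t, G.Bad μ a U ε t) ×ˢ Set.univ) +
          (ann μ).prod (ann μ) (Z ×ˢ Set.univ) + ∑' i, ∑' s, (ann μ).prod (ann μ) (Pc i s) :=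
        (measure_union_le _ _).trans (add_le_add (measure_union_le _ _)
          ((measure_iUnion_le _).trans (ENNReal.tsum_le_tsum fun i => measure_iUnion_le _)))
    _ ≤ ann μ (A ∩ ⋃ t, G.Bad μ a U ε t) + 0 + 6 * ε * G.cost μ A a b := by
        rw [Measure.prod_prod, Measure.prod_prod, measure_univ, mul_one, mul_one, hZ, cost]
        simp only [← ENNReal.tsum_mul_left]
        exact add_le_add_right (ENNReal.tsum_le_tsum fun i => ENNReal.tsum_le_tsum (hpc i)) _
    _ = _ := by rw [add_zero, add_comm]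

end Vale.Agent.P147.Geo
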