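import Vale.Agent.P147.Tip
import Vale.Agent.P147.Window

/-!
# P147: the budgets of meetings, windows and bands

The second walker, started at the tip of a regeneration of the first, rarely misses the path of the first:
the glued paths of the misses are disjoint events. The windows of targets and the bands are disjoint up to
the number of overlaps.
-/

open MeasureTheory Filter
open scoped ENNReal

namespace Vale.Agent.P147.Geo

open Cyl

variable {d : ℕ} (G : Geo d)

lemma vec_fs_ne_zero : vec G.fs ≠ 0 := by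
  intro h
  have := congrFun h G.fs.1
  simp only [vec, Pi.single_eq_same, Pi.zero_apply] at this
  cases h' : G.fs.2 <;> simp [h'] at this

lemma vec_fs_ne_es : vec G.fs ≠ vec G.es := by
  intro h
  have := congrFun h G.fs.1
  simp only [vec, Pi.single_eq_same, Pi.single_eq_of_ne G.perp] at this
  cases h' : G.fs.2 <;> simp [h'] at this

/-- A target in a window of unit length is unique. -/
theorem tgt_window_unique {K K' m : ℕ} {x x' : Site d} {ξ : Steps d} (hx : ξ ∈ G.Tgt K x)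
    (hx' : ξ ∈ G.Tgt K' x') (a1 : (m : ℝ) ≤ G.lev x) (a2 : G.lev x < m + 1)
    (b1 : (m : ℝ) ≤ G.lev x') (b2 : G.lev x' < m + 1) : K = K' ∧ x = x' := by
  obtain ⟨n, ⟨hn, hp⟩, hs⟩ := Set.mem_iUnion.1 hx
  obtain ⟨n', ⟨hn', hp'⟩, hs'⟩ := Set.mem_iUnion.1 hx'
  obtain ⟨-, hr, hc⟩ := G.mem_atReg_inter.1 ⟨hn, hs⟩
  obtain ⟨-, hr', hc'⟩ := G.mem_atReg_inter.1 ⟨hn', hs'⟩
  have e1 : G.lv ξ n = G.lev x := congrArg G.lev hp
  have e2 : G.lv ξ n' = G.lev x' := congrArg G.lev hp'
  have : n = n' := by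
    rcases lt_trichotomy n n' with h | h | h
    · linarith [G.reg_lt hr h]
    · exact h
    · linarith [G.reg_lt hr' h]
  subst this
  exact ⟨hc.symm.trans hc', hp.symm.trans hp'⟩

/-- The turn after a regeneration: a step `es` and a step `fs`. -/
def turn : Steps d := fun i => if i = 0 then G.es else G.fs

lemma pos_turn_one : pos G.turn 1 = vec G.es := by simp [pos, turn]

lemma pos_turn_two : pos G.turn 2 = vec G.es + vec G.fs := by
  simp [pos, turn, Finset.sum_range_succ]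

/-- A word followed by the turn. -/
def glue (n : ℕ) (ξ : Steps d) : Steps d := fun i => if i < n then ξ i else G.turn (i - n)

lemma glue_mem (n : ℕ) (ξ : Steps d) : G.glue n ξ ∈ cyl n ξ := fun _ hi => if_pos hi

lemma shift_glue (n : ℕ) (ξ : Steps d) : shift n (G.glue n ξ) = G.turn := by
  funext i; simp [shift, glue]

lemma pos_glue_one (n : ℕ) (ξ : Steps d) : pos (G.glue n ξ) (n + 1) = pos ξ n + vec G.es := by
  rw [pos_add, pos_cyl le_rfl (G.glue_mem n ξ), G.shift_glue, pos_turn_one]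

lemma pos_glue_two (n : ℕ) (ξ : Steps d) : pos (G.glue n ξ) (n + 2) = G.tip (pos ξ n) := by
  rw [pos_add, pos_cyl le_rfl (G.glue_mem n ξ), G.shift_glue, pos_turn_two, tip, add_assoc]

variable [NeZero d]

/-- The glued path of a miss: the prefix, the turn, and the second walker. -/
def Glued (n : ℕ) (ξ : Steps d) : Set (Steps d) :=
  cyl (n + 2) (G.glue n ξ) ∩ shift (n + 2) ⁻¹' (G.Back ∩ Avoid 0 (n + 1) ξ (G.tip (pos ξ n)))

omit [NeZero d] in
/-- In a glued path, the end of the turn is the last maximum of the level. -/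
lemma glued_last_max {n : ℕ} {ξ Z : Steps d} (hξ : G.Rec n ξ) (hZ : Z ∈ G.Glued n ξ) :
    (∀ k, G.lv Z k ≤ G.lv Z (n + 2)) ∧ ∀ k, n + 2 < k → G.lv Z k < G.lv Z (n + 2) := by
  obtain ⟨hc, hb, -⟩ := hZ
  have e2 : G.lv Z (n + 2) = G.lev (G.tip (pos ξ n)) := by
    rw [lv, pos_cyl le_rfl hc, G.pos_glue_two]
  have hlate : ∀ k, n + 2 < k → G.lv Z k < G.lv Z (n + 2) := by
    intro k hk
    obtain ⟨j, rfl⟩ := Nat.exists_eq_add_of_le hk.le
    have h := G.lv_shift Z (n + 2) j
    have : G.lv (shift (n + 2) Z) j < 0 := by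
      match j with
      | 0 => omega
      | 1 =>
        rw [lv_succ, lv_zero, show shift (n + 2) Z 0 = flip G.es from hb.1, vec_flip, lev_neg, lev_es]
        norm_num
      | j + 2 => linarith [G.back_lv hb (show 2 ≤ j + 2 by omega)]
    linarith
  refine ⟨fun k => ?_, hlate⟩
  rcases lt_or_ge (n + 2) k with hk | hk
  · exact (hlate k hk).le
  · have hle := G.le_lev_tip (pos ξ n)
    rw [e2, lv, pos_cyl hk hc]
    rcases (by omega : k ≤ n ∨ k = n + 1 ∨ k = n + 2) with h | h | h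
    · rw [pos_cyl h (G.glue_mem n ξ)]
      rcases eq_or_lt_of_le h with rfl | h'
      · linarith
      · have h3 : G.lev (pos ξ k) < G.lev (pos ξ n) := hξ k h'
        linarith
    · rw [h, G.pos_glue_one, lev_add, lev_es]; linarith
    · rw [h, G.pos_glue_two]

variable (μ : Measure (Dir d → ℝ)) [Law μ]

/-- The probability that the second walker steps back and regenerates. -/
theorem ann_back : ann μ G.Back = ann μ (cyl 1 (fun _ => flip G.es)) * G.neg.sReg μ := by
  have he : G.Back = cyl 1 (fun _ => flip G.es) ∩ shift 1 ⁻¹' G.neg.S := by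
    ext η; simp [Back, mem_cyl]
  rw [he]
  refine G.neg.ann_rec_split_S μ (decided_cyl 1 _) (fun ξ hξ j hj => ?_) G.neg.measurableSet_S
    subset_rfl
  obtain rfl : j = 0 := by omega
  have h0 : ξ 0 = flip G.es := hξ 0 one_pos
  simp only [lv_neg, lv_zero]
  rw [lv_succ, lv_zero, h0, vec_flip, lev_neg, lev_es]
  norm_num

lemma ann_back_pos (h : 0 < G.neg.sReg μ) : 0 < ann μ G.Back := by
  rw [ann_back]
  exact ENNReal.mul_pos (ann_cyl_pos μ 1 _).ne' h.ne'

lemma measurableSet_glued (n : ℕ) (ξ : Steps d) : MeasurableSet (G.Glued n ξ) :=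
  (measurableSet_cyl _ _).inter
    (measurable_shift _ (G.measurableSet_Back.inter (measurableSet_avoid _ _ _ _)))

/-- A glued path costs one turn more than the pair. -/
lemma ann_glued {n : ℕ} {ξ : Steps d} (hξ : G.Rec n ξ) :
    ann μ (G.Glued n ξ) = ann μ (cyl 2 G.turn) *
      (ann μ (cyl n ξ) * ann μ (G.Back ∩ Avoid 0 (n + 1) ξ (G.tip (pos ξ n)))) := by
  have hav : G.Back ∩ Avoid 0 (n + 1) ξ (G.tip (pos ξ n)) ⊆
      Avoid 0 (n + 2) (G.glue n ξ) (pos (G.glue n ξ) (n + 2)) := by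
    rintro η ⟨hb, hη⟩ j hj
    rw [G.pos_glue_two] at hj
    obtain ⟨i, hi, he⟩ := mem_rows.1 hj
    rcases Nat.lt_or_ge i (n + 1) with h | h
    · rw [pos_cyl (Nat.lt_succ_iff.1 h) (G.glue_mem n ξ)] at he
      exact hη j (mem_rows.2 ⟨i, h, he⟩)
    · obtain rfl : i = n + 1 := by omega
      rw [zero_add, G.pos_glue_one] at he
      match j with
      | 0 =>
        rw [pos_zero, add_zero, tip] at he
        exact G.vec_fs_ne_zero (left_eq_add.1 he)
      | 1 =>
        rw [pos_succ, pos_zero, zero_add, show η 0 = flip G.es from hb.1, vec_flip, tip] at he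
        exact G.vec_fs_ne_es ((add_left_cancel (a := pos ξ n) (he.trans (by abel))).symm)
      | j + 2 =>
        have h1 := congrArg G.lev he
        simp only [lev_add, lev_es] at h1
        have h2 : G.lev (pos η (j + 2)) ≤ -2 := G.back_lv hb (by omega)
        linarith [G.lev_tip_le (pos ξ n)]
  have hcyl : ann μ (cyl (n + 2) (G.glue n ξ)) = ann μ (cyl n ξ) * ann μ (cyl 2 G.turn) := by
    have hd : Disjoint (rows 0 n (G.glue n ξ))
        (rows (0 + pos (G.glue n ξ) n) 2 (shift n (G.glue n ξ))) := by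
      rw [Finset.disjoint_left]
      intro z hz hz'
      obtain ⟨i, hi, rfl⟩ := mem_rows.1 hz
      obtain ⟨k, hk, he⟩ := mem_rows.1 hz'
      rw [G.shift_glue, zero_add, zero_add, pos_cyl le_rfl (G.glue_mem n ξ),
        pos_cyl hi.le (G.glue_mem n ξ)] at he
      have h1 := congrArg G.lev he
      have h2 : G.lev (pos ξ i) < G.lev (pos ξ n) := hξ i hi
      have h3 : 0 ≤ G.lev (pos G.turn k) := by
        rcases (by omega : k = 0 ∨ k = 1) with rfl | rfl
        · simp [lev_zero]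
        · rw [G.pos_turn_one, lev_es]; exact zero_le_one
      rw [lev_add] at h1
      linarith
    rw [ann_cyl μ 0 (n + 2)]
    simp only [wt_add]
    rw [lintegral_wt_mul μ _ _ _ _ _ _ hd, cyl_eq_of_mem (G.glue_mem n ξ), G.shift_glue]
  rw [Glued, ann_split μ (n + 2) _ (G.measurableSet_Back.inter (measurableSet_avoid _ _ _ _)) hav,
    hcyl]
  ring

/-- The misses have finite total probability. -/
lemma tsum_miss_le : ∑' K, (ann μ).prod (ann μ)
    ((⋃ n, G.AtReg K n ∩ shift n ⁻¹' G.S) ×ˢ G.Back \ G.Meet K) ≤ (ann μ (cyl 2 G.turn))⁻¹ := by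
  set φ := ann μ (cyl 2 G.turn)
  have hφ : φ ≠ 0 := (ann_cyl_pos μ 2 _).ne'
  set W : (Σ K : ℕ, Σ n : ℕ, {w : Fin n → Dir d // ext w ∈ G.AtReg K n}) → Set (Steps d) :=
    fun q => G.Glued q.2.1 (ext q.2.2.1) with hW
  have hWd : Pairwise (Function.onFun Disjoint W) := by
    rintro ⟨K, n, w, hw⟩ ⟨K', n', w', hw'⟩ hne
    refine Set.disjoint_left.2 fun Z h1 h2 => hne ?_
    have e : n = n' := by
      obtain ⟨m1, l1⟩ := G.glued_last_max hw.1 h1
      obtain ⟨m2, l2⟩ := G.glued_last_max hw'.1 h2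
      rcases lt_trichotomy n n' with h | h | h
      · linarith [l1 (n' + 2) (by omega), m2 (n + 2)]
      · exact h
      · linarith [l2 (n + 2) (by omega), m1 (n' + 2)]
    subst e
    have e1 : ∀ (v : Fin n → Dir d), Z ∈ G.Glued n (ext v) → (fun i : Fin n => Z i) = v :=
      fun v hv => (mem_cyl_ext v Z).1 fun i hi =>
        (cyl_anti (by omega : n ≤ n + 2) _ hv.1 i hi).trans (G.glue_mem n _ i hi)
    obtain rfl : w = w' := (e1 w h1).symm.trans (e1 w' h2)
    obtain rfl : K = K' := hw.2.2.symm.trans hw'.2.2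
    rfl
  have hstep : ∀ K, (ann μ).prod (ann μ)
      ((⋃ n, G.AtReg K n ∩ shift n ⁻¹' G.S) ×ˢ G.Back \ G.Meet K) ≤
      ∑' q : Σ n : ℕ, {w : Fin n → Dir d // ext w ∈ G.AtReg K n}, φ⁻¹ * ann μ (W ⟨K, q⟩) := by
    intro K
    have hsub : (⋃ n, G.AtReg K n ∩ shift n ⁻¹' G.S) ×ˢ G.Back \ G.Meet K ⊆
        ⋃ q : Σ n : ℕ, {w : Fin n → Dir d // ext w ∈ G.AtReg K n}, cyl q.1 (ext q.2.1) ×ˢ
          (G.Back ∩ Avoid 0 (q.1 + 1) (ext q.2.1) (G.tip (pos (ext q.2.1) q.1))) := by
      rintro ⟨ξ, η⟩ ⟨⟨hξ, hη⟩, hno⟩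
      obtain ⟨n, hn⟩ := Set.mem_iUnion.1 hξ
      have hc : ξ ∈ cyl n (ext fun i : Fin n => ξ i) := (mem_cyl_ext _ _).2 rfl
      have hw : ext (fun i : Fin n => ξ i) ∈ G.AtReg K n :=
        G.decided_atReg K n ξ _ (fun i hi => ext_apply _ hi) hn.1
      refine Set.mem_iUnion.2 ⟨⟨n, _, hw⟩, hc, hη, fun j hj => hno ⟨hη, n, hn, ?_⟩⟩
      obtain ⟨i, hi, he⟩ := mem_rows.1 hj
      refine ⟨i, Nat.lt_succ_iff.1 hi, j, ?_⟩
      dsimp only
      rwa [zero_add, ← pos_cyl (Nat.lt_succ_iff.1 hi) hc, ← pos_cyl le_rfl hc] at he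
    refine (measure_mono hsub).trans ((measure_iUnion_le _).trans (ENNReal.tsum_le_tsum fun q => ?_))
    simp only [hW]
    rw [Measure.prod_prod, G.ann_glued μ q.2.2.1, ← mul_assoc,
      ENNReal.inv_mul_cancel hφ (measure_ne_top _ _), one_mul]
  calc _ ≤ ∑' K, ∑' q : Σ n : ℕ, {w : Fin n → Dir d // ext w ∈ G.AtReg K n},
        φ⁻¹ * ann μ (W ⟨K, q⟩) := ENNReal.tsum_le_tsum hstep
    _ = φ⁻¹ * ann μ (⋃ q, W q) := by
        rw [measure_iUnion hWd fun q => G.measurableSet_glued _ _, ← ENNReal.tsum_mul_left,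
          ENNReal.tsum_sigma' (f := fun q => φ⁻¹ * ann μ (W q))]
    _ ≤ φ⁻¹ := (mul_le_mul_right prob_le_one _).trans_eq (mul_one _)

/-- The meeting probability tends to that of the two regeneration events. -/
theorem tendsto_meet (h : G.ManyReg μ) :
    Tendsto (fun K => (ann μ).prod (ann μ) (G.Meet K)) atTop (nhds (G.sReg μ * ann μ G.Back)) := by
  set full : ℕ → Set (Steps d × Steps d) :=
    fun K => (⋃ n, G.AtReg K n ∩ shift n ⁻¹' G.S) ×ˢ G.Back with hfull
  have hval : ∀ K, (ann μ).prod (ann μ) (full K) = G.sReg μ * ann μ G.Back := fun K => by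
    rw [hfull, Measure.prod_prod, G.ann_S_eq μ h K]
  have hle : ∀ K, G.Meet K ⊆ full K := fun K z ⟨hb, n, hn, _⟩ => ⟨Set.mem_iUnion.2 ⟨n, hn⟩, hb⟩
  have hzero : Tendsto (fun K => (ann μ).prod (ann μ) (full K \ G.Meet K)) atTop (nhds 0) := by
    refine ENNReal.tendsto_atTop_zero_of_tsum_ne_top
      (ne_top_of_le_ne_top ?_ (G.tsum_miss_le μ))
    exact ENNReal.inv_ne_top.2 (ann_cyl_pos μ 2 _).ne'
  have hc : G.sReg μ * ann μ G.Back ≠ ∞ := ENNReal.mul_ne_top (measure_ne_top _ _) (measure_ne_top _ _)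
  have hlow := ENNReal.Tendsto.sub (tendsto_const_nhds (x := G.sReg μ * ann μ G.Back) (f := atTop (α := ℕ)))
    hzero (Or.inl hc)
  rw [tsub_zero] at hlow
  refine tendsto_of_tendsto_of_tendsto_of_le_of_le hlow tendsto_const_nhds (fun K => ?_) fun K => ?_
  · refine tsub_le_iff_right.2 ?_
    rw [← hval K]
    refine (measure_mono ?_).trans (measure_union_le (G.Meet K) (full K \ G.Meet K))
    rw [Set.union_sdiff_self]
    exact Set.subset_union_right
  · exact (measure_mono (hle K)).trans (hval K).le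

/-- Bands overlap at most `c` times. -/
theorem sum_band_le {ι : Type*} (s : Finset ι) (a : ι → ℕ) (U : ι → ℝ) (c : ℕ)
    (hc : ∀ t ⊆ s, (∀ i ∈ t, ∀ i' ∈ t, (a i : ℝ) < U i') → t.card ≤ c) :
    ∑ i ∈ s, ann μ (G.BandEv (a i) (U i)) ≤ c := by
  classical
  have hm : ∀ i, MeasurableSet (G.BandEv (a i) (U i)) := fun i => by
    refine MeasurableSet.inter ?_ G.neg.measurableSet_Esc
    have : {ξ : Steps d | (∃ n, (a i : ℝ) ≤ G.lv ξ n) ∧ ∀ n, G.lv ξ n < U i} =
        (⋃ n, {ξ | (a i : ℝ) ≤ G.lv ξ n}) ∩ ⋂ n, {ξ | G.lv ξ n < U i} := by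
      ext ξ; simp
    rw [this]
    exact (MeasurableSet.iUnion fun n => measurableSet_le measurable_const (G.measurable_lv n)).inter
      (.iInter fun n => measurableSet_lt (G.measurable_lv n) measurable_const)
  calc ∑ i ∈ s, ann μ (G.BandEv (a i) (U i))
      = ∫⁻ ξ, ∑ i ∈ s, (G.BandEv (a i) (U i)).indicator 1 ξ ∂ann μ := by
        rw [lintegral_finsetSum _ fun i _ => measurable_one.indicator (hm i)]
        exact Finset.sum_congr rfl fun i _ => (lintegral_indicator_one (hm i)).symm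
    _ ≤ ∫⁻ _, (c : ℝ≥0∞) ∂ann μ := by
        refine lintegral_mono fun ξ => ?_
        simp only [Set.indicator_apply, Pi.one_apply, Finset.sum_boole]
        refine Nat.cast_le.2 (hc _ (Finset.filter_subset _ _) fun i hi i' hi' => ?_)
        obtain ⟨n, hn⟩ := (Finset.mem_filter.1 hi).2.1.1
        exact lt_of_le_of_lt hn ((Finset.mem_filter.1 hi').2.1.2 n)
    _ = c := by simp

end Vale.Agent.P147.Geo
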