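import Vale.Agent.P147.Entropy

/-!
# P147: checkpoints of a conditional probability

Between the first passages of two levels, the checkpoint `i` is the first time at which the conditional
probability of a target has grown by the factor `3 ^ i`. Their expected number on the target is controlled by
the drop of the entropy.
-/

open MeasureTheory Filter
open scoped ENNReal

namespace Vale.Agent.P147.Geo

open Cyl

variable {d : ℕ} [NeZero d] (G : Geo d) (μ : Measure (Dir d → ℝ)) [Law μ]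

/-- `t` is the checkpoint `i` of `A`, after the first passage of level `a`, before that of `b`. -/
def CP (A : Set (Steps d)) (a b i t : ℕ) : Set (Steps d) :=
  {ξ | (∃ u ≤ t, ξ ∈ G.Hit a u ∧ 0 < cnd μ A u ξ ∧ 3 ^ i * cnd μ A u ξ ≤ cnd μ A t ξ ∧
    ∀ w, u ≤ w → w < t → cnd μ A w ξ < 3 ^ i * cnd μ A u ξ) ∧ ∀ w ≤ t, G.lv ξ w < b}

/-- The expected number of checkpoints on the target. -/
noncomputable def cost (A : Set (Steps d)) (a b : ℕ) : ℝ≥0∞ :=
  ∑' i, ∑' t, ann μ (G.CP μ A a b i t ∩ A)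

omit [Law μ] in
lemma decided_CP (A : Set (Steps d)) (a b i t : ℕ) : Decided t (G.CP μ A a b i t) := by
  rintro ξ η h ⟨⟨u, hut, h1, h2, h3, h4⟩, h5⟩
  have hu : ∀ j < u, η j = ξ j := fun j hj => h j (lt_of_lt_of_le hj hut)
  refine ⟨⟨u, hut, G.decided_hit a u ξ η hu h1, ?_, ?_, fun w hw hwt => ?_⟩, fun w hw => ?_⟩
  · rwa [cnd_congr μ A hu]
  · rwa [cnd_congr μ A hu, cnd_congr μ A h]
  · rw [cnd_congr μ A hu, cnd_congr μ A fun j hj => h j (lt_trans hj hwt)]
    exact h4 w hw hwt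
  · rw [G.lv_congr hw h]
    exact h5 w hw

omit [Law μ] in
lemma CP_unique {A : Set (Steps d)} {a b i s t : ℕ} {ξ : Steps d} (hs : ξ ∈ G.CP μ A a b i s)
    (ht : ξ ∈ G.CP μ A a b i t) : s = t := by
  obtain ⟨⟨u, hus, h1, -, h3, h4⟩, -⟩ := hs
  obtain ⟨⟨v, hvt, h1', -, h3', h4'⟩, -⟩ := ht
  obtain rfl : u = v := (G.T_eq h1).symm.trans (G.T_eq h1')
  rcases lt_trichotomy s t with h | h | h
  · exact absurd h3 (not_le.2 (h4' s hus h))
  · exact h
  · exact absurd h3' (not_le.2 (h4 t hvt h))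

omit [Law μ] in
lemma CP_lt_hit {A : Set (Steps d)} {a b i t s : ℕ} {ξ : Steps d} (h : ξ ∈ G.CP μ A a b i t)
    (hs : ξ ∈ G.Hit b s) : t < s :=
  not_le.1 fun hle => absurd hs.1 (not_le.2 (h.2 s hle))

omit [Law μ] in
/-- A level which has been reached has a checkpoint. -/
lemma exists_CP {A : Set (Steps d)} {a b i u t : ℕ} {ξ : Steps d} (hu : ξ ∈ G.Hit a u) (hut : u ≤ t)
    (hc : 0 < cnd μ A u ξ) (hb : ∀ w ≤ t, G.lv ξ w < b)
    (hi : 3 ^ i * cnd μ A u ξ ≤ cnd μ A t ξ) : ∃ s ≤ t, ξ ∈ G.CP μ A a b i s := by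
  classical
  have hex : ∃ w, u ≤ w ∧ 3 ^ i * cnd μ A u ξ ≤ cnd μ A w ξ := ⟨t, hut, hi⟩
  have hle : Nat.find hex ≤ t := Nat.find_min' hex ⟨hut, hi⟩
  refine ⟨Nat.find hex, hle, ⟨u, (Nat.find_spec hex).1, hu, hc, (Nat.find_spec hex).2,
    fun w hw hlt => ?_⟩, fun w hw => hb w (hw.trans hle)⟩
  exact not_le.1 fun h => Nat.find_min hex hlt ⟨hw, h⟩

omit [Law μ] in
lemma CP_bound {A : Set (Steps d)} {a b i t : ℕ} {ξ : Steps d} (h : ξ ∈ G.CP μ A a b i t) :
    (i : ℝ) ≤ -Real.log (G.cT μ A a ξ).toReal ∧ 0 < G.cT μ A a ξ ∧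
      3 ^ i * G.cT μ A a ξ ≤ cnd μ A t ξ := by
  obtain ⟨⟨u, hut, h1, h2, h3, -⟩, -⟩ := h
  rw [cT, G.T_eq h1]
  refine ⟨?_, h2, h3⟩
  have h4 : (3 : ℝ≥0∞) ^ i * cnd μ A u ξ ≤ 1 := h3.trans (cnd_le_one μ A t ξ)
  have hpos : 0 < (cnd μ A u ξ).toReal :=
    ENNReal.toReal_pos h2.ne' (ne_top_of_le_ne_top ENNReal.one_ne_top (cnd_le_one μ A u ξ))
  have h5 : (3 : ℝ) ^ i * (cnd μ A u ξ).toReal ≤ 1 := by
    have := ENNReal.toReal_mono ENNReal.one_ne_top h4
    simpa using this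
  have h6 := Real.log_nonpos (by positivity) h5
  rw [Real.log_mul (by positivity) hpos.ne', Real.log_pow] at h6
  have h7 : (1 : ℝ) ≤ Real.log 3 := by
    rw [Real.le_log_iff_exp_le (by norm_num)]
    linarith [Real.exp_one_lt_d9]
  nlinarith [Nat.cast_nonneg (α := ℝ) i]

omit [Law μ] in
/-- The last checkpoint before a time controls the conditional probability there. -/
lemma exists_CP_le {A : Set (Steps d)} {a b u t : ℕ} {ξ : Steps d} (hu : ξ ∈ G.Hit a u) (hut : u ≤ t)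
    (hc : 0 < cnd μ A u ξ) (hb : ∀ w ≤ t, G.lv ξ w < b) :
    ∃ i, ∃ s ≤ t, ξ ∈ G.CP μ A a b i s ∧ cnd μ A t ξ ≤ 3 * cnd μ A s ξ := by
  classical
  set P : ℕ → Prop := fun i => ∃ s ≤ t, ξ ∈ G.CP μ A a b i s
  set M := ⌊-Real.log (G.cT μ A a ξ).toReal⌋₊
  have hP : ∀ i, P i → i ≤ M := fun i ⟨s, _, hs⟩ => Nat.le_floor (G.CP_bound μ hs).1
  have h0 : P 0 := by
    obtain ⟨s, hs1, hs2⟩ := G.exists_CP μ (i := 0) hu le_rfl hc (fun w hw => hb w (hw.trans hut))
      (by simp)
    exact ⟨s, hs1.trans hut, hs2⟩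
  set i := Nat.findGreatest P M
  have hi : P i := Nat.findGreatest_spec (Nat.zero_le M) h0
  obtain ⟨s, hst, hs⟩ := hi
  refine ⟨i, s, hst, hs, ?_⟩
  have h3 := (G.CP_bound μ hs).2.2
  have hlt : cnd μ A t ξ ≤ 3 ^ (i + 1) * cnd μ A u ξ := by
    refine (le_of_not_ge fun h => ?_)
    have hi1 : P (i + 1) := G.exists_CP μ hu hut hc hb h
    exact Nat.findGreatest_is_greatest (Nat.lt_succ_self i) (hP _ hi1) hi1
  rw [cT, G.T_eq hu] at h3
  calc cnd μ A t ξ ≤ 3 ^ (i + 1) * cnd μ A u ξ := hlt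
    _ = 3 * (3 ^ i * cnd μ A u ξ) := by rw [pow_succ]; ring
    _ ≤ 3 * cnd μ A s ξ := mul_le_mul_right h3 _

/-- The number of checkpoints of a trajectory. -/
noncomputable def num (A : Set (Steps d)) (a b : ℕ) (ξ : Steps d) : ℝ≥0∞ :=
  ∑' i, ∑' t, (G.CP μ A a b i t).indicator 1 ξ

/-- The sum of the conditional probabilities at the checkpoints. -/
noncomputable def numC (A : Set (Steps d)) (a b : ℕ) (ξ : Steps d) : ℝ≥0∞ :=
  ∑' i, ∑' t, (G.CP μ A a b i t).indicator (cnd μ A t) ξ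

omit [Law μ] in
lemma num_le_count {A : Set (Steps d)} {a b : ℕ} {ξ : Steps d} {N : ℕ}
    (h : ∀ i t, ξ ∈ G.CP μ A a b i t → i < N) : G.num μ A a b ξ ≤ N := by
  classical
  calc G.num μ A a b ξ ≤ ∑' i : ℕ, if i < N then (1 : ℝ≥0∞) else 0 := by
        refine ENNReal.tsum_le_tsum fun i => ?_
        by_cases hi : ∃ t, ξ ∈ G.CP μ A a b i t
        · obtain ⟨t, ht⟩ := hi
          rw [if_pos (h i t ht), tsum_eq_single t]
          · rw [Set.indicator_of_mem ht, Pi.one_apply]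
          · exact fun s hs => Set.indicator_of_notMem (fun h' => hs (G.CP_unique μ h' ht)) _
        · push Not at hi
          rw [ENNReal.tsum_eq_zero.2 fun t => Set.indicator_of_notMem (hi t) _]
          exact zero_le
    _ = N := by
        rw [tsum_eq_sum (s := Finset.range N) fun i hi => if_neg (by simpa using hi),
          Finset.sum_congr rfl fun i hi => if_pos (Finset.mem_range.1 hi)]
        simp

omit [Law μ] in
lemma num_le_nlog {A : Set (Steps d)} {a b : ℕ} (ξ : Steps d) :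
    G.num μ A a b ξ ≤ nlog (G.cT μ A a ξ) + 1 := by
  classical
  by_cases hex : ∃ i t, ξ ∈ G.CP μ A a b i t
  · obtain ⟨i, t, hit⟩ := hex
    set x := -Real.log (G.cT μ A a ξ).toReal
    have h0 : 0 ≤ x := le_trans (Nat.cast_nonneg i) (G.CP_bound μ hit).1
    refine (G.num_le_count μ (N := ⌊x⌋₊ + 1) fun j s hj =>
      Nat.lt_succ_of_le (Nat.le_floor (G.CP_bound μ hj).1)).trans ?_
    rw [Nat.cast_add, Nat.cast_one, nlog]
    gcongr
    rw [← ENNReal.ofReal_natCast]
    exact ENNReal.ofReal_le_ofReal (Nat.floor_le h0)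
  · push Not at hex
    simp [num, hex]

omit [Law μ] in
lemma num_nlog_le {A : Set (Steps d)} {a b : ℕ} (hab : a ≤ b) {ξ : Steps d} (hE : ξ ∈ G.Esc)
    (ha : 0 < G.cT μ A a ξ) (hb : 0 < G.cT μ A b ξ) :
    nlog (G.cT μ A b ξ) + G.num μ A a b ξ ≤
      nlog (G.cT μ A a ξ) + (G.numC μ A a b ξ / (2 * G.cT μ A b ξ) + 2) := by
  classical
  set u := G.T a ξ
  set s := G.T b ξ
  have hu : ξ ∈ G.Hit a u := G.exists_hit_of_esc hE a
  have hs : ξ ∈ G.Hit b s := G.exists_hit_of_esc hE b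
  have hus : u ≤ s := G.T_mono hab hs
  rcases eq_or_lt_of_le hus with heq | hlt
  · have hno : ∀ i t, ξ ∉ G.CP μ A a b i t := by
      intro i t h
      have h' := G.CP_lt_hit μ h hs
      obtain ⟨⟨v, hvt, hv, -⟩, -⟩ := h
      have : u = v := G.T_eq hv
      omega
    have hc : G.cT μ A b ξ = G.cT μ A a ξ := by
      show cnd μ A s ξ = cnd μ A u ξ
      rw [heq]
    simp [num, hno, hc]
  · set w := s - 1
    have hbw : ∀ v ≤ w, G.lv ξ v < b := fun v hv => hs.2 v (by omega)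
    set P : ℕ → Prop := fun i => ∃ t, ξ ∈ G.CP μ A a b i t
    set M := ⌊-Real.log (G.cT μ A a ξ).toReal⌋₊
    have hP : ∀ i, P i → i ≤ M := fun i ⟨t, ht⟩ => Nat.le_floor (G.CP_bound μ ht).1
    have h0 : P 0 := by
      obtain ⟨t, -, ht⟩ := G.exists_CP μ (i := 0) hu le_rfl ha
        (fun v hv => hbw v (by omega)) (by rw [pow_zero, one_mul])
      exact ⟨t, ht⟩
    set J := Nat.findGreatest P M
    obtain ⟨t, ht⟩ : P J := Nat.findGreatest_spec (Nat.zero_le M) h0
    have hcount : G.num μ A a b ξ ≤ ((J + 1 : ℕ) : ℝ≥0∞) := G.num_le_count μ fun i v hv =>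
      Nat.lt_succ_of_le (Nat.le_findGreatest (hP i ⟨v, hv⟩) ⟨v, hv⟩)
    have hR : 3 ^ J * G.cT μ A a ξ ≤ G.numC μ A a b ξ :=
      calc (3 : ℝ≥0∞) ^ J * G.cT μ A a ξ ≤ cnd μ A t ξ := (G.CP_bound μ ht).2.2
        _ = (G.CP μ A a b J t).indicator (cnd μ A t) ξ := (Set.indicator_of_mem ht _).symm
        _ ≤ ∑' v, (G.CP μ A a b J v).indicator (cnd μ A v) ξ := ENNReal.le_tsum t
        _ ≤ _ := ENNReal.le_tsum (f := fun i => ∑' v, (G.CP μ A a b i v).indicator (cnd μ A v) ξ) J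
    have ha1 := G.cT_le_one μ A a ξ
    have hb1 := G.cT_le_one μ A b ξ
    have hat : G.cT μ A a ξ ≠ ∞ := ne_top_of_le_ne_top ENNReal.one_ne_top ha1
    have hbt : G.cT μ A b ξ ≠ ∞ := ne_top_of_le_ne_top ENNReal.one_ne_top hb1
    set x := (G.cT μ A a ξ).toReal with hxdef
    set y := (G.cT μ A b ξ).toReal with hydef
    have hx : 0 < x := ENNReal.toReal_pos ha.ne' hat
    have hy : 0 < y := ENNReal.toReal_pos hb.ne' hbt
    have hlx : Real.log x ≤ 0 :=
      Real.log_nonpos hx.le (ENNReal.toReal_le_of_le_ofReal zero_le_one (by simpa using ha1))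
    have hly : Real.log y ≤ 0 :=
      Real.log_nonpos hy.le (ENNReal.toReal_le_of_le_ofReal zero_le_one (by simpa using hb1))
    have hreal : -Real.log y + ((J + 1 : ℕ) : ℝ) ≤ -Real.log x + (3 ^ J * x / (2 * y) + 2) := by
      have h1 := Real.log_le_sub_one_of_pos (show 0 < 3 ^ J * x / (2 * y) by positivity)
      rw [Real.log_div (by positivity) (by positivity), Real.log_mul (by positivity) hx.ne',
        Real.log_mul two_ne_zero hy.ne', Real.log_pow] at h1
      have h2 : Real.log 2 ≤ 1 := by linarith [Real.log_two_lt_d9]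
      have h3 : (1 : ℝ) ≤ Real.log 3 := by
        rw [Real.le_log_iff_exp_le (by norm_num)]
        linarith [Real.exp_one_lt_d9]
      push_cast
      nlinarith [Nat.cast_nonneg (α := ℝ) J]
    calc nlog (G.cT μ A b ξ) + G.num μ A a b ξ
        ≤ nlog (G.cT μ A b ξ) + ((J + 1 : ℕ) : ℝ≥0∞) := add_le_add_right hcount _
      _ = ENNReal.ofReal (-Real.log y + ((J + 1 : ℕ) : ℝ)) := by
          rw [ENNReal.ofReal_add (by linarith) (Nat.cast_nonneg _), ENNReal.ofReal_natCast, nlog]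
      _ ≤ ENNReal.ofReal (-Real.log x + (3 ^ J * x / (2 * y) + 2)) := ENNReal.ofReal_le_ofReal hreal
      _ = nlog (G.cT μ A a ξ) + (3 ^ J * G.cT μ A a ξ / (2 * G.cT μ A b ξ) + 2) := by
          rw [ENNReal.ofReal_add (by linarith) (by positivity),
            ENNReal.ofReal_add (by positivity) zero_le_two, ENNReal.ofReal_div_of_pos (by positivity),
            ENNReal.ofReal_mul (by positivity), ENNReal.ofReal_mul zero_le_two,
            ENNReal.ofReal_pow (by norm_num), hxdef, hydef, ENNReal.ofReal_toReal hat,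
            ENNReal.ofReal_toReal hbt]
          simp [nlog]
      _ ≤ _ := by gcongr

omit [Law μ] in
lemma cost_eq (A : Set (Steps d)) (a b : ℕ) :
    G.cost μ A a b = ∫⁻ ξ in A, G.num μ A a b ξ ∂ann μ := by
  have hm : ∀ i t, Measurable ((G.CP μ A a b i t).indicator (1 : Steps d → ℝ≥0∞)) := fun i t =>
    measurable_one.indicator (G.decided_CP μ A a b i t).measurableSet
  unfold num
  rw [lintegral_tsum fun i => (Measurable.tsum (hm i)).aemeasurable]
  refine tsum_congr fun i => ?_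
  rw [lintegral_tsum fun t => (hm i t).aemeasurable]
  refine tsum_congr fun t => ?_
  rw [lintegral_indicator_one (G.decided_CP μ A a b i t).measurableSet,
    Measure.restrict_apply (G.decided_CP μ A a b i t).measurableSet]

omit [Law μ] in
lemma measurable_num (A : Set (Steps d)) (a b : ℕ) : Measurable (G.num μ A a b) :=
  Measurable.tsum fun i => Measurable.tsum fun t =>
    measurable_one.indicator (G.decided_CP μ A a b i t).measurableSet

omit [Law μ] in
lemma measurable_numC (A : Set (Steps d)) (a b : ℕ) : Measurable (G.numC μ A a b) :=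
  Measurable.tsum fun i => Measurable.tsum fun t =>
    (measurable_cnd μ A t).indicator (G.decided_CP μ A a b i t).measurableSet

lemma lintegral_numC_le {A : Set (Steps d)} (hA : MeasurableSet A) (hE : A ⊆ G.Esc) (a b : ℕ) :
    ∫⁻ ξ in A, G.numC μ A a b ξ / G.cT μ A b ξ ∂ann μ ≤ G.cost μ A a b := by
  have hm : ∀ i t, Measurable fun ξ =>
      (G.CP μ A a b i t).indicator (cnd μ A t) ξ / G.cT μ A b ξ := fun i t =>
    ((measurable_cnd μ A t).indicator (G.decided_CP μ A a b i t).measurableSet).div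
      (G.measurable_cT μ A b)
  simp only [numC, div_eq_mul_inv, ← ENNReal.tsum_mul_right] at hm ⊢
  rw [lintegral_tsum fun i => (Measurable.tsum (hm i)).aemeasurable]
  refine ENNReal.tsum_le_tsum fun i => ?_
  rw [lintegral_tsum fun t => (hm i t).aemeasurable]
  refine ENNReal.tsum_le_tsum fun t => ?_
  have hmC := (G.decided_CP μ A a b i t).measurableSet
  have hmC2 : ∀ s, Decided s (G.Hit b s ∩ G.CP μ A a b i t) := by
    intro s ξ η h hξ
    refine ⟨G.decided_hit b s ξ η h hξ.1, G.decided_CP μ A a b i t ξ η (fun j hj => h j ?_) hξ.2⟩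
    exact lt_trans hj (G.CP_lt_hit μ hξ.2 hξ.1)
  have hR : ∀ s, ∀ ξ η : Steps d, (∀ j < s, η j = ξ j) →
      (G.Hit b s ∩ G.CP μ A a b i t).indicator (cnd μ A t) η =
        (G.Hit b s ∩ G.CP μ A a b i t).indicator (cnd μ A t) ξ := by
    intro s ξ η h
    by_cases h' : ξ ∈ G.Hit b s ∩ G.CP μ A a b i t
    · rw [Set.indicator_of_mem h', Set.indicator_of_mem (hmC2 s ξ η h h'),
        cnd_congr μ A fun j hj => h j (lt_trans hj (G.CP_lt_hit μ h'.2 h'.1))]
    · rw [Set.indicator_of_notMem h', Set.indicator_of_notMem fun h2 =>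
        h' (hmC2 s η ξ (fun j hj => (h j hj).symm) h2)]
  calc ∫⁻ ξ in A, (G.CP μ A a b i t).indicator (cnd μ A t) ξ * (G.cT μ A b ξ)⁻¹ ∂ann μ
      ≤ ∫⁻ ξ in ⋃ s, G.Hit b s ∩ A,
          (G.CP μ A a b i t).indicator (cnd μ A t) ξ * (G.cT μ A b ξ)⁻¹ ∂ann μ :=
        lintegral_mono_set fun ξ hξ => Set.mem_iUnion.2 ⟨_, G.exists_hit_of_esc (hE hξ) b, hξ⟩
    _ ≤ ∑' s, ∫⁻ ξ in G.Hit b s ∩ A,
          (G.CP μ A a b i t).indicator (cnd μ A t) ξ * (G.cT μ A b ξ)⁻¹ ∂ann μ :=
        lintegral_iUnion_le _ _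
    _ ≤ ∑' s, ∫⁻ ξ in G.Hit b s, (G.CP μ A a b i t).indicator (cnd μ A t) ξ ∂ann μ := by
        refine ENNReal.tsum_le_tsum fun s => ?_
        rw [setLIntegral_congr_fun ((G.decided_hit b s).measurableSet.inter hA)
          (g := fun ξ => (G.Hit b s ∩ G.CP μ A a b i t).indicator (cnd μ A t) ξ / cnd μ A s ξ)
          fun ξ hξ => by
            by_cases h : ξ ∈ G.CP μ A a b i t
            · simp [Set.indicator_of_mem h, Set.indicator_of_mem (Set.mem_inter hξ.1 h), cT,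
                G.T_eq hξ.1, div_eq_mul_inv]
            · have h' : ξ ∉ G.Hit b s ∩ G.CP μ A a b i t := fun h2 => h h2.2
              simp [Set.indicator_of_notMem h, Set.indicator_of_notMem h']]
        refine (lintegral_div_cnd_le μ (G.decided_hit b s) A (hR s)).trans
          (setLIntegral_congr_fun (G.decided_hit b s).measurableSet fun ξ hξ => ?_).le
        by_cases h : ξ ∈ G.CP μ A a b i t
        · simp [Set.indicator_of_mem h, Set.indicator_of_mem (Set.mem_inter hξ h)]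
        · have h' : ξ ∉ G.Hit b s ∩ G.CP μ A a b i t := fun h2 => h h2.2
          simp [Set.indicator_of_notMem h, Set.indicator_of_notMem h']
    _ = ∫⁻ ξ in ⋃ s, G.Hit b s, (G.CP μ A a b i t).indicator (cnd μ A t) ξ ∂ann μ :=
        (lintegral_iUnion (fun s => (G.decided_hit b s).measurableSet) (G.hit_disjoint b) _).symm
    _ ≤ ∫⁻ ξ, (G.CP μ A a b i t).indicator (cnd μ A t) ξ ∂ann μ := setLIntegral_le_lintegral _ _
    _ = ann μ (G.CP μ A a b i t ∩ A) := by
        rw [lintegral_indicator hmC, lintegral_cnd_self μ (G.decided_CP μ A a b i t) A]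

omit [Law μ] in
lemma cost_le_hT (A : Set (Steps d)) (a b : ℕ) :
    G.cost μ A a b ≤ G.hT μ A a + ann μ A := by
  rw [G.cost_eq μ A a b]
  refine (lintegral_mono fun ξ => G.num_le_nlog μ ξ).trans ?_
  rw [lintegral_add_right _ measurable_const, setLIntegral_const, one_mul]
  rfl

/-- The expected number of checkpoints is controlled by the drop of the entropy. -/
theorem cost_le {A : Set (Steps d)} (hA : MeasurableSet A) (hE : A ⊆ G.Esc) {a b : ℕ} (hab : a ≤ b) :
    G.cost μ A a b + 2 * G.hT μ A b ≤ 2 * G.hT μ A a + 4 * ann μ A := by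
  rcases eq_or_ne (G.hT μ A a) ∞ with htop | htop
  · simp [htop, ENNReal.mul_top]
  have hfin : G.cost μ A a b ≠ ∞ :=
    ne_top_of_le_ne_top (ENNReal.add_ne_top.2 ⟨htop, measure_ne_top _ _⟩) (G.cost_le_hT μ A a b)
  have hint : G.hT μ A b + G.cost μ A a b ≤
      G.hT μ A a + (2⁻¹ * G.cost μ A a b + 2 * ann μ A) := by
    rw [G.cost_eq μ A a b, hT, ← lintegral_add_right _ (G.measurable_num μ A a b)]
    refine (lintegral_mono_ae (g := fun ξ => nlog (G.cT μ A a ξ) +
      (2⁻¹ * (G.numC μ A a b ξ / G.cT μ A b ξ) + 2)) ((ae_restrict_iff' hA).2 ?_)).trans ?_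
    · filter_upwards [G.ae_cT_pos μ A a, G.ae_cT_pos μ A b] with ξ ha hb hξ
      refine (G.num_nlog_le μ hab (hE hξ) (ha hξ) (hb hξ)).trans_eq ?_
      congr 2
      rw [div_eq_mul_inv, div_eq_mul_inv, ENNReal.mul_inv (Or.inl two_ne_zero) (Or.inl ENNReal.ofNat_ne_top)]
      ring
    have hm2 : Measurable fun ξ => 2⁻¹ * (G.numC μ A a b ξ / G.cT μ A b ξ) + (2 : ℝ≥0∞) :=
      ((((G.measurable_numC μ A a b).div (G.measurable_cT μ A b))).const_mul _).add measurable_const
    rw [lintegral_add_right _ hm2, lintegral_add_right _ measurable_const,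
      lintegral_const_mul (f := fun ξ => G.numC μ A a b ξ / G.cT μ A b ξ) _
        ((G.measurable_numC μ A a b).div (G.measurable_cT μ A b)), setLIntegral_const,
      ← G.cost_eq μ A a b]
    gcongr
    · exact le_rfl
    · exact G.lintegral_numC_le μ hA hE a b
  have h2 : 2 * G.hT μ A b + 2 * G.cost μ A a b ≤
      2 * G.hT μ A a + (G.cost μ A a b + 4 * ann μ A) := by
    refine le_trans ?_ ((mul_le_mul_right hint 2).trans_eq ?_)
    · rw [mul_add]
    · rw [mul_add, mul_add, ← mul_assoc, ENNReal.mul_inv_cancel two_ne_zero ENNReal.ofNat_ne_top,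
        one_mul, ← mul_assoc]
      norm_num
  refine (ENNReal.add_le_add_iff_right hfin).1 ?_
  calc G.cost μ A a b + 2 * G.hT μ A b + G.cost μ A a b
      = 2 * G.hT μ A b + 2 * G.cost μ A a b := by ring
    _ ≤ _ := h2
    _ = _ := by ring

end Vale.Agent.P147.Geo
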