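import Mathlib

/-!
# P147: measures on sequence spaces over a finite alphabet and their cylinders
-/

open MeasureTheory Filter
open scoped ENNReal

namespace Vale.Agent.P147.Cyl

variable {α : Type*}

/-- Sequences with the same first `n` letters as `ξ`. -/
def cyl (n : ℕ) (ξ : ℕ → α) : Set (ℕ → α) := {η | ∀ i < n, η i = ξ i}

/-- The set `A` is decided by the first `n` letters. -/
def Decided (n : ℕ) (A : Set (ℕ → α)) : Prop :=
  ∀ ξ η : ℕ → α, (∀ i < n, η i = ξ i) → ξ ∈ A → η ∈ A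

lemma mem_cyl {n : ℕ} {ξ η : ℕ → α} : η ∈ cyl n ξ ↔ ∀ i < n, η i = ξ i := Iff.rfl

lemma self_mem_cyl (n : ℕ) (ξ : ℕ → α) : ξ ∈ cyl n ξ := fun _ _ => rfl

lemma cyl_zero (ξ : ℕ → α) : cyl 0 ξ = Set.univ := by
  ext η; simp [cyl]

lemma cyl_anti {m n : ℕ} (h : m ≤ n) (ξ : ℕ → α) : cyl n ξ ⊆ cyl m ξ :=
  fun _ hη i hi => hη i (lt_of_lt_of_le hi h)

lemma cyl_eq_of_mem {n : ℕ} {ξ η : ℕ → α} (h : η ∈ cyl n ξ) : cyl n η = cyl n ξ := by
  ext θ
  constructor
  · intro hθ i hi; rw [hθ i hi, h i hi]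
  · intro hθ i hi; rw [hθ i hi, h i hi]

lemma decided_cyl (n : ℕ) (ξ : ℕ → α) : Decided n (cyl n ξ) := by
  intro a b hab ha i hi
  rw [hab i hi, ha i hi]

lemma Decided.mono {m n : ℕ} (h : m ≤ n) {A : Set (ℕ → α)} (hA : Decided m A) : Decided n A :=
  fun ξ η hη => hA ξ η fun i hi => hη i (lt_of_lt_of_le hi h)

lemma Decided.inter {n : ℕ} {A B : Set (ℕ → α)} (hA : Decided n A) (hB : Decided n B) :
    Decided n (A ∩ B) := fun ξ η h hx => ⟨hA ξ η h hx.1, hB ξ η h hx.2⟩

lemma Decided.compl {n : ℕ} {A : Set (ℕ → α)} (hA : Decided n A) : Decided n Aᶜ :=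
  fun ξ η h hx hη => hx (hA η ξ (fun i hi => (h i hi).symm) hη)

lemma Decided.cyl_subset {n : ℕ} {A : Set (ℕ → α)} (hA : Decided n A) {ξ : ℕ → α}
    (h : ξ ∈ A) : cyl n ξ ⊆ A := fun η hη => hA ξ η hη h

variable [Nonempty α]

/-- A finite word completed to a sequence. -/
noncomputable def ext {n : ℕ} (w : Fin n → α) : ℕ → α :=
  fun i => if h : i < n then w ⟨i, h⟩ else Classical.arbitrary α

lemma ext_apply {n : ℕ} (w : Fin n → α) {i : ℕ} (h : i < n) : ext w i = w ⟨i, h⟩ := dif_pos h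

lemma mem_cyl_ext {n : ℕ} (w : Fin n → α) (η : ℕ → α) :
    η ∈ cyl n (ext w) ↔ (fun i : Fin n => η i) = w := by
  constructor
  · intro h; funext i; rw [h i i.2, ext_apply w i.2]
  · intro h i hi; rw [ext_apply w hi, ← h]

variable [Fintype α] [MeasurableSpace α] [MeasurableSingletonClass α]

omit [Nonempty α] [Fintype α] in
lemma measurableSet_cyl (n : ℕ) (ξ : ℕ → α) : MeasurableSet (cyl n ξ) := by
  have : cyl n ξ = ⋂ i ∈ Finset.range n, (fun η : ℕ → α => η i) ⁻¹' {ξ i} := by
    ext η; simp [cyl]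
  rw [this]
  exact (Finset.range n).measurableSet_biInter
    fun i _ => measurable_pi_apply i (measurableSet_singleton _)

/-- The words of length `n` whose cylinder lies in a decided set. -/
noncomputable def wordsIn (n : ℕ) (A : Set (ℕ → α)) : Finset (Fin n → α) :=
  open Classical in Finset.univ.filter fun w => ext w ∈ A

omit [MeasurableSpace α] [MeasurableSingletonClass α] in
lemma Decided.eq_biUnion {n : ℕ} {A : Set (ℕ → α)} (hA : Decided n A) :
    A = ⋃ w ∈ wordsIn n A, cyl n (ext w) := by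
  classical
  ext η
  simp only [Set.mem_iUnion, wordsIn, Finset.mem_filter, Finset.mem_univ, true_and, exists_prop]
  constructor
  · intro h
    refine ⟨fun i => η i, hA η _ (fun i hi => ext_apply _ hi) h, ?_⟩
    exact (mem_cyl_ext _ _).2 rfl
  · rintro ⟨w, hw, hη⟩
    exact hA _ _ hη hw

lemma Decided.measurableSet {n : ℕ} {A : Set (ℕ → α)} (hA : Decided n A) : MeasurableSet A := by
  rw [hA.eq_biUnion]
  exact (wordsIn n A).measurableSet_biUnion fun w _ => measurableSet_cyl n _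

omit [Fintype α] [MeasurableSpace α] [MeasurableSingletonClass α] in
lemma disjoint_cyl_ext {n : ℕ} {v w : Fin n → α} (h : v ≠ w) :
    Disjoint (cyl n (ext v)) (cyl n (ext w)) := by
  rw [Set.disjoint_left]
  intro η h1 h2
  exact h ((((mem_cyl_ext v η).1 h1).symm).trans ((mem_cyl_ext w η).1 h2))

lemma Decided.measure_inter {n : ℕ} {A : Set (ℕ → α)} (hA : Decided n A) (ν : Measure (ℕ → α))
    {B : Set (ℕ → α)} (hB : MeasurableSet B) :
    ν (A ∩ B) = ∑ w ∈ wordsIn n A, ν (cyl n (ext w) ∩ B) := by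
  conv_lhs => rw [hA.eq_biUnion, Set.iUnion₂_inter]
  rw [measure_biUnion_finset]
  · intro v _ w _ hvw
    exact (disjoint_cyl_ext hvw).mono Set.inter_subset_left Set.inter_subset_left
  · exact fun w _ => (measurableSet_cyl n _).inter hB

lemma Decided.measure_eq {n : ℕ} {A : Set (ℕ → α)} (hA : Decided n A) (ν : Measure (ℕ → α)) :
    ν A = ∑ w ∈ wordsIn n A, ν (cyl n (ext w)) := by
  simpa using hA.measure_inter ν MeasurableSet.univ

lemma measure_sum_words (n : ℕ) (ν : Measure (ℕ → α)) {B : Set (ℕ → α)} (hB : MeasurableSet B) :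
    ν B = ∑ w : Fin n → α, ν (cyl n (ext w) ∩ B) := by
  classical
  have h : Decided n (Set.univ : Set (ℕ → α)) := fun _ _ _ _ => trivial
  have := h.measure_inter ν hB
  simpa [wordsIn] using this

/-- The integral over a set of a function of the first `n` letters. -/
lemma lintegral_prefix (n : ℕ) (ν : Measure (ℕ → α)) {F : (ℕ → α) → ℝ≥0∞}
    (hF : ∀ ξ η : ℕ → α, (∀ i < n, η i = ξ i) → F η = F ξ) (B : Set (ℕ → α)) :
    ∫⁻ ξ in B, F ξ ∂ν = ∑ w : Fin n → α, F (ext w) * ν (cyl n (ext w) ∩ B) := by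
  classical
  have hpt : F = fun η => ∑ w : Fin n → α, (cyl n (ext w)).indicator (fun _ => F (ext w)) η := by
    funext η
    rw [Finset.sum_eq_single (fun i : Fin n => η i)]
    · rw [Set.indicator_of_mem ((mem_cyl_ext _ _).2 rfl)]
      exact hF _ _ fun i hi => (ext_apply (fun i : Fin n => η i) hi).symm
    · intro w _ hw
      exact Set.indicator_of_notMem (fun h => hw ((mem_cyl_ext _ _).1 h).symm) _
    · simp
  conv_lhs => rw [hpt]
  rw [lintegral_finsetSum _ fun w _ => measurable_const.indicator (measurableSet_cyl n _)]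
  refine Finset.sum_congr rfl fun w _ => ?_
  rw [lintegral_indicator_const (measurableSet_cyl n _), Measure.restrict_apply (measurableSet_cyl n _)]

/-- Two finite measures with equal cylinder values are equal. -/
theorem ext_of_cyl {ν₁ ν₂ : Measure (ℕ → α)} [IsFiniteMeasure ν₁]
    (h : ∀ n ξ, ν₁ (cyl n ξ) = ν₂ (cyl n ξ)) : ν₁ = ν₂ := by
  classical
  set S : Set (Set (ℕ → α)) := {s | s = ∅ ∨ ∃ n ξ, s = cyl n ξ} with hS
  have hgen : (MeasurableSpace.pi : MeasurableSpace (ℕ → α)) = MeasurableSpace.generateFrom S := by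
    refine le_antisymm ?_ ?_
    · refine iSup_le fun i => ?_
      rintro s ⟨t, -, rfl⟩
      have hd : Decided (i + 1) ((fun η : ℕ → α => η i) ⁻¹' t) := by
        intro ξ η hη hξ
        simpa [hη i (Nat.lt_succ_self i)] using hξ
      rw [hd.eq_biUnion]
      refine (wordsIn (i+1) _).measurableSet_biUnion fun w _ => ?_
      exact MeasurableSpace.measurableSet_generateFrom (Or.inr ⟨_, _, rfl⟩)
    · refine MeasurableSpace.generateFrom_le ?_
      rintro s (rfl | ⟨n, ξ, rfl⟩)
      · exact MeasurableSet.empty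
      · exact measurableSet_cyl n ξ
  have hpi : IsPiSystem S := by
    intro s hs t ht hne
    rcases hs with rfl | ⟨m, ξ, rfl⟩
    · simp at hne
    rcases ht with rfl | ⟨n, η, rfl⟩
    · simp at hne
    rcases le_total m n with hmn | hmn
    · obtain ⟨θ, hθm, hθn⟩ := hne
      refine Or.inr ⟨n, η, Set.inter_eq_right.2 ?_⟩
      rw [← cyl_eq_of_mem hθn, ← cyl_eq_of_mem hθm]
      exact cyl_anti hmn θ
    · obtain ⟨θ, hθm, hθn⟩ := hne
      refine Or.inr ⟨m, ξ, Set.inter_eq_left.2 ?_⟩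
      rw [← cyl_eq_of_mem hθn, ← cyl_eq_of_mem hθm]
      exact cyl_anti hmn θ
  have huniv : ν₁ Set.univ = ν₂ Set.univ := by
    rw [← cyl_zero (fun _ => Classical.arbitrary α), h]
  refine ext_of_generate_finite S hgen hpi ?_ huniv
  rintro s (rfl | ⟨n, ξ, rfl⟩)
  · simp
  · exact h n ξ

/-- If two finite measures agree on the cylinders inside a decreasing sequence of decided sets, they
agree on every measurable subset of the intersection. -/
theorem eqOn_iInter {ν₁ ν₂ : Measure (ℕ → α)} [IsFiniteMeasure ν₁] [IsFiniteMeasure ν₂]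
    (D : ℕ → Set (ℕ → α)) (hD : ∀ k, Decided k (D k)) (hanti : Antitone D)
    (h : ∀ k ξ, ξ ∈ D k → ν₁ (cyl k ξ) = ν₂ (cyl k ξ))
    {F : Set (ℕ → α)} (hF : MeasurableSet F) (hsub : F ⊆ ⋂ k, D k) : ν₁ F = ν₂ F := by
  classical
  have hDm : ∀ k, MeasurableSet (D k) := fun k => (hD k).measurableSet
  have key : ν₁.restrict (⋂ k, D k) = ν₂.restrict (⋂ k, D k) := by
    refine ext_of_cyl fun n ξ => ?_
    rw [Measure.restrict_apply (measurableSet_cyl n ξ), Measure.restrict_apply (measurableSet_cyl n ξ)]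
    have hset : cyl n ξ ∩ ⋂ k, D k = ⋂ k, (cyl n ξ ∩ D (max n k)) := by
      ext η
      simp only [Set.mem_inter_iff, Set.mem_iInter]
      constructor
      · exact fun hη k => ⟨hη.1, hη.2 _⟩
      · exact fun hη => ⟨(hη 0).1, fun k => hanti (le_max_right n k) (hη k).2⟩
    have hanti' : Antitone fun k => cyl n ξ ∩ D (max n k) := fun a b hab =>
      Set.inter_subset_inter_right _ (hanti (max_le_max le_rfl hab))
    have hm : ∀ k, NullMeasurableSet (cyl n ξ ∩ D (max n k)) ν₁ := fun k =>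
      ((measurableSet_cyl n ξ).inter (hDm _)).nullMeasurableSet
    have hm' : ∀ k, NullMeasurableSet (cyl n ξ ∩ D (max n k)) ν₂ := fun k =>
      ((measurableSet_cyl n ξ).inter (hDm _)).nullMeasurableSet
    rw [hset, hanti'.measure_iInter hm ⟨0, measure_ne_top _ _⟩,
      hanti'.measure_iInter hm' ⟨0, measure_ne_top _ _⟩]
    refine iInf_congr fun k => ?_
    have hdec : Decided (max n k) (cyl n ξ ∩ D (max n k)) :=
      ((decided_cyl n ξ).mono (le_max_left _ _)).inter (hD _)
    rw [hdec.measure_eq, hdec.measure_eq]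
    refine Finset.sum_congr rfl fun w hw => ?_
    have hw' : ext w ∈ cyl n ξ ∩ D (max n k) := by simpa [wordsIn] using hw
    exact h _ _ hw'.2
  have := congrArg (fun ν : Measure (ℕ → α) => ν F) key
  simpa [Measure.restrict_apply hF, Set.inter_eq_left.2 hsub] using this

end Vale.Agent.P147.Cyl
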