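import Mathlib

/-!
# P147: random walk in an iid random environment on the integer lattice (definitions of the statement)

A step is a coordinate unit vector: `(i, true)` is `+e_i` and `(i, false)` is `-e_i`. An environment gives every
site a row of transition probabilities. The quenched walk in a fixed environment is built from iid uniform
variables on the unit interval: from `X_n` it makes the step whose interval of cumulative probabilities
contains the `n`-th variable.
-/

open MeasureTheory Filter

namespace Vale.Agent.P147

/-- Sites of the lattice. -/
abbrev Site (d : ℕ) : Type := Fin d → ℤ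

/-- The `2d` coordinate unit steps. -/
abbrev Dir (d : ℕ) : Type := Fin d × Bool

/-- An environment: a row of transition probabilities at every site. -/
abbrev Env (d : ℕ) : Type := Site d → Dir d → ℝ

variable {d : ℕ}

/-- The vector of a step. -/
def vec (e : Dir d) : Site d := Pi.single e.1 (if e.2 then 1 else -1)

/-- A fixed listing of the steps. -/
noncomputable def enum [NeZero d] (k : ℕ) : Dir d :=
  if h : k < Fintype.card (Dir d) then (Fintype.equivFin (Dir d)).symm ⟨k, h⟩ else (0, true)

/-- Cumulative probability of the first `k` listed steps. -/
noncomputable def cum [NeZero d] (p : Dir d → ℝ) (k : ℕ) : ℝ :=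
  ∑ i ∈ Finset.range k, p (enum i)

/-- The step chosen by the row `p` and the number `u`: the listed step number `k` when
`cum p k ≤ u < cum p (k+1)`. -/
noncomputable def pick [NeZero d] (p : Dir d → ℝ) (u : ℝ) : Dir d :=
  enum (((Finset.range (Fintype.card (Dir d))).filter fun k => cum p (k + 1) ≤ u).card)

/-- The walk started at `x` in the environment `ω`, driven by `u`. -/
noncomputable def walk [NeZero d] (ω : Env d) (x : Site d) (u : ℕ → unitInterval) : ℕ → Site d
  | 0 => x
  | n + 1 => walk ω x u n + vec (pick (ω (walk ω x u n)) (u n : ℝ))

/-- The law of an iid environment with one-site law `μ`. -/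
noncomputable def envLaw (μ : Measure (Dir d → ℝ)) : Measure (Env d) :=
  Measure.infinitePi fun _ : Site d => μ

/-- iid uniform variables. -/
noncomputable def uniform : Measure (ℕ → unitInterval) :=
  Measure.infinitePi fun _ : ℕ => (volume : Measure unitInterval)

/-- The annealed law of the path of the walk started at the origin. -/
noncomputable def annealed [NeZero d] (μ : Measure (Dir d → ℝ)) : Measure (ℕ → Site d) :=
  ((envLaw μ).prod uniform).map fun z => walk z.1 0 z.2

/-- Escape in direction `ℓ`: the inner product of `X_n` with `ℓ` tends to infinity. -/
def Escape (ℓ : Fin d → ℝ) : Set (ℕ → Site d) :=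
  {X | Tendsto (fun n => ∑ i, ℓ i * (X n i : ℝ)) atTop atTop}

end Vale.Agent.P147
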