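import Vale.Agent.P147.Window

/-!
# P147: meetings before the first passage of a level

Before the first passage of a low level the conditional probability of the target seldom grows much, so the
meeting reduces to the meeting of two walks facing each other.
-/

open MeasureTheory Filter
open scoped ENNReal

namespace Vale.Agent.P147.Geo

open Cyl

variable {d : ℕ} [NeZero d] (G : Geo d) (μ : Measure (Dir d → ℝ))

/-- The walk reaches a time at which regeneration at the start has probability at most `θ`. -/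
def Low (θ : ℝ≥0∞) : Set (Steps d) := {ξ | ∃ t, cnd μ G.S t ξ ≤ θ}

/-- The walks from `0` and from `y` face each other and meet. -/
def Face (y : Site d) : Set (Steps d × Steps d) :=
  {z | z.1 ∈ G.S ∧ z.2 ∈ G.Back ∧ ∃ i j, pos z.1 i = y + pos z.2 j}

lemma measurableSet_Low (θ : ℝ≥0∞) : MeasurableSet (G.Low μ θ) := by
  have : G.Low μ θ = ⋃ t, cnd μ G.S t ⁻¹' Set.Iic θ := by ext ξ; simp [Low]
  rw [this]
  exact .iUnion fun t => measurable_cnd μ G.S t measurableSet_Iic

variable [Law μ]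

lemma ann_low_le (θ : ℝ≥0∞) : ann μ (G.S ∩ G.Low μ θ) ≤ θ := by
  classical
  set F : ℕ → Set (Steps d) := fun t => {ξ | cnd μ G.S t ξ ≤ θ ∧ ∀ w < t, θ < cnd μ G.S w ξ}
  have hF : ∀ t, Decided t (F t) := by
    rintro t ξ η h ⟨h1, h2⟩
    refine ⟨by rwa [cnd_congr μ G.S h], fun w hw => ?_⟩
    rw [cnd_congr μ G.S fun i hi => h i (lt_trans hi hw)]
    exact h2 w hw
  have hdisj : Pairwise (Function.onFun Disjoint F) := fun s t hst =>
    Set.disjoint_left.2 fun ξ hs ht => by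
      rcases lt_or_gt_of_ne hst with h | h
      · exact not_lt.2 hs.1 (ht.2 s h)
      · exact not_lt.2 ht.1 (hs.2 t h)
  have hsub : G.S ∩ G.Low μ θ ⊆ ⋃ t, F t ∩ G.S := by
    rintro ξ ⟨hS, hex⟩
    exact Set.mem_iUnion.2 ⟨Nat.find hex, ⟨Nat.find_spec hex, fun w hw =>
      not_le.1 (Nat.find_min hex hw)⟩, hS⟩
  calc ann μ (G.S ∩ G.Low μ θ) ≤ ∑' t, ann μ (F t ∩ G.S) :=
        (measure_mono hsub).trans (measure_iUnion_le _)
    _ ≤ ∑' t, θ * ann μ (F t) := by
        refine ENNReal.tsum_le_tsum fun t => ?_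
        rw [← lintegral_cnd_self μ (hF t) G.S, ← setLIntegral_const]
        exact setLIntegral_mono' (hF t).measurableSet fun ξ hξ => hξ.1
    _ = θ * ann μ (⋃ t, F t) := by
        rw [ENNReal.tsum_mul_left, measure_iUnion hdisj fun t => (hF t).measurableSet]
    _ ≤ θ := by simpa using mul_le_mul_right (prob_le_one (μ := ann μ) (s := ⋃ t, F t)) θ

/-- The meeting before the first passage of level `b`. -/
theorem ann_early_le {A : Set (Steps d)} (hA : MeasurableSet A) (y : Site d) (b g : ℕ)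
    {θ : ℝ≥0∞} (hθ : θ ≠ 0) (hθ' : θ ≠ ∞) :
    (ann μ).prod (ann μ) (G.Win A y 0 b) ≤
      ((g + 1 : ℕ) : ℝ≥0∞)⁻¹ * G.cost μ A 0 b + ann μ (A ∩ G.Low μ θ) +
        3 ^ g * θ⁻¹ * ann μ A * (ann μ).prod (ann μ) (G.Face y) := by
  classical
  set H : Set (Steps d) := A ∩ ⋃ t, G.CP μ A 0 b g t
  have hHm : MeasurableSet H :=
    hA.inter (.iUnion fun t => (G.decided_CP μ A 0 b g t).measurableSet)
  have hH : ((g + 1 : ℕ) : ℝ≥0∞) * ann μ H ≤ G.cost μ A 0 b := by
    rw [G.cost_eq μ A 0 b, ← setLIntegral_const]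
    refine le_trans (setLIntegral_mono' hHm fun ξ hξ => ?_) (lintegral_mono_set Set.inter_subset_left)
    obtain ⟨t, ht⟩ := Set.mem_iUnion.1 hξ.2
    have hex : ∀ i ≤ g, ∃ v, ξ ∈ G.CP μ A 0 b i v := by
      intro i hi
      obtain ⟨⟨u, hut, hu, hc, hge, -⟩, hbelow⟩ := ht
      obtain ⟨v, -, hv⟩ := G.exists_CP μ (i := i) hu hut hc hbelow
        (le_trans (by gcongr; norm_num) hge)
      exact ⟨v, hv⟩
    calc ((g + 1 : ℕ) : ℝ≥0∞) = ∑ i ∈ Finset.range (g + 1), (1 : ℝ≥0∞) := by simp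
      _ ≤ ∑ i ∈ Finset.range (g + 1), ∑' t, (G.CP μ A 0 b i t).indicator 1 ξ := by
          refine Finset.sum_le_sum fun i hi => ?_
          obtain ⟨v, hv⟩ := hex i (Nat.lt_succ_iff.1 (Finset.mem_range.1 hi))
          refine le_trans ?_ (ENNReal.le_tsum v)
          rw [Set.indicator_of_mem hv, Pi.one_apply]
      _ ≤ _ := ENNReal.sum_le_tsum _
  set Q : Set (Steps d × Steps d) := {z | z.1 ∈ A ∧ z.2 ∈ G.Back ∧ ∃ t,
    z.1 ∈ FirstMeet y z.2 t ∧ cnd μ A t z.1 ≤ 3 ^ g * θ⁻¹ * ann μ A * cnd μ G.S t z.1}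
  have hsub : G.Win A y 0 b ⊆ (H ×ˢ Set.univ ∪ (A ∩ G.Low μ θ) ×ˢ Set.univ) ∪ Q := by
    rintro ⟨ξ, η⟩ ⟨hξ, hη, t, hmeet, -, hbelow⟩
    by_cases hlow : ξ ∈ G.Low μ θ
    · exact Or.inl (Or.inr ⟨⟨hξ, hlow⟩, trivial⟩)
    by_cases hH' : ξ ∈ H
    · exact Or.inl (Or.inl ⟨hH', trivial⟩)
    refine Or.inr ⟨hξ, hη, t, hmeet, ?_⟩
    have h1 : cnd μ A t ξ ≤ 3 ^ g * ann μ A := by
      by_cases h0 : ann μ A = 0
      · have : cnd μ A t ξ = 0 := by
          rw [cnd, measure_mono_null Set.inter_subset_right h0, ENNReal.zero_div]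
        rw [this]; exact zero_le
      refine le_of_not_ge fun hge => hH' ⟨hξ, ?_⟩
      have hu : ξ ∈ G.Hit 0 0 := ⟨by simp, fun i hi => absurd hi (Nat.not_lt_zero i)⟩
      obtain ⟨v, -, hv⟩ := G.exists_CP μ (i := g) hu (Nat.zero_le t)
        (by rw [cnd_zero]; exact pos_iff_ne_zero.2 h0) hbelow (by rw [cnd_zero]; exact hge)
      exact Set.mem_iUnion.2 ⟨v, hv⟩
    have h2 : θ ≤ cnd μ G.S t ξ := le_of_lt (not_le.1 fun h => hlow ⟨t, h⟩)
    calc cnd μ A t ξ ≤ 3 ^ g * ann μ A := h1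
      _ = 3 ^ g * θ⁻¹ * ann μ A * θ := by
          rw [show 3 ^ g * θ⁻¹ * ann μ A * θ = 3 ^ g * ann μ A * (θ⁻¹ * θ) by ring,
            ENNReal.inv_mul_cancel hθ hθ', mul_one]
      _ ≤ _ := mul_le_mul_right h2 _
  have hFm : MeasurableSet (G.Face y) := by
    have : G.Face y = (Prod.fst ⁻¹' G.S ∩ Prod.snd ⁻¹' G.Back) ∩
        ⋃ i, ⋃ j, {z : Steps d × Steps d | pos z.1 i = y + pos z.2 j} := by
      ext z; simp [Face, and_assoc]
    rw [this]
    exact ((measurable_fst G.measurableSet_S).inter (measurable_snd G.measurableSet_Back)).inter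
      (.iUnion fun i => .iUnion fun j => measurableSet_eq_fun ((measurable_pos i).comp measurable_fst)
        (measurable_const.add ((measurable_pos j).comp measurable_snd)))
  have hQm : MeasurableSet Q := by
    have : Q = (Prod.fst ⁻¹' A ∩ Prod.snd ⁻¹' G.Back) ∩ ⋃ t,
        ({z : Steps d × Steps d | z.1 ∈ FirstMeet y z.2 t} ∩
          {z : Steps d × Steps d | cnd μ A t z.1 ≤ 3 ^ g * θ⁻¹ * ann μ A * cnd μ G.S t z.1}) := by
      ext z; simp [Q, and_assoc]
    rw [this]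
    exact ((measurable_fst hA).inter (measurable_snd G.measurableSet_Back)).inter
      (.iUnion fun t => (measurableSet_pair_firstMeet y t).inter
        (measurableSet_le ((measurable_cnd μ A t).comp measurable_fst)
          (((measurable_cnd μ G.S t).comp measurable_fst).const_mul _)))
  have hQ : (ann μ).prod (ann μ) Q ≤
      3 ^ g * θ⁻¹ * ann μ A * (ann μ).prod (ann μ) (G.Face y) := by
    rw [Measure.prod_apply_symm hQm, Measure.prod_apply_symm hFm,
      ← lintegral_const_mul _ (measurable_measure_prodMk_right hFm)]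
    refine lintegral_mono fun η => ?_
    set K : ℝ≥0∞ := 3 ^ g * θ⁻¹ * ann μ A
    set B : ℕ → Set (Steps d) := fun t =>
      {ξ | η ∈ G.Back ∧ ξ ∈ FirstMeet y η t ∧ cnd μ A t ξ ≤ K * cnd μ G.S t ξ}
    have hB : ∀ t, Decided t (B t) := by
      rintro t ξ ζ h ⟨h0, h1, h2⟩
      exact ⟨h0, decided_firstMeet y η t ξ ζ h h1, by rwa [cnd_congr μ A h, cnd_congr μ G.S h]⟩
    have hBd : Pairwise (Function.onFun Disjoint B) := fun t t' htt =>
      Set.disjoint_left.2 fun ξ h h' => htt (firstMeet_unique h.2.1 h'.2.1)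
    calc ann μ ((fun ξ => (ξ, η)) ⁻¹' Q) ≤ ann μ (⋃ t, B t ∩ A) := by
          refine measure_mono ?_
          rintro ξ ⟨h1, h2, t, h3, h4⟩
          exact Set.mem_iUnion.2 ⟨t, ⟨h2, h3, h4⟩, h1⟩
      _ ≤ ∑' t, ann μ (B t ∩ A) := measure_iUnion_le _
      _ ≤ ∑' t, K * ann μ (B t ∩ G.S) := by
          refine ENNReal.tsum_le_tsum fun t => ?_
          rw [← lintegral_cnd_self μ (hB t) A, ← lintegral_cnd_self μ (hB t) G.S,
            ← lintegral_const_mul _ (measurable_cnd μ G.S t)]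
          exact setLIntegral_mono' (hB t).measurableSet fun ξ hξ => hξ.2.2
      _ = K * ann μ (⋃ t, B t ∩ G.S) := by
          rw [ENNReal.tsum_mul_left, measure_iUnion
            (fun t t' htt => (hBd htt).mono Set.inter_subset_left Set.inter_subset_left)
            fun t => (hB t).measurableSet.inter G.measurableSet_S]
      _ ≤ _ := by
          refine mul_le_mul_right (measure_mono (Set.iUnion_subset fun t => ?_)) K
          rintro ξ ⟨⟨h0, ⟨-, h1⟩, -⟩, hS⟩
          exact ⟨hS, h0, t, h1⟩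
  calc (ann μ).prod (ann μ) (G.Win A y 0 b)
      ≤ (ann μ).prod (ann μ) (H ×ˢ Set.univ) + (ann μ).prod (ann μ) ((A ∩ G.Low μ θ) ×ˢ Set.univ) +
          (ann μ).prod (ann μ) Q :=
        (measure_mono hsub).trans ((measure_union_le _ _).trans
          (add_le_add (measure_union_le _ _) le_rfl))
    _ ≤ _ := by
        rw [Measure.prod_prod, Measure.prod_prod, measure_univ, mul_one, mul_one]
        refine add_le_add (add_le_add ?_ le_rfl) hQ
        refine le_trans (le_of_eq ?_) (mul_le_mul_right hH _)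
        rw [← mul_assoc, ENNReal.inv_mul_cancel (by simp) (ENNReal.natCast_ne_top _), one_mul]

end Vale.Agent.P147.Geo
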