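import Vale.Agent.P147.Regen

/-!
# P147: the level gained over one slab has finite mean
-/

open MeasureTheory Filter
open scoped ENNReal

namespace Vale.Agent.P147.Geo

open Cyl

variable {d : ℕ} (G : Geo d)

/-- A possible regeneration time of a path of `S` with level in `[t, t + 1)`. -/
def AtWin (t : ℕ) (n : ℕ) : Set (Steps d) :=
  {ξ | G.Rec n ξ ∧ G.PreS n ξ ∧ (t : ℝ) ≤ G.lv ξ n ∧ G.lv ξ n < t + 1}

/-- The first regeneration after time zero is more than `k` levels higher. -/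
def Long (k : ℝ) : Set (Steps d) :=
  {ξ | ξ ∈ G.S ∧ ∀ n, 1 ≤ n → G.Reg n ξ → k < G.lv ξ n}

/-- The first passage at level `t`, on paths that look like those of `S`. -/
def Pass (t : ℕ) (n : ℕ) : Set (Steps d) :=
  {ξ | G.PreS n ξ ∧ (∀ j < n, G.lv ξ j < t) ∧ (t : ℝ) ≤ G.lv ξ n}

lemma decided_atWin (t n : ℕ) : Decided n (G.AtWin t n) := by
  intro ξ η h hξ
  obtain ⟨h1, h2, h3, h4⟩ := hξ
  refine ⟨G.decided_rec n ξ η h h1, G.decided_preS n ξ η h h2, ?_, ?_⟩ <;>
    rw [G.lv_congr le_rfl h] <;> assumption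

lemma decided_pass (t n : ℕ) : Decided n (G.Pass t n) := by
  intro ξ η h hξ
  obtain ⟨h2, h3, h4⟩ := hξ
  refine ⟨G.decided_preS n ξ η h h2, fun j hj => ?_, ?_⟩
  · rw [G.lv_congr hj.le h]; exact h3 j hj
  · rwa [G.lv_congr le_rfl h]

lemma atWin_inter {t n : ℕ} {ξ : Steps d} (h : ξ ∈ G.AtWin t n ∩ shift n ⁻¹' G.S) :
    ξ ∈ G.S ∧ G.Reg n ξ ∧ (t : ℝ) ≤ G.lv ξ n ∧ G.lv ξ n < t + 1 :=
  ⟨(G.mem_S_iff h.2 h.1.1).2 h.1.2.1, ⟨h.1.1, h.2⟩, h.1.2.2⟩

lemma atWin_unique {t m n : ℕ} {ξ : Steps d} (hm : ξ ∈ G.AtWin t m ∩ shift m ⁻¹' G.S)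
    (hn : ξ ∈ G.AtWin t n ∩ shift n ⁻¹' G.S) : m = n := by
  obtain ⟨-, hm1, hm2, hm3⟩ := G.atWin_inter hm
  obtain ⟨-, hn1, hn2, hn3⟩ := G.atWin_inter hn
  rcases lt_trichotomy m n with h | h | h
  · linarith [G.reg_lt hm1 h]
  · exact h
  · linarith [G.reg_lt hn1 h]

lemma pass_unique {t m n : ℕ} {ξ : Steps d} (hm : ξ ∈ G.Pass t m) (hn : ξ ∈ G.Pass t n) : m = n := by
  rcases lt_trichotomy m n with h | h | h
  · linarith [hn.2.1 m h, hm.2.2]
  · exact h
  · linarith [hm.2.1 n h, hn.2.2]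

lemma pass_subset_atWin (t n : ℕ) : G.Pass t n ⊆ G.AtWin t n := by
  rintro ξ ⟨h1, h2, h3⟩
  refine ⟨fun j hj => lt_of_lt_of_le (h2 j hj) h3, h1, h3, ?_⟩
  rcases Nat.eq_zero_or_pos n with rfl | hn
  · simp only [lv_zero] at h3 ⊢
    linarith [Nat.cast_nonneg (α := ℝ) t]
  · have := G.lv_succ_le ξ (n - 1)
    rw [Nat.sub_add_cancel hn] at this
    linarith [h2 (n - 1) (by omega)]

lemma S_subset_pass (t : ℕ) : G.S ⊆ ⋃ n, G.Pass t n := by
  classical
  intro ξ hξ
  have hex : ∃ n, (t : ℝ) ≤ G.lv ξ n := by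
    obtain ⟨N, hN⟩ := G.esc_iff.1 hξ.2.2 t
    exact ⟨N, hN N le_rfl⟩
  exact Set.mem_iUnion.2 ⟨Nat.find hex, fun i h1 _ => ⟨hξ.1, hξ.2.1 i h1⟩,
    fun j hj => not_le.1 (Nat.find_min hex hj), Nat.find_spec hex⟩

variable [NeZero d]

lemma measurableSet_Long (k : ℝ) : MeasurableSet (G.Long k) := by
  have : G.Long k = G.S ∩ ⋂ n, ⋂ (_ : 1 ≤ n),
      (({ξ | G.Rec n ξ} ∩ shift n ⁻¹' G.S)ᶜ ∪ {ξ | k < G.lv ξ n}) := by
    ext ξ
    simp [Long, Reg, imp_iff_not_or]
  rw [this]
  refine G.measurableSet_S.inter (.iInter fun n => .iInter fun _ => MeasurableSet.union ?_ ?_)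
  · exact (((G.decided_rec n).measurableSet).inter (measurable_shift n G.measurableSet_S)).compl
  · exact measurableSet_lt measurable_const (G.measurable_lv n)

variable (μ : Measure (Dir d → ℝ)) [Law μ]

omit [Law μ] in
lemma sReg_le_tsum_atWin (t : ℕ) : G.sReg μ ≤ ∑' n, ann μ (G.AtWin t n) :=
  (measure_mono (G.S_subset_pass t)).trans
    ((measure_iUnion_le _).trans (ENNReal.tsum_le_tsum fun n => measure_mono (G.pass_subset_atWin t n)))

/-- The renewal inequality. -/
theorem sum_long_le (hs : 0 < G.sReg μ) (N : ℕ) :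
    ∑ k ∈ Finset.range N, ann μ (G.Long (k + 1)) ≤ 1 := by
  set E : ℕ → Set (Steps d) := fun t =>
    ⋃ n, G.AtWin t n ∩ shift n ⁻¹' G.Long ((N - t : ℕ) : ℝ)
  have hmeas : ∀ t n, MeasurableSet (G.AtWin t n ∩ shift n ⁻¹' G.Long ((N - t : ℕ) : ℝ)) :=
    fun t n => (G.decided_atWin t n).measurableSet.inter (measurable_shift n (G.measurableSet_Long _))
  have hE : ∀ t, G.sReg μ * ann μ (G.Long ((N - t : ℕ) : ℝ)) ≤ ann μ (E t) := by
    intro t
    rw [measure_iUnion ?_ (hmeas t)]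
    · rw [tsum_congr fun n => G.ann_rec_split_S μ (G.decided_atWin t n) (fun _ h => h.1)
        (G.measurableSet_Long _) (fun _ h => h.1), ENNReal.tsum_mul_right]
      gcongr
      exact G.sReg_le_tsum_atWin μ t
    · exact fun m n hmn => Set.disjoint_left.2 fun ξ h1 h2 =>
        hmn (G.atWin_unique ⟨h1.1, h1.2.1⟩ ⟨h2.1, h2.2.1⟩)
  have hdisj : Set.PairwiseDisjoint (↑(Finset.range N) : Set ℕ) E := by
    intro t ht u hu htu
    refine Set.disjoint_left.2 fun ξ h1 h2 => ?_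
    simp only [Finset.coe_range, Set.mem_Iio] at ht hu
    wlog hlt : t < u generalizing t u
    · exact this htu.symm h2 h1 hu ht (by omega)
    obtain ⟨m, hm1, hm2⟩ := Set.mem_iUnion.1 h1
    obtain ⟨n, hn1, hn2⟩ := Set.mem_iUnion.1 h2
    obtain ⟨-, hm3, hm4, hm5⟩ := G.atWin_inter ⟨hm1, hm2.1⟩
    obtain ⟨-, hn3, hn4, hn5⟩ := G.atWin_inter ⟨hn1, hn2.1⟩
    have hu1 : (t : ℝ) + 1 ≤ u := by exact_mod_cast hlt
    have hmn : m < n := by
      rcases lt_trichotomy m n with h | h | h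
      · exact h
      · subst h; linarith
      · linarith [G.reg_lt hn3 h]
    have hb := hm2.2 (n - m) (by omega) ((G.reg_shift hm3).2 (by rwa [Nat.add_sub_cancel' hmn.le]))
    rw [lv_shift, Nat.add_sub_cancel' hmn.le, Nat.cast_sub ht.le] at hb
    have hu2 : (u : ℝ) + 1 ≤ N := by exact_mod_cast hu
    linarith
  have hsum : ∑ t ∈ Finset.range N, G.sReg μ * ann μ (G.Long ((N - t : ℕ) : ℝ)) ≤ G.sReg μ * 1 := by
    refine (Finset.sum_le_sum fun t _ => hE t).trans ?_
    rw [← measure_biUnion_finset hdisj fun t _ => MeasurableSet.iUnion (hmeas t), mul_one]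
    refine measure_mono (Set.iUnion₂_subset fun t _ => Set.iUnion_subset fun n ξ hξ => ?_)
    exact (G.atWin_inter ⟨hξ.1, hξ.2.1⟩).1
  rw [← Finset.mul_sum, ENNReal.mul_le_mul_iff_right hs.ne' (measure_ne_top _ _)] at hsum
  refine le_trans (le_of_eq ?_) hsum
  rw [← Finset.sum_range_reflect]
  refine Finset.sum_congr rfl fun t ht => ?_
  have : t < N := Finset.mem_range.1 ht
  rw [show (N - t : ℕ) = (N - 1 - t) + 1 by omega, Nat.cast_add, Nat.cast_one]

/-- The mean level of the displacement over `K` slabs. -/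
noncomputable def mean (K : ℕ) : ℝ≥0∞ := ∑' x, G.disp μ K x * ENNReal.ofReal (G.lev x)

omit [Law μ] [NeZero d] in
lemma lev_nonneg_of_atReg {K n : ℕ} {ξ : Steps d} (h : ξ ∈ G.AtReg K n) : 0 ≤ G.lv ξ n := by
  rcases Nat.eq_zero_or_pos n with rfl | hn
  · simp
  · linarith [(h.2.1 n hn le_rfl).2]

omit [Law μ] in
lemma disp_eq_zero {K : ℕ} {x : Site d} (hx : G.lev x < 0) : G.disp μ K x = 0 := by
  refine ENNReal.tsum_eq_zero.2 fun n => ?_
  convert measure_empty (μ := ann μ)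
  refine Set.eq_empty_of_forall_notMem fun ξ hξ => ?_
  have := G.lev_nonneg_of_atReg hξ.1
  have h2 : pos ξ n = x := hξ.2
  rw [lv, h2] at this
  linarith

omit [NeZero d] in
lemma tgt_subset_long (k : ℕ) (x : Site d) (hk : (k : ℝ) < G.lev x) : G.Tgt 1 x ⊆ G.Long k := by
  intro ξ hξ
  classical
  obtain ⟨n, ⟨h1, h2⟩, h3⟩ := Set.mem_iUnion.1 hξ
  obtain ⟨hS, hr, hc⟩ := G.mem_atReg_inter.1 ⟨h1, h3⟩
  refine ⟨hS, fun m hm hmr => ?_⟩
  have h2' : pos ξ n = x := h2
  have hle : n ≤ m := by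
    by_contra hlt
    have hc1 := Nat.count_monotone (fun j => G.Reg j ξ) (by omega : m + 1 ≤ n)
    rw [Nat.count_succ, if_pos hmr] at hc1
    have hc2 := Nat.count_monotone (fun j => G.Reg j ξ) hm
    rw [Nat.count_succ, if_pos (G.reg_zero hS)] at hc2
    simp only [regCount] at hc
    omega
  have h4 : G.lev x ≤ G.lv ξ m := by
    rw [← h2']
    rcases eq_or_lt_of_le hle with rfl | hlt
    · exact le_rfl
    · exact le_of_lt (hmr.1 n hlt)
  linarith

/-- One slab has finite mean height. -/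
theorem mean_one_le (hs : 0 < G.sReg μ) (h : G.ManyReg μ) :
    G.mean μ 1 ≤ 2 / G.sReg μ := by
  have h0 : G.sReg μ ≠ 0 := hs.ne'
  have hft : G.sReg μ ≠ ∞ := measure_ne_top _ _
  refine (ENNReal.le_div_iff_mul_le (Or.inl h0) (Or.inl hft)).2 ?_
  have hstep : ∀ x, ENNReal.ofReal (G.lev x) ≤
      1 + ∑' k : ℕ, if ((k : ℝ) + 1) < G.lev x then (1 : ℝ≥0∞) else 0 := by
    intro x
    rcases le_or_gt (G.lev x) 1 with h1 | h1
    · exact le_add_right (ENNReal.ofReal_le_one.2 h1)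
    · obtain ⟨m, hm⟩ : ∃ m : ℕ, ⌈G.lev x⌉₊ = m + 1 + 1 := ⟨⌈G.lev x⌉₊ - 2, by
        have : 1 < ⌈G.lev x⌉₊ := Nat.lt_ceil.2 (by simpa using h1)
        omega⟩
      have hle : G.lev x ≤ ((m + 1 + 1 : ℕ) : ℝ) := hm ▸ Nat.le_ceil _
      refine (ENNReal.ofReal_le_ofReal hle).trans ?_
      rw [ENNReal.ofReal_natCast, Nat.cast_add, Nat.cast_one, add_comm ((m + 1 : ℕ) : ℝ≥0∞) 1]
      gcongr
      refine le_trans (le_of_eq ?_) (ENNReal.sum_le_tsum (Finset.range (m + 1)))
      rw [Finset.sum_congr rfl fun k hk => if_pos ?_, Finset.sum_const, Finset.card_range, nsmul_one]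
      have hk' := Finset.mem_range.1 hk
      have : (k + 1 : ℕ) < ⌈G.lev x⌉₊ := by omega
      exact_mod_cast Nat.lt_ceil.1 this
  have key : ∀ k : ℕ, (∑' x, G.disp μ 1 x * if ((k : ℝ) + 1) < G.lev x then (1 : ℝ≥0∞) else 0) *
      G.sReg μ ≤ ann μ (G.Long ((k : ℝ) + 1)) := by
    intro k
    rw [← ENNReal.tsum_mul_right]
    calc ∑' x, (G.disp μ 1 x * if ((k : ℝ) + 1) < G.lev x then (1 : ℝ≥0∞) else 0) * G.sReg μ
        = ∑' x, ann μ (if ((k : ℝ) + 1) < G.lev x then G.Tgt 1 x else ∅) := by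
          refine tsum_congr fun x => ?_
          split_ifs
          · rw [mul_one, ann_tgt]
          · simp
      _ = ann μ (⋃ x, if ((k : ℝ) + 1) < G.lev x then G.Tgt 1 x else ∅) := by
          rw [measure_iUnion]
          · intro x y hxy
            simp only [Function.onFun]
            split_ifs <;> first | exact G.tgt_disjoint 1 hxy | simp
          · intro x; split_ifs
            · exact G.measurableSet_Tgt 1 x
            · exact MeasurableSet.empty
      _ ≤ _ := by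
          refine measure_mono (Set.iUnion_subset fun x => ?_)
          split_ifs with hx
          · have := G.tgt_subset_long (k + 1) x (by push_cast; exact hx)
            simpa using this
          · simp
  calc G.mean μ 1 * G.sReg μ
      ≤ (∑' x, G.disp μ 1 x *
          (1 + ∑' k : ℕ, if ((k : ℝ) + 1) < G.lev x then (1 : ℝ≥0∞) else 0)) * G.sReg μ := by
        refine mul_le_mul_left (ENNReal.tsum_le_tsum fun x => ?_) _
        exact mul_le_mul_right (hstep x) _
    _ = (∑' x, G.disp μ 1 x) * G.sReg μ + ∑' k : ℕ,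
          (∑' x, G.disp μ 1 x * if ((k : ℝ) + 1) < G.lev x then (1 : ℝ≥0∞) else 0) * G.sReg μ := by
        simp only [mul_add, mul_one, ENNReal.tsum_add, add_mul, ← ENNReal.tsum_mul_left]
        rw [ENNReal.tsum_comm (f := fun x (k : ℕ) => G.disp μ 1 x * _)]
        simp only [ENNReal.tsum_mul_right]
    _ ≤ 1 + ∑' k : ℕ, ann μ (G.Long ((k : ℝ) + 1)) := by
        refine add_le_add ?_ (ENNReal.tsum_le_tsum key)
        rw [G.tsum_disp_eq_one μ h hs, one_mul]
        exact prob_le_one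
    _ ≤ 2 := by
        rw [← one_add_one_eq_two]
        gcongr
        exact ENNReal.tsum_le_of_sum_range_le fun N => G.sum_long_le μ hs N

/-- The mean level is additive over slabs. -/
theorem mean_le (hs : 0 < G.sReg μ) (h : G.ManyReg μ) :
    ∀ K, G.mean μ K ≤ K * (2 / G.sReg μ) := by
  intro K
  induction K with
  | zero =>
    have : G.mean μ 0 = 0 := by
      refine ENNReal.tsum_eq_zero.2 fun x => ?_
      by_cases hx : x = 0
      · subst hx; simp [lev_zero]
      · refine mul_eq_zero_of_left (ENNReal.tsum_eq_zero.2 fun n => ?_) _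
        rcases Nat.eq_zero_or_pos n with rfl | hn
        · convert measure_empty (μ := ann μ)
          exact Set.eq_empty_of_forall_notMem fun ξ hξ => hx (by simpa using hξ.2.symm)
        · convert measure_empty (μ := ann μ)
          refine Set.eq_empty_of_forall_notMem fun ξ hξ => ?_
          have h0 : G.PreReg n 0 ξ := by
            obtain ⟨-, hp, -⟩ := hξ.1
            refine ⟨hn, fun j hj => absurd hj (Nat.not_lt_zero j), (hp n hn le_rfl).1, fun i hi hin => ?_⟩
            rw [lv_zero, zero_add]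
            exact (hp i hi hin).2
          have hpos : 0 < G.preCount n ξ :=
            Finset.card_pos.2 ⟨0, by simpa [hn] using h0⟩
          exact hpos.ne' hξ.1.2.2
    simp [this]
  | succ K ih =>
    calc G.mean μ (K + 1)
        = ∑' x, ∑' u, G.disp μ K u * G.disp μ 1 (x - u) * ENNReal.ofReal (G.lev x) := by
          simp only [mean, G.disp_add μ h hs, ENNReal.tsum_mul_right]
      _ = ∑' u, ∑' v, G.disp μ K u * G.disp μ 1 v * ENNReal.ofReal (G.lev (u + v)) := by
          rw [ENNReal.tsum_comm]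
          refine tsum_congr fun u => ?_
          rw [← (Equiv.addLeft u).tsum_eq]
          simp
      _ ≤ ∑' u, ∑' v, (G.disp μ K u * ENNReal.ofReal (G.lev u) * G.disp μ 1 v +
            G.disp μ K u * (G.disp μ 1 v * ENNReal.ofReal (G.lev v))) := by
          refine ENNReal.tsum_le_tsum fun u => ENNReal.tsum_le_tsum fun v => ?_
          rw [lev_add]
          refine le_trans (mul_le_mul_right ENNReal.ofReal_add_le _) ?_
          rw [mul_add]
          apply add_le_add <;> exact le_of_eq (by ring)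
      _ = G.mean μ K + G.mean μ 1 := by
          simp only [ENNReal.tsum_add, ENNReal.tsum_mul_left, G.tsum_disp_eq_one μ h hs, mul_one,
            ENNReal.tsum_mul_right, one_mul, mean]
      _ ≤ _ := by
          push_cast
          rw [add_mul, one_mul]
          exact add_le_add ih (G.mean_one_le μ hs h)

end Vale.Agent.P147.Geo
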