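import Vale.Agent.P147.Regen
import Vale.Agent.P147.Band

/-!
# P147: the turn after a regeneration and the meeting event
-/

namespace Vale.Agent.P147.Geo

open Cyl

variable {d : ℕ} (G : Geo d)

/-- The start of the second walker when the first has regenerated at `x`. -/
def tip (x : Site d) : Site d := x + vec G.es + vec G.fs

lemma lev_tip (x : Site d) : G.lev (G.tip x) = G.lev x + 1 + G.lev (vec G.fs) := by
  rw [tip, lev_add, lev_add, lev_es]

lemma lev_tip_le (x : Site d) : G.lev (G.tip x) ≤ G.lev x + 2 := by
  linarith [G.lev_tip x, G.lev_fs_le]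

lemma le_lev_tip (x : Site d) : G.lev x + 1 ≤ G.lev (G.tip x) := by
  linarith [G.lev_tip x, G.lev_fs]

/-- The first walker is in `S`, the second starts at the tip of the `K`th regeneration, steps back and
regenerates, and its path meets that of the first up to this regeneration. -/
def Meet (K : ℕ) : Set (Steps d × Steps d) :=
  {z | z.2 ∈ G.Back ∧ ∃ n, z.1 ∈ G.AtReg K n ∩ shift n ⁻¹' G.S ∧
    ∃ i ≤ n, ∃ j, pos z.1 i = G.tip (pos z.1 n) + pos z.2 j}

end Vale.Agent.P147.Geo
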