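import Vale.Agent.P147.Refine
import Vale.Agent.P147.Renewal
import Vale.Agent.P147.Early
import Vale.Agent.P147.Tip

/-!
# P147: the meeting bound for one number of regenerations

The meeting of the second walker with the first one is split by the level at which it happens first: below
`n`, between `n` and `m - n`, and above `m - n`, where `m` is the integer part of the level of the target.
-/

open MeasureTheory Filter
open scoped ENNReal

namespace Vale.Agent.P147.Geo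

open Cyl

variable {d : ℕ} [NeZero d] (G : Geo d) (μ : Measure (Dir d → ℝ))

/-- The entropy of the displacement over `r` slabs on a set is at most logarithmic in `r`. -/
def EntBound (C : ℝ) : Prop :=
  ∀ (r : ℕ) (B : Set (Site d)), (∑' u : B, ENNReal.ofReal (Real.negMulLog (G.disp μ r u).toReal)) ≤
    ENNReal.ofReal (C * ((∑' u : B, G.disp μ r u).toReal * (1 + Real.log (r + 1)) + 1))

/-- The entropy over `K` slabs, as a real number. -/
noncomputable def eR (K : ℕ) : ℝ := (G.ent μ K).toReal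

/-- The integer part of the level. -/
noncomputable def flr (x : Site d) : ℕ := ⌊G.lev x⌋₊

/-- The loss from the bad times of the last window. -/
noncomputable def loss (K n : ℕ) (ε : ℝ≥0∞) : ℝ≥0∞ :=
  ∑' x, ann μ (G.Tgt K x ∩ ⋃ t, G.Bad μ (G.flr x - n) ((G.flr x : ℝ) + 4) ε t)

variable [Law μ]

lemma ent_le (h : G.ManyReg μ) (hs : 0 < G.sReg μ) {C : ℝ} (hC : G.EntBound μ C) (r : ℕ) :
    G.ent μ r ≤ ENNReal.ofReal (C * (1 + Real.log (r + 1) + 1)) := by
  have := hC r Set.univ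
  rw [tsum_univ (fun u => ENNReal.ofReal (Real.negMulLog (G.disp μ r u).toReal)),
    tsum_univ (G.disp μ r), G.tsum_disp_eq_one μ h hs r] at this
  simpa [ent] using this

lemma ent_ne_top (h : G.ManyReg μ) (hs : 0 < G.sReg μ) {C : ℝ} (hC : G.EntBound μ C) (r : ℕ) :
    G.ent μ r ≠ ∞ := ne_top_of_le_ne_top ENNReal.ofReal_ne_top (G.ent_le μ h hs hC r)

omit [Law μ] in
lemma eR_nonneg (K : ℕ) : 0 ≤ G.eR μ K := ENNReal.toReal_nonneg

lemma eR_mono (h : G.ManyReg μ) (hs : 0 < G.sReg μ) {C : ℝ} (hC : G.EntBound μ C) :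
    Monotone (G.eR μ) := fun _ b hab =>
  ENNReal.toReal_mono (G.ent_ne_top μ h hs hC b) (G.ent_mono μ h hs hab)

lemma eR_le (h : G.ManyReg μ) (hs : 0 < G.sReg μ) {C : ℝ} (hC0 : 0 ≤ C) (hC : G.EntBound μ C) (r : ℕ) :
    G.eR μ r ≤ C * (2 + Real.log (r + 1)) := by
  have h0 : 0 ≤ Real.log ((r : ℝ) + 1) := Real.log_nonneg (by simp)
  refine ENNReal.toReal_le_of_le_ofReal (by positivity) ((G.ent_le μ h hs hC r).trans_eq ?_)
  congr 1
  ring

omit [NeZero d] in
lemma tgt_lev {K : ℕ} {x : Site d} (hne : (G.Tgt K x).Nonempty) : (K : ℝ) ≤ G.lev x := by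
  obtain ⟨ξ, hξ⟩ := hne
  obtain ⟨n, ⟨h1, h2⟩, h3⟩ := Set.mem_iUnion.1 hξ
  obtain ⟨hS, hr, hc⟩ := G.mem_atReg_inter.1 ⟨h1, h3⟩
  have h2' : pos ξ n = x := h2
  exact h2' ▸ G.le_lv_of_regCount hS K n hr hc

omit [Law μ] in
lemma tsum_ann_tgt_inter_le (K : ℕ) {B : Set (Steps d)} (hB : MeasurableSet B) :
    ∑' x, ann μ (G.Tgt K x ∩ B) ≤ ann μ (G.S ∩ B) := by
  rw [← measure_iUnion
    (fun x y hxy => (G.tgt_disjoint K hxy).mono Set.inter_subset_left Set.inter_subset_left)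
    fun x => (G.measurableSet_Tgt K x).inter hB]
  exact measure_mono (Set.iUnion_subset fun x => Set.inter_subset_inter_left _ (G.tgt_subset_S K x))

omit [Law μ] in
lemma tsum_ann_tgt_le (K : ℕ) : ∑' x, ann μ (G.Tgt K x) ≤ G.sReg μ := by
  simpa [sReg] using G.tsum_ann_tgt_inter_le μ K MeasurableSet.univ

omit [Law μ] in
lemma sReg_ne_top [Law μ] : G.sReg μ ≠ ∞ := measure_ne_top _ _

lemma sReg_toReal_pos (hs : 0 < G.sReg μ) : 0 < (G.sReg μ).toReal :=
  ENNReal.toReal_pos hs.ne' (measure_ne_top _ _)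

lemma sReg_toReal_le_one : (G.sReg μ).toReal ≤ 1 :=
  ENNReal.toReal_le_of_le_ofReal zero_le_one (by rw [ENNReal.ofReal_one]; exact prob_le_one)

lemma negMulLog_sReg : 0 ≤ Real.negMulLog (G.sReg μ).toReal ∧
    Real.negMulLog (G.sReg μ).toReal ≤ 1 := by
  refine ⟨Real.negMulLog_nonneg ENNReal.toReal_nonneg (G.sReg_toReal_le_one μ), ?_⟩
  have := Real.negMulLog_le_one_sub_self (x := (G.sReg μ).toReal) ENNReal.toReal_nonneg
  linarith [ENNReal.toReal_nonneg (a := G.sReg μ)]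

/-- A sum of expected numbers of checkpoints from an entropy bound below. -/
lemma sum_cost_le (h : G.ManyReg μ) (hs : 0 < G.sReg μ) {C : ℝ} (hC : G.EntBound μ C) (K : ℕ)
    (a b : Site d → ℕ) (hab : ∀ x, (G.Tgt K x).Nonempty → a x ≤ b x) {low : ℝ} (hlow0 : 0 ≤ low)
    {q : ℝ} (hq : 0 ≤ q)
    (hlow : ENNReal.ofReal low ≤ (∑' x, G.hT μ (G.Tgt K x) (b x)) + ENNReal.ofReal q) :
    ∑' x, G.cost μ (G.Tgt K x) (a x) (b x) ≤
      ENNReal.ofReal (2 * ((G.sReg μ).toReal * G.eR μ K - low) + 2 * q + 6) := by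
  set σ := (G.sReg μ).toReal
  set η := Real.negMulLog σ
  obtain ⟨hη0, hη1⟩ := G.negMulLog_sReg μ
  have hσ1 := G.sReg_toReal_le_one μ
  have hst : G.sReg μ ≠ ∞ := measure_ne_top _ _
  have htot : G.sReg μ * G.ent μ K + ENNReal.ofReal η = ENNReal.ofReal (σ * G.eR μ K + η) := by
    rw [ENNReal.ofReal_add (mul_nonneg ENNReal.toReal_nonneg (G.eR_nonneg μ K)) hη0,
      ENNReal.ofReal_mul ENNReal.toReal_nonneg, eR, ENNReal.ofReal_toReal hst,
      ENNReal.ofReal_toReal (G.ent_ne_top μ h hs hC K)]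
  have h1 : (∑' x, G.cost μ (G.Tgt K x) (a x) (b x)) + 2 * (∑' x, G.hT μ (G.Tgt K x) (b x)) ≤
      ENNReal.ofReal (2 * (σ * G.eR μ K + η) + 4 * σ) := by
    rw [← ENNReal.tsum_mul_left, ← ENNReal.tsum_add]
    calc ∑' x, (G.cost μ (G.Tgt K x) (a x) (b x) + 2 * G.hT μ (G.Tgt K x) (b x))
        ≤ ∑' x, (2 * G.hT μ (G.Tgt K x) (a x) + 4 * ann μ (G.Tgt K x)) := by
          refine ENNReal.tsum_le_tsum fun x => ?_
          rcases (G.Tgt K x).eq_empty_or_nonempty with he | hne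
          · have h0 : ann μ (G.Tgt K x) = 0 := by rw [he, measure_empty]
            simp [cost, hT, h0, measure_mono_null Set.inter_subset_right h0,
              Measure.restrict_eq_zero.2 h0]
          · exact G.cost_le μ (G.measurableSet_Tgt K x) (G.tgt_subset_esc K x) (hab x hne)
      _ = 2 * (∑' x, G.hT μ (G.Tgt K x) (a x)) + 4 * ∑' x, ann μ (G.Tgt K x) := by
          rw [ENNReal.tsum_add, ENNReal.tsum_mul_left, ENNReal.tsum_mul_left]
      _ ≤ 2 * ENNReal.ofReal (σ * G.eR μ K + η) + 4 * ENNReal.ofReal σ := by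
          gcongr
          · exact (G.sum_hT_le μ h hs K a).trans_eq htot
          · exact (G.tsum_ann_tgt_le μ K).trans_eq (ENNReal.ofReal_toReal hst).symm
      _ = _ := by
          have ha : 0 ≤ σ * G.eR μ K + η :=
            add_nonneg (mul_nonneg ENNReal.toReal_nonneg (G.eR_nonneg μ K)) hη0
          rw [ENNReal.ofReal_add (mul_nonneg zero_le_two ha) (mul_nonneg (by norm_num) ENNReal.toReal_nonneg),
            ENNReal.ofReal_mul zero_le_two, ENNReal.ofReal_mul (by norm_num : (0:ℝ) ≤ 4)]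
          simp only [ENNReal.ofReal_ofNat]; rfl
  set X := ∑' x, G.cost μ (G.Tgt K x) (a x) (b x)
  set Y := ∑' x, G.hT μ (G.Tgt K x) (b x)
  have hfin : X ≠ ∞ ∧ 2 * Y ≠ ∞ :=
    ENNReal.add_ne_top.1 (ne_top_of_le_ne_top ENNReal.ofReal_ne_top h1)
  have hYfin : Y ≠ ∞ := fun hY => hfin.2 (by simp [hY])
  have e1 := ENNReal.toReal_le_of_le_ofReal
    (by have := G.eR_nonneg μ K; positivity) h1
  rw [ENNReal.toReal_add hfin.1 hfin.2, ENNReal.toReal_mul] at e1
  have e2 := ENNReal.toReal_mono (ENNReal.add_ne_top.2 ⟨hYfin, ENNReal.ofReal_ne_top⟩) hlow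
  rw [ENNReal.toReal_ofReal hlow0, ENNReal.toReal_add hYfin ENNReal.ofReal_ne_top,
    ENNReal.toReal_ofReal hq] at e2
  rw [← ENNReal.ofReal_toReal hfin.1]
  refine ENNReal.ofReal_le_ofReal ?_
  norm_num at e1
  linarith

/-- The drop of the entropy below level `n`. -/
lemma cost_early_le (h : G.ManyReg μ) (hs : 0 < G.sReg μ) {C : ℝ} (hC : G.EntBound μ C) {K n : ℕ}
    (hn : n ≤ K) :
    ∑' x, G.cost μ (G.Tgt K x) 0 n ≤
      ENNReal.ofReal (2 * (G.sReg μ).toReal * (G.eR μ K - G.eR μ (K - n)) + 6) := by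
  have href := G.hT_refine μ h hs n (K - n) Set.univ (fun _ => n) fun _ _ _ hu => hu
  rw [Nat.add_sub_cancel' hn, Set.compl_univ,
    tsum_univ (fun u => ENNReal.ofReal (Real.negMulLog (G.disp μ (K - n) u).toReal))] at href
  simp only [tsum_empty, mul_zero, add_zero] at href
  refine (G.sum_cost_le μ h hs hC K (fun _ => 0) (fun _ => n) (fun _ _ => Nat.zero_le n)
    (low := (G.sReg μ).toReal * G.eR μ (K - n)) (mul_nonneg ENNReal.toReal_nonneg (G.eR_nonneg μ _))
    le_rfl ?_).trans_eq ?_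
  · rw [ENNReal.ofReal_zero, add_zero, ENNReal.ofReal_mul ENNReal.toReal_nonneg,
      ENNReal.ofReal_toReal (G.sReg_ne_top μ), eR, ENNReal.ofReal_toReal (G.ent_ne_top μ h hs hC _)]
    exact href
  · congr 1; ring

/-- Long displacements over `r` slabs are rare. -/
lemma disp_high_le (h : G.ManyReg μ) (hs : 0 < G.sReg μ) (r : ℕ) {L : ℝ} (hL : 0 < L) :
    (∑' u : {u : Site d | L ≤ G.lev u}, G.disp μ r u) ≤
      ENNReal.ofReal (2 * r / ((G.sReg μ).toReal * L)) := by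
  have hσ := G.sReg_toReal_pos μ hs
  have h1 : ENNReal.ofReal L * (∑' u : {u : Site d | L ≤ G.lev u}, G.disp μ r u) ≤ G.mean μ r := by
    rw [← ENNReal.tsum_mul_left]
    refine le_trans (ENNReal.tsum_le_tsum fun u => ?_)
      (ENNReal.tsum_comp_le_tsum_of_injective Subtype.val_injective
        fun x => G.disp μ r x * ENNReal.ofReal (G.lev x))
    rw [mul_comm]
    exact mul_le_mul_right (ENNReal.ofReal_le_ofReal u.2) _
  have h2 : G.mean μ r ≤ ENNReal.ofReal (2 * r / (G.sReg μ).toReal) := by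
    refine (G.mean_le μ hs h r).trans_eq ?_
    rw [ENNReal.ofReal_div_of_pos hσ, ENNReal.ofReal_toReal (G.sReg_ne_top μ),
      ENNReal.ofReal_mul zero_le_two, ENNReal.ofReal_natCast, ENNReal.ofReal_ofNat, ← mul_div_assoc,
      mul_comm (r : ℝ≥0∞) 2]
  rw [show 2 * (r : ℝ) / ((G.sReg μ).toReal * L) = 2 * r / (G.sReg μ).toReal / L by rw [div_div],
    ENNReal.ofReal_div_of_pos hL, ENNReal.le_div_iff_mul_le (Or.inl (by simpa using hL))
      (Or.inl ENNReal.ofReal_ne_top), mul_comm]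
  exact h1.trans h2

/-- The drop of the entropy up to `n` levels below the target. -/
lemma cost_mid_le (h : G.ManyReg μ) (hs : 0 < G.sReg μ) {C : ℝ} (hC0 : 0 ≤ C) (hC : G.EntBound μ C)
    {K n r : ℕ} (hnK : 2 * n ≤ K) (hr : r ≤ K) (hn : 2 ≤ n) :
    ∑' x, G.cost μ (G.Tgt K x) n (G.flr x - n) ≤
      ENNReal.ofReal (2 * (G.sReg μ).toReal * (G.eR μ K - G.eR μ r) +
        2 * (C * (4 * r / ((G.sReg μ).toReal * n) * (1 + Real.log (r + 1)) + 1) +
          4 * r / ((G.sReg μ).toReal * n)) + 6) := by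
  set σ := (G.sReg μ).toReal
  have hσ : 0 < σ := G.sReg_toReal_pos μ hs
  have hσ1 : σ ≤ 1 := G.sReg_toReal_le_one μ
  set q : ℝ := 4 * r / (σ * n)
  have hn' : (2 : ℝ) ≤ n := by exact_mod_cast hn
  have hq0 : 0 ≤ q := by positivity
  set bad : Set (Site d) := {u | (n : ℝ) - 1 ≤ G.lev u}
  have hP : (∑' u : bad, G.disp μ r u) ≤ ENNReal.ofReal q := by
    refine (G.disp_high_le μ h hs r (by linarith)).trans (ENNReal.ofReal_le_ofReal ?_)
    rw [show q = 2 * r / (σ * (n / 2)) by simp only [q]; field_simp; ring]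
    apply div_le_div_of_nonneg_left (by positivity) (by positivity)
    exact mul_le_mul_of_nonneg_left (by linarith) hσ.le
  have hPr : (∑' u : bad, G.disp μ r u).toReal ≤ q := ENNReal.toReal_le_of_le_ofReal hq0 hP
  have hlog : 0 ≤ Real.log ((r : ℝ) + 1) := Real.log_nonneg (by simp)
  set D := C * (q * (1 + Real.log (r + 1)) + 1)
  have hD0 : 0 ≤ D := by positivity
  have hbad : (∑' u : bad, ENNReal.ofReal (Real.negMulLog (G.disp μ r u).toReal)) ≤ ENNReal.ofReal D := by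
    refine (hC r bad).trans (ENNReal.ofReal_le_ofReal ?_)
    exact mul_le_mul_of_nonneg_left
      (add_le_add (mul_le_mul_of_nonneg_right hPr (by linarith)) le_rfl) hC0
  have href := G.hT_refine μ h hs (K - r) r badᶜ (fun x => G.flr x - n) fun x u hu hk => by
    rcases le_or_gt (G.flr x) n with hle | hlt
    · rw [Nat.sub_eq_zero_of_le hle, Nat.cast_zero]
      exact le_trans (Nat.cast_nonneg _) hk
    · have hu' : G.lev u < n - 1 := not_le.1 hu
      rw [Nat.cast_sub hlt.le, lev_sub]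
      have hfl : (G.flr x : ℝ) ≤ G.lev x := by
        refine Nat.floor_le (not_lt.1 fun hneg => ?_)
        have : G.flr x = 0 := Nat.floor_of_nonpos hneg.le
        omega
      linarith
  rw [Nat.sub_add_cancel hr, compl_compl] at href
  set E := ∑' u : (↑badᶜ : Type), ENNReal.ofReal (Real.negMulLog (G.disp μ r u).toReal) with hE
  have hsplit : G.ent μ r ≤ E + ENNReal.ofReal D := by
    rw [ent, ← ENNReal.summable.tsum_add_tsum_compl (s := bad) ENNReal.summable, add_comm]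
    gcongr
  have hst : G.sReg μ ≠ ∞ := measure_ne_top _ _
  have hs1 : G.sReg μ ≤ 1 := prob_le_one
  refine (G.sum_cost_le μ h hs hC K (fun _ => n) (fun x => G.flr x - n) (fun x hne => ?_)
    (low := σ * G.eR μ r) (mul_nonneg ENNReal.toReal_nonneg (G.eR_nonneg μ _))
    (q := D + q) (add_nonneg hD0 hq0) ?_).trans_eq ?_
  · have hK : (K : ℝ) ≤ G.lev x := G.tgt_lev hne
    have : K ≤ G.flr x := Nat.le_floor hK
    omega
  · calc ENNReal.ofReal (σ * G.eR μ r) = G.sReg μ * G.ent μ r := by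
          rw [ENNReal.ofReal_mul hσ.le, ENNReal.ofReal_toReal hst, eR,
            ENNReal.ofReal_toReal (G.ent_ne_top μ h hs hC r)]
      _ ≤ G.sReg μ * E + 1 * ENNReal.ofReal D := by
          refine le_trans (mul_le_mul_right hsplit _) ?_
          rw [mul_add]
          exact add_le_add le_rfl (mul_le_mul_left hs1 _)
      _ ≤ ((∑' x, G.hT μ (G.Tgt K x) (G.flr x - n)) + 1 * ENNReal.ofReal q) + 1 * ENNReal.ofReal D := by
          refine add_le_add (href.trans (add_le_add le_rfl ?_)) le_rfl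
          exact mul_le_mul' hs1 hP
      _ = _ := by
          rw [ENNReal.ofReal_add hD0 hq0, one_mul, one_mul]; ring
  · congr 1; simp only [D, q]; ring

/-- The crude bound for the last window. -/
lemma cost_top_le (h : G.ManyReg μ) (hs : 0 < G.sReg μ) {C : ℝ} (hC : G.EntBound μ C) (K : ℕ)
    (a b : Site d → ℕ) :
    ∑' x, G.cost μ (G.Tgt K x) (a x) (b x) ≤ ENNReal.ofReal (G.eR μ K + 2) := by
  calc ∑' x, G.cost μ (G.Tgt K x) (a x) (b x)
      ≤ ∑' x, (G.hT μ (G.Tgt K x) (a x) + ann μ (G.Tgt K x)) :=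
        ENNReal.tsum_le_tsum fun x => G.cost_le_hT μ (G.Tgt K x) (a x) (b x)
    _ ≤ (G.sReg μ * G.ent μ K + ENNReal.ofReal (Real.negMulLog (G.sReg μ).toReal)) + 1 := by
        rw [ENNReal.tsum_add]
        exact add_le_add (G.sum_hT_le μ h hs K a) ((G.tsum_ann_tgt_le μ K).trans prob_le_one)
    _ ≤ (1 * G.ent μ K + ENNReal.ofReal 1) + 1 := by
        gcongr
        · exact prob_le_one
        · exact (G.negMulLog_sReg μ).2
    _ = _ := by
        rw [ENNReal.ofReal_add (G.eR_nonneg μ K) zero_le_two, eR,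
          ENNReal.ofReal_toReal (G.ent_ne_top μ h hs hC K), one_mul, ENNReal.ofReal_one,
          ENNReal.ofReal_ofNat, add_assoc, one_add_one_eq_two]

omit [NeZero d] in
lemma meet_subset {K n : ℕ} :
    G.Meet K ⊆ ⋃ x, (G.Win (G.Tgt K x) (G.tip x) 0 n ∪ G.Win (G.Tgt K x) (G.tip x) n (G.flr x - n)) ∪
      G.Win (G.Tgt K x) (G.tip x) (G.flr x - n) (G.flr x + 1) := by
  classical
  rintro ⟨ξ, η⟩ ⟨hη, k, ⟨hk, hks⟩, i, hik, j, hij⟩
  set x := pos ξ k
  have htgt : ξ ∈ G.Tgt K x := Set.mem_iUnion.2 ⟨k, ⟨hk, rfl⟩, hks⟩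
  have hex : ∃ t, ∃ j, pos ξ t = G.tip x + pos η j := ⟨i, j, hij⟩
  set t := Nat.find hex
  have htk : t ≤ k := le_trans (Nat.find_min' hex ⟨j, hij⟩) hik
  have hmeet : ξ ∈ FirstMeet (G.tip x) η t :=
    ⟨fun w hw j h => Nat.find_min hex hw ⟨j, h⟩, Nat.find_spec hex⟩
  have htop : ∀ w ≤ t, G.lv ξ w < ((G.flr x + 1 : ℕ) : ℝ) := by
    intro w hw
    have hle : G.lv ξ w ≤ G.lev x := by
      rcases eq_or_lt_of_le (le_trans hw htk) with h | h
      · rw [h]; exact le_rfl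
      · exact le_of_lt (hk.1 w h)
    rw [Nat.cast_add, Nat.cast_one]
    exact lt_of_le_of_lt hle (Nat.lt_floor_add_one _)
  refine Set.mem_iUnion.2 ⟨x, ?_⟩
  by_cases h1 : ∀ w ≤ t, G.lv ξ w < n
  · exact Or.inl (Or.inl ⟨htgt, hη, t, hmeet, ⟨0, Nat.zero_le t, by simp⟩, h1⟩)
  push Not at h1
  by_cases h2 : ∀ w ≤ t, G.lv ξ w < ((G.flr x - n : ℕ) : ℝ)
  · exact Or.inl (Or.inr ⟨htgt, hη, t, hmeet, h1, h2⟩)
  push Not at h2
  exact Or.inr ⟨htgt, hη, t, hmeet, h2, htop⟩

/-- The meeting bound for `K` slabs. -/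
theorem meet_le (h : G.ManyReg μ) (hs : 0 < G.sReg μ) {C : ℝ} (hC0 : 0 ≤ C) (hC : G.EntBound μ C)
    {K n r U g : ℕ} (hnK : 2 * n ≤ K) (hr : r ≤ K) (hn : 2 ≤ n)
    {θ δ ε₁ ε₂ : ℝ} (hθ : 0 < θ) (hδ : 0 ≤ δ) (h1 : 0 < ε₁) (h2 : 0 < ε₂) {F : ℝ} (hF : 0 ≤ F)
    (hband : ann μ (G.BandEv n ((U : ℝ) + 4)) ≤ ENNReal.ofReal F)
    (hface : ∀ x, (K : ℝ) ≤ G.lev x →
      (ann μ).prod (ann μ) (G.Face (G.tip x)) ≤ ENNReal.ofReal δ) (hU : 0 < U) :
    (ann μ).prod (ann μ) (G.Meet K) ≤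
      ENNReal.ofReal ((2 * (G.sReg μ).toReal * (G.eR μ K - G.eR μ (K - n)) + 6) / (g + 1) + θ +
        3 ^ g / θ * δ +
        6 * ε₁ * (2 * (G.sReg μ).toReal * (G.eR μ K - G.eR μ r) +
          2 * (C * (4 * r / ((G.sReg μ).toReal * n) * (1 + Real.log (r + 1)) + 1) +
            4 * r / ((G.sReg μ).toReal * n)) + 6) +
        F / (ε₁ * ε₁) + 2 * K / U + 6 * ε₂ * (G.eR μ K + 2)) +
      G.loss μ K n (ENNReal.ofReal ε₂) := by
  set σ := (G.sReg μ).toReal
  have hσ : 0 < σ := G.sReg_toReal_pos μ hs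
  set e1 := ENNReal.ofReal ε₁
  set e2 := ENNReal.ofReal ε₂
  set th := ENNReal.ofReal θ
  set m := G.flr
  have hbadm : ∀ (a : ℕ) (V : ℝ) (e : ℝ≥0∞), MeasurableSet (⋃ t, G.Bad μ a V e t) := fun a V e =>
    .iUnion fun t => (G.decided_bad μ a V e t).measurableSet
  set T := fun x => G.Tgt K x
  have hT : ∀ x, MeasurableSet (T x) := G.measurableSet_Tgt K
  set hi : Site d → ℝ≥0∞ := fun x => if (U : ℝ) ≤ G.lev x then ann μ (T x) else 0
  set f0 : Site d → ℝ≥0∞ := fun x => ((g + 1 : ℕ) : ℝ≥0∞)⁻¹ * G.cost μ (T x) 0 n +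
    ann μ (T x ∩ G.Low μ th) + 3 ^ g * th⁻¹ * ann μ (T x) * ENNReal.ofReal δ
  set f1 : Site d → ℝ≥0∞ := fun x => 6 * e1 * G.cost μ (T x) n (m x - n) +
    ann μ (T x ∩ ⋃ t, G.Bad μ n ((U : ℝ) + 4) e1 t) + hi x
  set f2 : Site d → ℝ≥0∞ := fun x => 6 * e2 * G.cost μ (T x) (m x - n) (m x + 1) +
    ann μ (T x ∩ ⋃ t, G.Bad μ (m x - n) ((m x : ℝ) + 4) e2 t)
  have hpiece : ∀ x, (ann μ).prod (ann μ)
      ((G.Win (T x) (G.tip x) 0 n ∪ G.Win (T x) (G.tip x) n (m x - n)) ∪
        G.Win (T x) (G.tip x) (m x - n) (m x + 1)) ≤ f0 x + f1 x + f2 x := by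
    intro x
    refine (measure_union_le _ _).trans (add_le_add ((measure_union_le _ _).trans (add_le_add ?_ ?_)) ?_)
    · refine (G.ann_early_le μ (hT x) (G.tip x) n g (θ := th) (by simpa [th] using hθ)
        ENNReal.ofReal_ne_top).trans (add_le_add le_rfl ?_)
      rcases (T x).eq_empty_or_nonempty with he | hne
      · simp [he]
      · exact mul_le_mul_right (hface x (G.tgt_lev hne)) _
    · by_cases hx : (U : ℝ) ≤ G.lev x
      · refine le_trans ?_ le_add_self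
        simp only [hi, if_pos hx]
        calc (ann μ).prod (ann μ) (G.Win (T x) (G.tip x) n (m x - n))
            ≤ (ann μ).prod (ann μ) ((T x) ×ˢ (Set.univ : Set (Steps d))) :=
              measure_mono fun z hz => ⟨hz.1, trivial⟩
          _ = ann μ (T x) := by rw [Measure.prod_prod, measure_univ, mul_one]
      · refine le_trans ?_ le_self_add
        have hxU := not_le.1 hx
        refine G.ann_win_le μ (hT x) (G.tip x) ?_ ?_ (by simpa [e1] using h1) ENNReal.ofReal_ne_top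
        · have : ((m x - n : ℕ) : ℝ) ≤ m x := by exact_mod_cast Nat.sub_le _ _
          rcases le_or_gt 0 (G.lev x) with h0 | h0
          · linarith [Nat.floor_le h0, show (m x : ℝ) = (⌊G.lev x⌋₊ : ℝ) from rfl]
          · rw [show m x = 0 from Nat.floor_of_nonpos h0.le] at this ⊢
            simp at this ⊢
            positivity
        · linarith [G.lev_tip_le x]
    · refine G.ann_win_le μ (hT x) (G.tip x) ?_ ?_ (by simpa [e2] using h2) ENNReal.ofReal_ne_top
      · push_cast; linarith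
      · have := Nat.lt_floor_add_one (G.lev x)
        linarith [G.lev_tip_le x, show (m x : ℝ) = (⌊G.lev x⌋₊ : ℝ) from rfl]
  have hhi : ∑' x, hi x ≤ ENNReal.ofReal (2 * K / U) := by
    calc ∑' x, hi x = ∑' x, {x | (U : ℝ) ≤ G.lev x}.indicator (fun x => G.disp μ K x * G.sReg μ) x :=
          tsum_congr fun x => by
            by_cases hx : (U : ℝ) ≤ G.lev x <;> simp [hi, T, hx, ann_tgt]
      _ = (∑' u : {x : Site d | (U : ℝ) ≤ G.lev x}, G.disp μ K u) * G.sReg μ := by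
          rw [← ENNReal.tsum_mul_right,
            tsum_subtype {x : Site d | (U : ℝ) ≤ G.lev x} fun x => G.disp μ K x * G.sReg μ]
      _ ≤ ENNReal.ofReal (2 * K / (σ * U)) * ENNReal.ofReal σ := by
          gcongr
          · exact G.disp_high_le μ h hs K (by exact_mod_cast hU)
          · exact le_of_eq (ENNReal.ofReal_toReal (G.sReg_ne_top μ)).symm
      _ = _ := by
          rw [← ENNReal.ofReal_mul (by positivity)]
          congr 1; field_simp
  have hbad1 : ∑' x, ann μ (T x ∩ ⋃ t, G.Bad μ n ((U : ℝ) + 4) e1 t) ≤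
      ENNReal.ofReal (F / (ε₁ * ε₁)) := by
    refine (G.tsum_ann_tgt_inter_le μ K (hbadm _ _ _)).trans
      ((measure_mono Set.inter_subset_right).trans ?_)
    rw [ENNReal.ofReal_div_of_pos (by positivity), ENNReal.le_div_iff_mul_le
      (Or.inl (by simpa using mul_pos h1 h1)) (Or.inl ENNReal.ofReal_ne_top),
      mul_comm, ENNReal.ofReal_mul h1.le]
    exact (G.ann_bad_le μ n _ e1).trans hband
  have hsum : ∑' x, (f0 x + f1 x + f2 x) ≤
      (((g + 1 : ℕ) : ℝ≥0∞)⁻¹ * ENNReal.ofReal (2 * σ * (G.eR μ K - G.eR μ (K - n)) + 6) + th +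
          3 ^ g * th⁻¹ * ENNReal.ofReal δ) +
        (6 * e1 * ENNReal.ofReal (2 * σ * (G.eR μ K - G.eR μ r) +
            2 * (C * (4 * r / (σ * n) * (1 + Real.log (r + 1)) + 1) + 4 * r / (σ * n)) + 6) +
          ENNReal.ofReal (F / (ε₁ * ε₁)) + ENNReal.ofReal (2 * K / U)) +
        (6 * e2 * ENNReal.ofReal (G.eR μ K + 2) + G.loss μ K n e2) := by
    simp only [f0, f1, f2, ENNReal.tsum_add, ENNReal.tsum_mul_left, ENNReal.tsum_mul_right]
    refine add_le_add (add_le_add (add_le_add (add_le_add ?_ ?_) ?_) (add_le_add (add_le_add ?_ ?_) hhi))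
      (add_le_add ?_ le_rfl)
    · exact mul_le_mul_right (G.cost_early_le μ h hs hC (by omega)) _
    · exact (G.tsum_ann_tgt_inter_le μ K (G.measurableSet_Low μ th)).trans (G.ann_low_le μ th)
    · exact mul_le_mul_left ((mul_le_mul_right ((G.tsum_ann_tgt_le μ K).trans prob_le_one) _).trans_eq
        (mul_one _)) _
    · exact mul_le_mul_right (G.cost_mid_le μ h hs hC0 hC hnK hr hn) _
    · exact hbad1
    · exact mul_le_mul_right (G.cost_top_le μ h hs hC K _ _) _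
  refine (measure_mono (G.meet_subset (n := n))).trans ((measure_iUnion_le _).trans
    ((ENNReal.tsum_le_tsum hpiece).trans (hsum.trans_eq ?_)))
  have hlog : 0 ≤ Real.log ((r : ℝ) + 1) := Real.log_nonneg (by simp)
  have hK1 : 0 ≤ G.eR μ K - G.eR μ (K - n) :=
    sub_nonneg.2 (G.eR_mono μ h hs hC (Nat.sub_le K n))
  have hK2 : 0 ≤ G.eR μ K - G.eR μ r := sub_nonneg.2 (G.eR_mono μ h hs hC hr)
  have hK3 := G.eR_nonneg μ K
  set A1 := 2 * σ * (G.eR μ K - G.eR μ (K - n)) + 6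
  set A2 := 2 * σ * (G.eR μ K - G.eR μ r) +
    2 * (C * (4 * r / (σ * n) * (1 + Real.log (r + 1)) + 1) + 4 * r / (σ * n)) + 6
  have hA1 : 0 ≤ A1 := by positivity
  have hA2 : 0 ≤ A2 := by positivity
  have c1 : ((g + 1 : ℕ) : ℝ≥0∞)⁻¹ * ENNReal.ofReal A1 = ENNReal.ofReal (A1 / (g + 1)) := by
    rw [ENNReal.ofReal_div_of_pos (by positivity), ← ENNReal.ofReal_natCast (g + 1), div_eq_mul_inv,
      mul_comm]
    norm_num
  have c2 : (3 : ℝ≥0∞) ^ g * th⁻¹ * ENNReal.ofReal δ = ENNReal.ofReal (3 ^ g / θ * δ) := by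
    rw [ENNReal.ofReal_mul (by positivity), ENNReal.ofReal_div_of_pos hθ,
      ENNReal.ofReal_pow (by norm_num), ENNReal.ofReal_ofNat, div_eq_mul_inv]
  have c3 : ∀ {ε A : ℝ}, 0 ≤ ε → 6 * ENNReal.ofReal ε * ENNReal.ofReal A = ENNReal.ofReal (6 * ε * A) := by
    intro ε A he
    rw [ENNReal.ofReal_mul (by positivity), ENNReal.ofReal_mul (by norm_num : (0 : ℝ) ≤ 6),
      ENNReal.ofReal_ofNat]
  rw [c1, c2, c3 h1.le, c3 h2.le]
  simp only [th]
  rw [← ENNReal.ofReal_add (by positivity) hθ.le, ← ENNReal.ofReal_add (by positivity) (by positivity),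
    ← ENNReal.ofReal_add (by positivity) (by positivity), ← ENNReal.ofReal_add (by positivity) (by positivity),
    ← ENNReal.ofReal_add (by positivity) (by positivity), ← add_assoc,
    ← ENNReal.ofReal_add (by positivity) (by positivity)]
  simp only [e2, add_assoc]

end Vale.Agent.P147.Geo
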