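import Vale.Agent.P147.Norm
import Vale.Agent.P147.PerK

/-!
# P147: the tail of one slab bounds the entropy of many slabs logarithmically

The moment of order `1/8` of the displacement over `r` slabs is at most linear in `r`. By the inequality of
Gibbs with a reference law of polynomial decay, the entropy on a set is then at most logarithmic.
-/

open MeasureTheory Filter
open scoped ENNReal

namespace Vale.Agent.P147

/-- The weight of an integer in the reference law. -/
noncomputable def refW (a : ℤ) : ℝ≥0∞ := ENNReal.ofReal (((1 : ℝ) + |(a : ℝ)|) ^ 2)⁻¹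

lemma tsum_refW_ne_top : ∑' a, refW a ≠ ∞ := by
  have hs : Summable fun a : ℤ => (((1 : ℝ) + |(a : ℝ)|) ^ 2)⁻¹ := by
    have hn : Summable fun n : ℕ => (((1 : ℝ) + n) ^ 2)⁻¹ := by
      refine ((summable_nat_add_iff 1).2 (Real.summable_one_div_nat_pow.2 one_lt_two)).congr fun n => ?_
      push_cast
      rw [one_div, add_comm]
    exact Summable.of_nat_of_neg (hn.congr fun n => by simp) (hn.congr fun n => by simp)
  unfold refW
  rw [← ENNReal.ofReal_tsum_of_nonneg (fun a => by positivity) hs]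
  exact ENNReal.ofReal_ne_top

lemma one_le_tsum_refW : 1 ≤ ∑' a, refW a := by
  refine le_trans (le_of_eq ?_) (ENNReal.le_tsum 0)
  simp [refW]

lemma tsum_prod_refW (n : ℕ) :
    ∑' x : Fin n → ℤ, ∏ i, refW (x i) = (∑' a, refW a) ^ n := by
  induction n with
  | zero =>
    rw [tsum_eq_single (fun i : Fin 0 => i.elim0) fun x hx => absurd (Subsingleton.elim _ _) hx]
    simp
  | succ n ih =>
    rw [← (Fin.consEquiv fun _ => ℤ).tsum_eq, ENNReal.tsum_prod', pow_succ', ← ih,
      ← ENNReal.tsum_mul_right]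
    refine tsum_congr fun a => ?_
    rw [← ENNReal.tsum_mul_left]
    refine tsum_congr fun x => ?_
    simp [Fin.prod_univ_succ]

variable {d : ℕ}

lemma nrm_nonneg (x : Site d) : 0 ≤ nrm x := Finset.sum_nonneg fun _ _ => abs_nonneg _

lemma nrm_add (x y : Site d) : nrm (x + y) ≤ nrm x + nrm y := by
  simp only [nrm, Pi.add_apply, Int.cast_add]
  exact (Finset.sum_le_sum fun i _ => abs_add_le _ _).trans_eq Finset.sum_add_distrib

/-- The weight of a site in the fractional moment. -/
noncomputable def wgt (x : Site d) : ℝ := (1 + nrm x) ^ (1 / 8 : ℝ)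

lemma one_le_wgt (x : Site d) : 1 ≤ wgt x :=
  Real.one_le_rpow (by linarith [nrm_nonneg x]) (by norm_num)

lemma wgt_pow (x : Site d) : wgt x ^ 8 = 1 + nrm x := by
  rw [wgt, ← Real.rpow_natCast, ← Real.rpow_mul (by linarith [nrm_nonneg x])]
  norm_num

lemma wgt_add (x y : Site d) : wgt (x + y) ≤ wgt x + wgt y := by
  have hx := nrm_nonneg x
  have hy := nrm_nonneg y
  calc wgt (x + y) ≤ ((1 + nrm x) + (1 + nrm y)) ^ (1 / 8 : ℝ) :=
        Real.rpow_le_rpow (by linarith [nrm_nonneg (x + y)]) (by linarith [nrm_add x y]) (by norm_num)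
    _ ≤ _ := Real.rpow_add_le_add_rpow (by linarith) (by linarith) (by norm_num) (by norm_num)

namespace Geo

open Cyl

variable [NeZero d] (G : Geo d) (μ : Measure (Dir d → ℝ))

/-- The fractional moment of the displacement over `r` slabs. -/
noncomputable def moment (r : ℕ) : ℝ≥0∞ := ∑' x, G.disp μ r x * ENNReal.ofReal (wgt x)

lemma disp_zero_of_ne {x : Site d} (hx : x ≠ 0) : G.disp μ 0 x = 0 := by
  refine ENNReal.tsum_eq_zero.2 fun n => ?_
  convert measure_empty (μ := ann μ)
  refine Set.eq_empty_of_forall_notMem fun ξ hξ => ?_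
  rcases Nat.eq_zero_or_pos n with rfl | hn
  · exact hx (by simpa using hξ.2.symm)
  · have h0 : G.PreReg n 0 ξ := by
      obtain ⟨-, hp, -⟩ := hξ.1
      refine ⟨hn, fun j hj => absurd hj (Nat.not_lt_zero j), (hp n hn le_rfl).1, fun i hi hin => ?_⟩
      rw [lv_zero, zero_add]
      exact (hp i hi hin).2
    have hpos : 0 < G.preCount n ξ := Finset.card_pos.2 ⟨0, by simpa [hn] using h0⟩
    exact hpos.ne' hξ.1.2.2

variable [Law μ]

lemma moment_zero (h : G.ManyReg μ) (hs : 0 < G.sReg μ) : G.moment μ 0 = 1 := by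
  have h1 := G.tsum_disp_eq_one μ h hs 0
  rw [tsum_eq_single 0 fun x hx => G.disp_zero_of_ne μ hx] at h1
  rw [moment, tsum_eq_single 0 fun x hx => by rw [G.disp_zero_of_ne μ hx, zero_mul], h1, one_mul]
  simp [wgt, nrm]

lemma moment_succ_le (h : G.ManyReg μ) (hs : 0 < G.sReg μ) (r : ℕ) :
    G.moment μ (r + 1) ≤ G.moment μ r + G.moment μ 1 := by
  calc G.moment μ (r + 1)
      = ∑' u, ∑' v, G.disp μ r u * G.disp μ 1 v * ENNReal.ofReal (wgt (u + v)) := by
        simp only [moment, G.disp_add μ h hs, ← ENNReal.tsum_mul_right]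
        rw [ENNReal.tsum_comm]
        refine tsum_congr fun u => ?_
        rw [← (Equiv.addLeft u).tsum_eq]
        simp
    _ ≤ ∑' u, ∑' v, (G.disp μ r u * ENNReal.ofReal (wgt u) * G.disp μ 1 v +
          G.disp μ r u * (G.disp μ 1 v * ENNReal.ofReal (wgt v))) := by
        refine ENNReal.tsum_le_tsum fun u => ENNReal.tsum_le_tsum fun v => ?_
        refine le_trans (mul_le_mul_right
          ((ENNReal.ofReal_le_ofReal (wgt_add u v)).trans ENNReal.ofReal_add_le) _) ?_
        rw [mul_add]
        apply add_le_add <;> exact le_of_eq (by ring)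
    _ = _ := by
        simp only [ENNReal.tsum_add, ENNReal.tsum_mul_left, G.tsum_disp_eq_one μ h hs, mul_one,
          ENNReal.tsum_mul_right, one_mul, moment]

lemma moment_one_ne_top (h : G.ManyReg μ) (hs : 0 < G.sReg μ) {C : ℝ} (hC0 : 0 ≤ C)
    (hC : G.TailBound μ C) : G.moment μ 1 ≠ ∞ := by
  set far : ℕ → Set (Site d) := fun k => {u | (((k + 1) ^ 2 : ℕ) : ℝ) ^ 4 ≤ nrm u}
  have hstep : ∀ x : Site d, ENNReal.ofReal (wgt x) ≤ 2 + ∑' k, (far k).indicator 1 x := by
    intro x
    have ht := one_le_wgt x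
    rcases lt_or_ge (wgt x) 2 with h2 | h2
    · exact le_add_right ((ENNReal.ofReal_le_ofReal h2.le).trans_eq (ENNReal.ofReal_ofNat 2))
    obtain ⟨m, hm⟩ : ∃ m : ℕ, ⌊wgt x⌋₊ = m + 1 + 1 := ⟨⌊wgt x⌋₊ - 2, by
      have : 2 ≤ ⌊wgt x⌋₊ := Nat.le_floor (by simpa using h2)
      omega⟩
    have hle : wgt x ≤ ((2 + (m + 1) : ℕ) : ℝ) := by
      have := Nat.lt_floor_add_one (wgt x)
      rw [hm] at this
      push_cast at this ⊢
      linarith
    refine (ENNReal.ofReal_le_ofReal hle).trans ?_
    rw [ENNReal.ofReal_natCast, Nat.cast_add, Nat.cast_ofNat]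
    gcongr
    refine le_trans (le_of_eq ?_) (ENNReal.sum_le_tsum (Finset.range (m + 1)))
    rw [Finset.sum_congr rfl fun k hk => Set.indicator_of_mem ?_ _]
    · simp
    have hk' := Finset.mem_range.1 hk
    have h1 : ((k : ℝ) + 2) ≤ wgt x := by
      have : k + 2 ≤ ⌊wgt x⌋₊ := by omega
      exact le_trans (by exact_mod_cast this) (Nat.floor_le (by linarith))
    have h3 : (((k : ℝ) + 1) ^ 2) ^ 4 + 1 ≤ wgt x ^ 8 := by
      have h4 : ((k : ℝ) + 1) ^ 8 + 1 ^ 8 ≤ ((k : ℝ) + 1 + 1) ^ 8 :=
        pow_add_pow_le (by positivity) zero_le_one (by norm_num)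
      have h5 : ((k : ℝ) + 1 + 1) ^ 8 ≤ wgt x ^ 8 :=
        pow_le_pow_left₀ (by positivity) (by linarith) _
      rw [← pow_mul]
      norm_num at h4 ⊢
      linarith
    rw [wgt_pow] at h3
    simp only [far, Set.mem_ofPred_eq]
    push_cast
    linarith
  have hsum : Summable fun k : ℕ => C / (((k + 1) ^ 2 : ℕ) : ℝ) := by
    refine (((summable_nat_add_iff 1).2 (Real.summable_one_div_nat_pow.2 one_lt_two)).mul_left C).congr
      fun k => ?_
    push_cast
    ring
  have hfar : ∀ k, ∑' x, G.disp μ 1 x * (far k).indicator 1 x ≤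
      ENNReal.ofReal (C / (((k + 1) ^ 2 : ℕ) : ℝ)) := by
    intro k
    have he : ∀ x, G.disp μ 1 x * (far k).indicator 1 x = (far k).indicator (G.disp μ 1) x := fun x => by
      by_cases hx : x ∈ far k <;> simp [hx]
    rw [tsum_congr he, ← tsum_subtype]
    exact hC _ (Nat.one_le_pow _ _ (Nat.succ_pos k))
  have hle : G.moment μ 1 ≤ 1 * 2 + ∑' k : ℕ, ENNReal.ofReal (C / (((k + 1) ^ 2 : ℕ) : ℝ)) := by
    calc G.moment μ 1
        ≤ ∑' x, G.disp μ 1 x * (2 + ∑' k, (far k).indicator 1 x) :=
          ENNReal.tsum_le_tsum fun x => mul_le_mul_right (hstep x) _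
      _ = (∑' x, G.disp μ 1 x) * 2 + ∑' k, ∑' x, G.disp μ 1 x * (far k).indicator 1 x := by
          simp only [mul_add, ENNReal.tsum_add, ← ENNReal.tsum_mul_left, ENNReal.tsum_mul_right]
          rw [ENNReal.tsum_comm (f := fun (x : Site d) (k : ℕ) => G.disp μ 1 x * _)]
      _ ≤ _ := add_le_add (by rw [G.tsum_disp_eq_one μ h hs]) (ENNReal.tsum_le_tsum hfar)
  refine ne_top_of_le_ne_top ?_ hle
  rw [← ENNReal.ofReal_tsum_of_nonneg (fun k => by positivity) hsum]
  simp

/-- A logarithmic entropy bound from the tail of one slab. -/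
theorem entBound_of_tail (h : G.ManyReg μ) (hs : 0 < G.sReg μ) {C : ℝ} (hC0 : 0 ≤ C)
    (hC : G.TailBound μ C) : ∃ C' : ℝ, 0 ≤ C' ∧ G.EntBound μ C' := by
  set M1 : ℝ := (G.moment μ 1).toReal
  have hM1 : 0 ≤ M1 := ENNReal.toReal_nonneg
  set Z : ℝ := (∑' a, refW a).toReal
  have hZ : 1 ≤ Z := by
    simpa using ENNReal.toReal_mono tsum_refW_ne_top one_le_tsum_refW
  have hlc : 0 ≤ Real.log (Z ^ d) := Real.log_nonneg (one_le_pow₀ hZ)
  set A : ℝ := Real.log (Z ^ d) + 16 * d * Real.log (1 + M1) + 16 * d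
  have hlm : 0 ≤ Real.log (1 + M1) := Real.log_nonneg (by linarith)
  have hA : 0 ≤ A := by positivity
  refine ⟨A + 16 * d + 1, by positivity, fun r B => ?_⟩
  set m : ℝ := 1 + r * M1
  have hm : 1 ≤ m := le_add_of_nonneg_right (by positivity)
  have hmom : G.moment μ r ≤ ENNReal.ofReal m := by
    have hi : ∀ r : ℕ, G.moment μ r ≤ ENNReal.ofReal (1 + r * M1) := by
      intro r
      induction r with
      | zero => simp [G.moment_zero μ h hs]
      | succ r ih =>
        refine (G.moment_succ_le μ h hs r).trans ((add_le_add ih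
          (ENNReal.ofReal_toReal (G.moment_one_ne_top μ h hs hC0 hC)).symm.le).trans_eq ?_)
        rw [← ENNReal.ofReal_add (by positivity) hM1]
        push_cast
        congr 1; ring
    exact hi r
  set ρ : Site d → ℝ := fun x => (∏ i, (((1 : ℝ) + |(x i : ℝ)|) ^ 2)⁻¹) / Z ^ d with hρ
  have hρpos : ∀ x, 0 < ρ x := fun x =>
    div_pos (Finset.prod_pos fun i _ => by positivity) (by positivity)
  have hρsum : ∑' x, ENNReal.ofReal (ρ x) = 1 := by
    have he : ∀ x, ENNReal.ofReal (ρ x) = (∏ i, refW (x i)) * (ENNReal.ofReal (Z ^ d))⁻¹ := fun x => by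
      rw [hρ]
      dsimp only
      rw [ENNReal.ofReal_div_of_pos (by positivity),
        ENNReal.ofReal_prod_of_nonneg (fun i _ => by positivity), div_eq_mul_inv]
      rfl
    rw [tsum_congr he, ENNReal.tsum_mul_right, tsum_prod_refW, ENNReal.ofReal_pow (by linarith),
      ENNReal.ofReal_toReal tsum_refW_ne_top]
    exact ENNReal.mul_inv_cancel (pow_ne_zero _ (zero_lt_one.trans_le one_le_tsum_refW).ne')
      (ENNReal.pow_ne_top tsum_refW_ne_top)
  set a : ℝ := Real.log (Z ^ d) + 16 * d * Real.log m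
  set b : ℝ := 16 * d / m
  have ha : 0 ≤ a := add_nonneg hlc (mul_nonneg (by positivity) (Real.log_nonneg hm))
  have hb : 0 ≤ b := by positivity
  have hnlog : ∀ x, nlog (ENNReal.ofReal (ρ x)) ≤
      ENNReal.ofReal a + ENNReal.ofReal b * ENNReal.ofReal (wgt x) := by
    intro x
    have hw := one_le_wgt x
    rw [nlog, ENNReal.toReal_ofReal (hρpos x).le, ← ENNReal.ofReal_mul hb,
      ← ENNReal.ofReal_add ha (mul_nonneg hb (by linarith))]
    refine ENNReal.ofReal_le_ofReal ?_
    have h1 : -Real.log (ρ x) = Real.log (Z ^ d) + ∑ i, 2 * Real.log (1 + |(x i : ℝ)|) := by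
      rw [hρ]
      dsimp only
      rw [Real.log_div (Finset.prod_pos fun i _ => by positivity).ne' (by positivity),
        Real.log_prod (fun i _ => by positivity)]
      simp only [Real.log_inv, Real.log_pow, Nat.cast_ofNat, Finset.sum_neg_distrib]
      ring
    have h2 : ∑ i, 2 * Real.log (1 + |(x i : ℝ)|) ≤ (d : ℝ) * (2 * Real.log (wgt x ^ 8)) := by
      rw [wgt_pow]
      refine (Finset.sum_le_sum fun i _ => ?_).trans_eq
        (by rw [Finset.sum_const, Finset.card_univ, Fintype.card_fin, nsmul_eq_mul])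
      refine mul_le_mul_of_nonneg_left (Real.log_le_log (by positivity) ?_) zero_le_two
      exact add_le_add le_rfl (Finset.single_le_sum (f := fun j => |(x j : ℝ)|)
        (fun j _ => abs_nonneg _) (Finset.mem_univ i))
    have h3 : Real.log (wgt x) ≤ wgt x / m + Real.log m := by
      have := Real.log_le_sub_one_of_pos (show 0 < wgt x / m from div_pos (by linarith) (by linarith))
      rw [Real.log_div (by positivity) (by positivity)] at this
      linarith
    rw [Real.log_pow, Nat.cast_ofNat] at h2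
    have h4 := mul_le_mul_of_nonneg_left h3 (show 0 ≤ (16 : ℝ) * d by positivity)
    have h5 : b * wgt x = 16 * d * (wgt x / m) := by simp only [b]; ring
    rw [h1, h5]
    simp only [a]
    linarith
  have hρ1 : ∀ x, ENNReal.ofReal (ρ x) ≤ 1 := fun x => (ENNReal.le_tsum x).trans_eq hρsum
  have hq1 := G.disp_le_one μ h hs r
  have hgibbs : ∀ x, ENNReal.ofReal (Real.negMulLog (G.disp μ r x).toReal) ≤
      G.disp μ r x * (ENNReal.ofReal a + ENNReal.ofReal b * ENNReal.ofReal (wgt x)) +
        ENNReal.ofReal (ρ x) := by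
    intro x
    rw [ofReal_negMulLog (hq1 x)]
    rcases eq_or_ne (G.disp μ r x) 0 with h0 | h0
    · simp [h0]
    have hqt : G.disp μ r x ≠ ∞ := ne_top_of_le_ne_top ENNReal.one_ne_top (hq1 x)
    calc G.disp μ r x * nlog (G.disp μ r x)
        ≤ G.disp μ r x * (nlog (G.disp μ r x) + 1) := mul_le_mul_right le_self_add _
      _ ≤ G.disp μ r x * (nlog (ENNReal.ofReal (ρ x)) + ENNReal.ofReal (ρ x) / G.disp μ r x) :=
          mul_le_mul_right (nlog_add_one_le (ENNReal.ofReal_pos.2 (hρpos x)) (hρ1 x)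
            (pos_iff_ne_zero.2 h0) (hq1 x)) _
      _ ≤ _ := by
          rw [mul_add, ENNReal.mul_div_cancel h0 hqt]
          exact add_le_add (mul_le_mul_right (hnlog x) _) le_rfl
  set P := ∑' u : B, G.disp μ r u
  have hP : P ≠ ∞ := by
    refine ne_top_of_le_ne_top ENNReal.one_ne_top ((ENNReal.tsum_comp_le_tsum_of_injective
      Subtype.val_injective (G.disp μ r)).trans_eq (G.tsum_disp_eq_one μ h hs r))
  calc (∑' u : B, ENNReal.ofReal (Real.negMulLog (G.disp μ r u).toReal))
      ≤ (∑' u : B, (G.disp μ r u * ENNReal.ofReal a +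
          ENNReal.ofReal b * (G.disp μ r u * ENNReal.ofReal (wgt (u : Site d))) +
            ENNReal.ofReal (ρ u))) :=
        ENNReal.tsum_le_tsum fun u => (hgibbs u).trans_eq (by ring)
    _ ≤ P * ENNReal.ofReal a + ENNReal.ofReal b * ENNReal.ofReal m + 1 := by
        rw [ENNReal.tsum_add, ENNReal.tsum_add, ENNReal.tsum_mul_right, ENNReal.tsum_mul_left]
        refine add_le_add (add_le_add le_rfl (mul_le_mul_right ?_ _)) ?_
        · exact ((ENNReal.tsum_comp_le_tsum_of_injective Subtype.val_injective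
            fun x => G.disp μ r x * ENNReal.ofReal (wgt x))).trans hmom
        · exact (ENNReal.tsum_comp_le_tsum_of_injective Subtype.val_injective
            fun x => ENNReal.ofReal (ρ x)).trans_eq hρsum
    _ = ENNReal.ofReal (P.toReal * a + b * m + 1) := by
        have hm0 : 0 ≤ m := zero_le_one.trans hm
        have h1 : 0 ≤ P.toReal * a := mul_nonneg ENNReal.toReal_nonneg ha
        rw [ENNReal.ofReal_add (p := P.toReal * a + b * m) (add_nonneg h1 (mul_nonneg hb hm0))
            zero_le_one,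
          ENNReal.ofReal_add (p := P.toReal * a) (q := b * m) h1 (mul_nonneg hb hm0),
          ENNReal.ofReal_mul (q := a) ENNReal.toReal_nonneg, ENNReal.ofReal_toReal hP,
          ENNReal.ofReal_mul (q := m) hb, ENNReal.ofReal_one]
    _ ≤ _ := by
        refine ENNReal.ofReal_le_ofReal ?_
        have hL : 0 ≤ Real.log ((r : ℝ) + 1) := Real.log_nonneg (by simp)
        have hlogm : Real.log m ≤ Real.log (1 + M1) + Real.log ((r : ℝ) + 1) := by
          rw [← Real.log_mul (by positivity) (by positivity)]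
          exact Real.log_le_log (by positivity)
            (by simp only [m]; linarith [mul_nonneg (Nat.cast_nonneg (α := ℝ) r) hM1])
        have haA : a ≤ A * (1 + Real.log ((r : ℝ) + 1)) := by
          have h1 : a ≤ Real.log (Z ^ d) + 16 * d * (Real.log (1 + M1) + Real.log ((r : ℝ) + 1)) :=
            add_le_add le_rfl (mul_le_mul_of_nonneg_left hlogm (by positivity))
          have h2 := mul_nonneg hlc hL
          have h3 := mul_nonneg (mul_nonneg (show 0 ≤ (16 : ℝ) * d by positivity) hlm) hL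
          have h4 : (0 : ℝ) ≤ 16 * d := by positivity
          simp only [A]
          linarith
        have hbm : b * m = 16 * d := div_mul_cancel₀ _ (by positivity)
        have hP0 := ENNReal.toReal_nonneg (a := P)
        have h5 := mul_le_mul_of_nonneg_left haA hP0
        have h6 : 0 ≤ P.toReal * (1 + Real.log ((r : ℝ) + 1)) := mul_nonneg hP0 (by linarith)
        have h7 := mul_nonneg (show 0 ≤ (16 : ℝ) * d + 1 by positivity) h6
        rw [hbm]
        linarith

end Geo

end Vale.Agent.P147
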