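import Vale.Agent.P147.Geo

/-!
# P147: conditional probabilities of a target along the levels, and their entropy
-/

open MeasureTheory Filter
open scoped ENNReal

namespace Vale.Agent.P147

open Cyl

/-- The logarithmic surprise of a probability. -/
noncomputable def nlog (x : ℝ≥0∞) : ℝ≥0∞ := ENNReal.ofReal (-Real.log x.toReal)

/-- The basic inequality of Gibbs. -/
lemma nlog_add_one_le {x y : ℝ≥0∞} (hx : 0 < x) (hx1 : x ≤ 1) (hy : 0 < y) (hy1 : y ≤ 1) :
    nlog y + 1 ≤ nlog x + x / y := by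
  have hxt : x ≠ ∞ := ne_top_of_le_ne_top ENNReal.one_ne_top hx1
  have hyt : y ≠ ∞ := ne_top_of_le_ne_top ENNReal.one_ne_top hy1
  have hxp : 0 < x.toReal := ENNReal.toReal_pos hx.ne' hxt
  have hyp : 0 < y.toReal := ENNReal.toReal_pos hy.ne' hyt
  have hlx : Real.log x.toReal ≤ 0 :=
    Real.log_nonpos hxp.le (ENNReal.toReal_le_of_le_ofReal zero_le_one (by simpa using hx1))
  have hly : Real.log y.toReal ≤ 0 :=
    Real.log_nonpos hyp.le (ENNReal.toReal_le_of_le_ofReal zero_le_one (by simpa using hy1))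
  have hdiv : x / y = ENNReal.ofReal (x.toReal / y.toReal) := by
    rw [ENNReal.ofReal_div_of_pos hyp, ENNReal.ofReal_toReal hxt, ENNReal.ofReal_toReal hyt]
  rw [hdiv, nlog, nlog, ← ENNReal.ofReal_one, ← ENNReal.ofReal_add (by linarith) zero_le_one,
    ← ENNReal.ofReal_add (by linarith) (by positivity)]
  refine ENNReal.ofReal_le_ofReal ?_
  have h := Real.log_le_sub_one_of_pos (div_pos hxp hyp)
  rw [Real.log_div hxp.ne' hyp.ne'] at h
  linarith

lemma ofReal_negMulLog {x : ℝ≥0∞} (hx : x ≤ 1) :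
    ENNReal.ofReal (Real.negMulLog x.toReal) = x * nlog x := by
  have hxt : x ≠ ∞ := ne_top_of_le_ne_top ENNReal.one_ne_top hx
  rw [nlog]
  conv_rhs => arg 1; rw [← ENNReal.ofReal_toReal hxt]
  rw [← ENNReal.ofReal_mul ENNReal.toReal_nonneg, Real.negMulLog]
  congr 1
  ring

variable {d : ℕ} [NeZero d] (μ : Measure (Dir d → ℝ)) [Law μ]

/-- The conditional probability of `A` given the first `t` steps. -/
noncomputable def cnd (A : Set (Steps d)) (t : ℕ) (ξ : Steps d) : ℝ≥0∞ :=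
  ann μ (cyl t ξ ∩ A) / ann μ (cyl t ξ)

omit [Law μ] in
lemma cnd_congr (A : Set (Steps d)) {t : ℕ} {ξ η : Steps d} (h : ∀ i < t, η i = ξ i) :
    cnd μ A t η = cnd μ A t ξ := by
  rw [cnd, cnd, cyl_eq_of_mem h]

omit [Law μ] in
lemma measurable_cnd (A : Set (Steps d)) (t : ℕ) : Measurable (cnd μ A t) := by
  have h : Measurable fun ξ : Steps d => fun i : Fin t => ξ i :=
    measurable_pi_lambda _ fun i => measurable_pi_apply _
  have he : cnd μ A t = (fun w : Fin t → Dir d => cnd μ A t (ext w)) ∘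
      fun ξ : Steps d => fun i : Fin t => ξ i := by
    funext ξ
    exact (cnd_congr μ A fun i hi => ext_apply (fun i : Fin t => ξ i) hi).symm
  rw [he]
  exact (measurable_of_countable _).comp h

omit [Law μ] in
lemma cnd_le_one (A : Set (Steps d)) (t : ℕ) (ξ : Steps d) : cnd μ A t ξ ≤ 1 :=
  ENNReal.div_le_of_le_mul (by rw [one_mul]; exact measure_mono Set.inter_subset_left)

lemma cnd_zero (A : Set (Steps d)) (ξ : Steps d) : cnd μ A 0 ξ = ann μ A := by
  simp [cnd, cyl_zero]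

lemma cnd_mul (A : Set (Steps d)) (t : ℕ) (ξ : Steps d) :
    cnd μ A t ξ * ann μ (cyl t ξ) = ann μ (cyl t ξ ∩ A) :=
  ENNReal.div_mul_cancel (ann_cyl_pos μ t ξ).ne' (measure_ne_top _ _)

/-- Conditioning: the integral over `A` of a function decided by time `t`. -/
theorem lintegral_cnd {t : ℕ} {B : Set (Steps d)} (hB : Decided t B) (A : Set (Steps d))
    {F : Steps d → ℝ≥0∞} (hF : ∀ ξ η : Steps d, (∀ i < t, η i = ξ i) → F η = F ξ) :
    ∫⁻ ξ in B, F ξ * cnd μ A t ξ ∂ann μ = ∫⁻ ξ in B ∩ A, F ξ ∂ann μ := by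
  rw [lintegral_prefix t (ann μ) (F := fun ξ => F ξ * cnd μ A t ξ)
    (fun ξ η h => by rw [hF ξ η h, cnd_congr μ A h]) B, lintegral_prefix t (ann μ) hF (B ∩ A)]
  refine Finset.sum_congr rfl fun w _ => ?_
  by_cases hw : ext w ∈ B
  · have hsub := hB.cyl_subset hw
    rw [← Set.inter_assoc, Set.inter_eq_left.2 hsub, mul_assoc, cnd_mul]
  · have hd : cyl t (ext w) ∩ B = ∅ :=
      Set.disjoint_iff_inter_eq_empty.1 (Set.disjoint_left.2 fun ξ h1 h2 =>
        hw (hB ξ _ (fun i hi => (h1 i hi).symm) h2))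
    rw [← Set.inter_assoc, hd, Set.empty_inter, measure_empty, mul_zero, mul_zero]

lemma lintegral_cnd_self {t : ℕ} {B : Set (Steps d)} (hB : Decided t B) (A : Set (Steps d)) :
    ∫⁻ ξ in B, cnd μ A t ξ ∂ann μ = ann μ (B ∩ A) := by
  simpa using lintegral_cnd μ hB A (F := fun _ => 1) fun _ _ _ => rfl

lemma ae_cnd_pos (A : Set (Steps d)) (t : ℕ) :
    ∀ᵐ ξ ∂ann μ, ξ ∈ A → 0 < cnd μ A t ξ := by
  have hd : Decided t {ξ : Steps d | cnd μ A t ξ = 0} := fun ξ η h h0 => (cnd_congr μ A h).trans h0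
  have h := lintegral_cnd_self μ hd A
  rw [setLIntegral_congr_fun hd.measurableSet (g := fun _ => 0) fun ξ hξ => hξ, lintegral_zero] at h
  filter_upwards [measure_eq_zero_iff_ae_notMem.1 h.symm] with ξ hξ hA'
  exact pos_iff_ne_zero.2 fun h0 => hξ ⟨h0, hA'⟩

/-- A ratio of conditional probabilities integrates to at most the numerator. -/
lemma lintegral_div_cnd_le {t : ℕ} {B : Set (Steps d)} (hB : Decided t B) (A : Set (Steps d))
    {R : Steps d → ℝ≥0∞} (hR : ∀ ξ η : Steps d, (∀ i < t, η i = ξ i) → R η = R ξ) :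
    ∫⁻ ξ in B ∩ A, R ξ / cnd μ A t ξ ∂ann μ ≤ ∫⁻ ξ in B, R ξ ∂ann μ := by
  rw [← lintegral_cnd μ hB A (F := fun ξ => R ξ / cnd μ A t ξ)
    fun ξ η h => by rw [hR ξ η h, cnd_congr μ A h]]
  refine lintegral_mono fun ξ => ?_
  rcases eq_or_ne (cnd μ A t ξ) 0 with h | h
  · simp [h]
  · exact (ENNReal.div_mul_cancel h (ne_top_of_le_ne_top ENNReal.one_ne_top (cnd_le_one μ A t ξ))).le

namespace Geo

variable (G : Geo d)

/-- The first time the level is at least `a` (zero if there is none). -/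
noncomputable def T (a : ℕ) (ξ : Steps d) : ℕ :=
  open Classical in if h : ∃ t, (a : ℝ) ≤ G.lv ξ t then Nat.find h else 0

/-- `t` is the first time the level is at least `a`. -/
def Hit (a t : ℕ) : Set (Steps d) := {ξ | (a : ℝ) ≤ G.lv ξ t ∧ ∀ i < t, G.lv ξ i < a}

omit [NeZero d] in
lemma decided_hit (a t : ℕ) : Decided t (G.Hit a t) := by
  rintro ξ η h ⟨h1, h2⟩
  refine ⟨by rwa [G.lv_congr le_rfl h], fun i hi => ?_⟩
  rw [G.lv_congr hi.le h]
  exact h2 i hi

omit [NeZero d] in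
lemma T_eq {a t : ℕ} {ξ : Steps d} (h : ξ ∈ G.Hit a t) : G.T a ξ = t := by
  classical
  rw [T, dif_pos ⟨t, h.1⟩, Nat.find_eq_iff]
  exact ⟨h.1, fun i hi => not_le.2 (h.2 i hi)⟩

omit [NeZero d] in
lemma hit_T {a : ℕ} {ξ : Steps d} (h : ∃ t, (a : ℝ) ≤ G.lv ξ t) : ξ ∈ G.Hit a (G.T a ξ) := by
  classical
  rw [T, dif_pos h]
  exact ⟨Nat.find_spec h, fun i hi => not_le.1 (Nat.find_min h hi)⟩

omit [NeZero d] in
lemma exists_hit_of_esc {ξ : Steps d} (h : ξ ∈ G.Esc) (a : ℕ) : ξ ∈ G.Hit a (G.T a ξ) := by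
  obtain ⟨N, hN⟩ := G.esc_iff.1 h a
  exact G.hit_T ⟨N, hN N le_rfl⟩

omit [NeZero d] in
@[simp] lemma T_zero (ξ : Steps d) : G.T 0 ξ = 0 :=
  G.T_eq (a := 0) (t := 0) ⟨by simp, fun i hi => absurd hi (Nat.not_lt_zero i)⟩

omit [NeZero d] in
lemma T_mono {a b : ℕ} (hab : a ≤ b) {t : ℕ} {ξ : Steps d} (h : ξ ∈ G.Hit b t) : G.T a ξ ≤ t := by
  have h' : ∃ u, (a : ℝ) ≤ G.lv ξ u := ⟨t, le_trans (by exact_mod_cast hab) h.1⟩
  refine not_lt.1 fun hlt => ?_
  linarith [(G.hit_T h').2 t hlt, h.1, (Nat.cast_le (α := ℝ)).2 hab]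

omit [NeZero d] in
lemma hit_disjoint (a : ℕ) : Pairwise (Function.onFun Disjoint (G.Hit a)) := fun _ _ hst =>
  Set.disjoint_left.2 fun _ h1 h2 => hst ((G.T_eq h1).symm.trans (G.T_eq h2))

omit [NeZero d] in
/-- The first passage time is a stopping time. -/
lemma T_congr {a b t : ℕ} (hab : a ≤ b) {ξ η : Steps d} (h : ∀ i < t, η i = ξ i)
    (hξ : ξ ∈ G.Hit b t) : G.T a η = G.T a ξ := by
  have h' : ∃ u, (a : ℝ) ≤ G.lv ξ u := ⟨t, le_trans (by exact_mod_cast hab) hξ.1⟩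
  refine G.T_eq (G.decided_hit a _ ξ η (fun i hi => h i ?_) (G.hit_T h'))
  exact lt_of_lt_of_le hi (G.T_mono hab hξ)

/-- The conditional probability at the first passage of level `a`. -/
noncomputable def cT (A : Set (Steps d)) (a : ℕ) (ξ : Steps d) : ℝ≥0∞ := cnd μ A (G.T a ξ) ξ

/-- The entropy of `A` given the walk up to the first passage of level `a`. -/
noncomputable def hT (A : Set (Steps d)) (a : ℕ) : ℝ≥0∞ :=
  ∫⁻ ξ in A, nlog (G.cT μ A a ξ) ∂ann μ

omit [Law μ] in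
lemma measurable_cT (A : Set (Steps d)) (a : ℕ) : Measurable (G.cT μ A a) := by
  have h1 : Measurable fun p : ℕ × Steps d => cnd μ A p.1 p.2 :=
    measurable_from_prod_countable_right fun t => measurable_cnd μ A t
  have h2 : Measurable (G.T a) := by
    refine measurable_to_countable' fun t => ?_
    have : G.T a ⁻¹' {t} = G.Hit a t ∪ (if t = 0 then (⋃ u, G.Hit a u)ᶜ else ∅) := by
      ext ξ
      simp only [Set.mem_preimage, Set.mem_singleton_iff, Set.mem_union]
      by_cases h : ∃ u, (a : ℝ) ≤ G.lv ξ u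
      · constructor
        · rintro rfl; exact Or.inl (G.hit_T h)
        · rintro (h1 | h1)
          · exact G.T_eq h1
          · split_ifs at h1
            · exact absurd (Set.mem_iUnion.2 ⟨_, G.hit_T h⟩) h1
            · exact absurd h1 (Set.notMem_empty ξ)
      · have h0 : G.T a ξ = 0 := by classical rw [T, dif_neg h]
        have h3 : ∀ u, ξ ∉ G.Hit a u := fun u hu => h ⟨u, hu.1⟩
        split_ifs with ht <;> simp [h0, h3, ht, eq_comm]
    rw [this]
    refine ((G.decided_hit a t).measurableSet).union ?_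
    split_ifs
    · exact (MeasurableSet.iUnion fun u => (G.decided_hit a u).measurableSet).compl
    · exact MeasurableSet.empty
  exact h1.comp (h2.prodMk measurable_id)

omit [Law μ] in
lemma cT_le_one (A : Set (Steps d)) (a : ℕ) (ξ : Steps d) : G.cT μ A a ξ ≤ 1 := cnd_le_one μ A _ ξ

omit [Law μ] in
lemma cT_congr (A : Set (Steps d)) {a b t : ℕ} (hab : a ≤ b) {ξ η : Steps d}
    (h : ∀ i < t, η i = ξ i) (hξ : ξ ∈ G.Hit b t) : G.cT μ A a η = G.cT μ A a ξ := by
  rw [cT, cT, G.T_congr hab h hξ]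
  exact cnd_congr μ A fun i hi => h i (lt_of_lt_of_le hi (G.T_mono hab hξ))

/-- The conditional probability at a first passage integrates to at most the probability. -/
lemma lintegral_cT_le {A : Set (Steps d)} (hA : MeasurableSet A) (a : ℕ) :
    ∫⁻ ξ in ⋃ t, G.Hit a t, G.cT μ A a ξ ∂ann μ ≤ ann μ A := by
  rw [lintegral_iUnion (fun t => (G.decided_hit a t).measurableSet) (G.hit_disjoint a)]
  calc ∑' t, ∫⁻ ξ in G.Hit a t, G.cT μ A a ξ ∂ann μ
      = ∑' t, ann μ (G.Hit a t ∩ A) := tsum_congr fun t => by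
        rw [← lintegral_cnd_self μ (G.decided_hit a t) A]
        exact setLIntegral_congr_fun (G.decided_hit a t).measurableSet fun ξ hξ => by
          rw [cT, G.T_eq hξ]
    _ ≤ ann μ A := by
        rw [← measure_iUnion ?_ fun t => (G.decided_hit a t).measurableSet.inter hA]
        · exact measure_mono (Set.iUnion_subset fun t => Set.inter_subset_right)
        · exact fun m n hmn => (G.hit_disjoint a hmn).mono Set.inter_subset_left Set.inter_subset_left

lemma ae_cT_pos (A : Set (Steps d)) (a : ℕ) : ∀ᵐ ξ ∂ann μ, ξ ∈ A → 0 < G.cT μ A a ξ := by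
  filter_upwards [ae_all_iff.2 fun t => ae_cnd_pos μ A t] with ξ hξ
  exact hξ _

/-- Entropy decreases along the levels. -/
theorem hT_anti {A : Set (Steps d)} (hA : MeasurableSet A) (hE : A ⊆ G.Esc) {a b : ℕ} (hab : a ≤ b) :
    G.hT μ A b ≤ G.hT μ A a := by
  have hdiv : ∫⁻ ξ in A, G.cT μ A a ξ / G.cT μ A b ξ ∂ann μ ≤ ann μ A := by
    calc ∫⁻ ξ in A, G.cT μ A a ξ / G.cT μ A b ξ ∂ann μ
        ≤ ∫⁻ ξ in ⋃ t, G.Hit b t ∩ A, G.cT μ A a ξ / G.cT μ A b ξ ∂ann μ :=
          lintegral_mono_set fun ξ hξ => Set.mem_iUnion.2 ⟨_, G.exists_hit_of_esc (hE hξ) b, hξ⟩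
      _ ≤ ∑' t, ∫⁻ ξ in G.Hit b t ∩ A, G.cT μ A a ξ / G.cT μ A b ξ ∂ann μ :=
          lintegral_iUnion_le _ _
      _ ≤ ∑' t, ∫⁻ ξ in G.Hit b t, G.cT μ A a ξ ∂ann μ := by
          refine ENNReal.tsum_le_tsum fun t => ?_
          have hmeas := (G.decided_hit b t).measurableSet.inter hA
          rw [setLIntegral_congr_fun hmeas
            (g := fun ξ => (G.Hit b t).indicator (G.cT μ A a) ξ / cnd μ A t ξ)
            fun ξ hξ => by simp only [Set.indicator_of_mem hξ.1]; simp only [cT, G.T_eq hξ.1]]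
          refine (lintegral_div_cnd_le μ (G.decided_hit b t) A fun ξ η h => ?_).trans
            (setLIntegral_congr_fun (G.decided_hit b t).measurableSet
              fun ξ hξ => Set.indicator_of_mem hξ _).le
          by_cases h' : ξ ∈ G.Hit b t
          · rw [Set.indicator_of_mem h', Set.indicator_of_mem (G.decided_hit b t ξ η h h'),
              G.cT_congr μ A hab h h']
          · rw [Set.indicator_of_notMem h', Set.indicator_of_notMem fun h2 =>
              h' (G.decided_hit b t η ξ (fun i hi => (h i hi).symm) h2)]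
      _ = ∫⁻ ξ in ⋃ t, G.Hit b t, G.cT μ A a ξ ∂ann μ :=
          (lintegral_iUnion (fun t => (G.decided_hit b t).measurableSet) (G.hit_disjoint b) _).symm
      _ ≤ ∫⁻ ξ in ⋃ t, G.Hit a t, G.cT μ A a ξ ∂ann μ := lintegral_mono_set fun ξ hξ => by
          obtain ⟨t, ht⟩ := Set.mem_iUnion.1 hξ
          exact Set.mem_iUnion.2 ⟨_, G.hit_T ⟨t, le_trans (by exact_mod_cast hab) ht.1⟩⟩
      _ ≤ ann μ A := G.lintegral_cT_le μ hA a
  have hpt : ∫⁻ ξ in A, nlog (G.cT μ A b ξ) + 1 ∂ann μ ≤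
      ∫⁻ ξ in A, nlog (G.cT μ A a ξ) + G.cT μ A a ξ / G.cT μ A b ξ ∂ann μ := by
    refine lintegral_mono_ae ((ae_restrict_iff' hA).2 ?_)
    filter_upwards [G.ae_cT_pos μ A a, G.ae_cT_pos μ A b] with ξ ha hb hξ
    exact nlog_add_one_le (ha hξ) (G.cT_le_one μ A a ξ) (hb hξ) (G.cT_le_one μ A b ξ)
  rw [lintegral_add_right _ measurable_const, lintegral_add_right
    (g := fun ξ => G.cT μ A a ξ / G.cT μ A b ξ) _
    ((G.measurable_cT μ A a).div (G.measurable_cT μ A b)), setLIntegral_const, one_mul] at hpt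
  exact (ENNReal.add_le_add_iff_right (measure_ne_top _ _)).1 (hpt.trans (add_le_add_right hdiv _))

lemma hT_zero {A : Set (Steps d)} : G.hT μ A 0 = ann μ A * nlog (ann μ A) := by
  simp [hT, cT, cnd_zero, mul_comm]

end Geo

end Vale.Agent.P147
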