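import Vale.Agent.P147.Band
import Vale.Agent.P147.Hit

/-!
# P147: two walkers which start far apart and walk away from each other do not meet
-/

open MeasureTheory Filter
open scoped ENNReal

namespace Vale.Agent.P147

open Cyl

variable {d : ℕ}

/-- A pair of step sequences as a sequence of pairs. -/
def zipSteps (z : Steps d × Steps d) : ℕ → Dir d × Dir d := fun n => (z.1 n, z.2 n)

/-- A sequence of pairs as a pair of step sequences. -/
def unzipSteps (ζ : ℕ → Dir d × Dir d) : Steps d × Steps d := (fun n => (ζ n).1, fun n => (ζ n).2)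

lemma measurable_zipSteps : Measurable (zipSteps (d := d)) :=
  measurable_pi_lambda _ fun n =>
    (((measurable_pi_apply n).comp measurable_fst).prodMk ((measurable_pi_apply n).comp measurable_snd))

lemma measurable_unzipSteps : Measurable (unzipSteps (d := d)) :=
  (measurable_pi_lambda _ fun n => measurable_fst.comp (measurable_pi_apply n)).prodMk
    (measurable_pi_lambda _ fun n => measurable_snd.comp (measurable_pi_apply n))

lemma zipSteps_preimage_cyl (n : ℕ) (ζ : ℕ → Dir d × Dir d) :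
    zipSteps ⁻¹' cyl n ζ = cyl n (unzipSteps ζ).1 ×ˢ cyl n (unzipSteps ζ).2 := by
  ext z
  simp only [Set.mem_preimage, mem_cyl, Set.mem_prod, zipSteps, unzipSteps]
  exact ⟨fun h => ⟨fun i hi => congrArg Prod.fst (h i hi), fun i hi => congrArg Prod.snd (h i hi)⟩,
    fun h i hi => Prod.ext (h.1 i hi) (h.2 i hi)⟩

variable [NeZero d]

/-- Two walkers in one environment, the first from the origin and the second from `y`. -/
noncomputable def pairLaw (μ : Measure (Dir d → ℝ)) (y : Site d) : Measure (Steps d × Steps d) :=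
  ((envLaw μ).prod (uniform.prod uniform)).map
    fun z : Env d × ((ℕ → unitInterval) × (ℕ → unitInterval)) =>
      (stepsOf z.1 0 z.2.1, stepsOf z.1 y z.2.2)

lemma measurable_pairSteps (y : Site d) :
    Measurable fun z : Env d × ((ℕ → unitInterval) × (ℕ → unitInterval)) =>
      (stepsOf z.1 0 z.2.1, stepsOf z.1 y z.2.2) := by
  have h1 := Measurable.fun_comp (measurable_stepsOf_env (d := d) 0)
    (measurable_fst.prodMk (measurable_fst.comp measurable_snd) :
      Measurable fun z : Env d × ((ℕ → unitInterval) × (ℕ → unitInterval)) => (z.1, z.2.1))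
  have h2 := Measurable.fun_comp (measurable_stepsOf_env (d := d) y)
    (measurable_fst.prodMk (measurable_snd.comp measurable_snd) :
      Measurable fun z : Env d × ((ℕ → unitInterval) × (ℕ → unitInterval)) => (z.1, z.2.2))
  exact h1.prodMk h2

variable (μ : Measure (Dir d → ℝ)) [Law μ]

instance (y : Site d) : IsProbabilityMeasure (pairLaw μ y) :=
  Measure.isProbabilityMeasure_map (measurable_pairSteps y).aemeasurable

omit [Law μ] in
lemma pairLaw_apply (y : Site d) {S : Set (Steps d × Steps d)} (hS : MeasurableSet S) :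
    pairLaw μ y S = ∫⁻ ω, (quen ω 0).prod (quen ω y) S ∂envLaw μ := by
  rw [pairLaw, Measure.map_apply (measurable_pairSteps y) hS,
    Measure.prod_apply (measurable_pairSteps y hS)]
  refine lintegral_congr fun ω => ?_
  rw [quen, quen, Measure.map_prod_map _ _ (measurable_stepsOf_snd ω 0) (measurable_stepsOf_snd ω y),
    Measure.map_apply ((measurable_stepsOf_snd ω 0).prodMap (measurable_stepsOf_snd ω y)) hS]
  rfl

omit [Law μ] in
lemma pairLaw_prod (y : Site d) {A B : Set (Steps d)} (hA : MeasurableSet A) (hB : MeasurableSet B) :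
    pairLaw μ y (A ×ˢ B) = ∫⁻ ω, quen ω 0 A * quen ω y B ∂envLaw μ := by
  rw [pairLaw_apply μ y (hA.prod hB)]
  simp only [Measure.prod_prod]

/-- The pairs of trajectories which meet. -/
def Meet (y : Site d) : Set (Steps d × Steps d) := {z | ∃ i j, pos z.1 i = y + pos z.2 j}

lemma measurableSet_Meet (y : Site d) : MeasurableSet (Meet y) := by
  have : Meet y = ⋃ i, ⋃ j, ⋃ v : Site d,
      ({ξ : Steps d | pos ξ i = y + v} ×ˢ {η : Steps d | pos η j = v}) := by
    ext ⟨a, b⟩
    simp [Meet]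
  rw [this]
  exact .iUnion fun i => .iUnion fun j => .iUnion fun v =>
    (Decided.measurableSet fun ξ η h h1 => (pos_congr h).trans h1).prod
      (Decided.measurableSet fun ξ η h h1 => (pos_congr h).trans h1)

/-- Off the meeting event, one environment and independent environments give the same law. -/
theorem pairLaw_eq_prod_of_noMeet (y : Site d) {A : Set (Steps d × Steps d)} (hA : MeasurableSet A)
    (hsub : A ⊆ (Meet y)ᶜ) : pairLaw μ y A = (ann μ).prod (ann μ) A := by
  set D : ℕ → Set (ℕ → Dir d × Dir d) := fun k =>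
    {ζ | ∀ i < k, ∀ j < k, pos (unzipSteps ζ).1 i ≠ y + pos (unzipSteps ζ).2 j}
  set ν₁ := (pairLaw μ y).map zipSteps
  set ν₂ := ((ann μ).prod (ann μ)).map zipSteps
  have : IsProbabilityMeasure ν₁ :=
    Measure.isProbabilityMeasure_map measurable_zipSteps.aemeasurable
  have : IsProbabilityMeasure ν₂ :=
    Measure.isProbabilityMeasure_map measurable_zipSteps.aemeasurable
  have key : ν₁ (unzipSteps ⁻¹' A) = ν₂ (unzipSteps ⁻¹' A) := by
    refine eqOn_iInter D ?_ ?_ ?_ (measurable_unzipSteps hA) ?_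
    · intro k a b h ha i hi j hj
      rw [pos_congr (ξ := (unzipSteps a).1) (η := (unzipSteps b).1)
          fun l hl => congrArg Prod.fst (h l (hl.trans hi)),
        pos_congr (ξ := (unzipSteps a).2) (η := (unzipSteps b).2)
          fun l hl => congrArg Prod.snd (h l (hl.trans hj))]
      exact ha i hi j hj
    · exact fun a b hab ζ hζ i hi j hj => hζ i (hi.trans_le hab) j (hj.trans_le hab)
    · intro k ζ hζ
      rw [Measure.map_apply measurable_zipSteps (measurableSet_cyl k ζ),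
        Measure.map_apply measurable_zipSteps (measurableSet_cyl k ζ), zipSteps_preimage_cyl,
        pairLaw_prod μ y (measurableSet_cyl k _) (measurableSet_cyl k _), Measure.prod_prod,
        ← lintegral_wt_mul μ 0 y k k (unzipSteps ζ).1 (unzipSteps ζ).2]
      · exact lintegral_congr_ae ((ae_goodEnv μ).mono fun ω hω => by simp only [quen_cyl hω])
      · rw [Finset.disjoint_left]
        intro z hz hz'
        obtain ⟨i, hi, rfl⟩ := mem_rows.1 hz
        obtain ⟨j, hj, he⟩ := mem_rows.1 hz'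
        rw [zero_add] at he
        exact hζ i hi j hj he.symm
    · exact fun ζ hζ => Set.mem_iInter.2 fun k i _ j _ h => hsub hζ ⟨i, j, h⟩
  rw [Measure.map_apply measurable_zipSteps (measurable_unzipSteps hA),
    Measure.map_apply measurable_zipSteps (measurable_unzipSteps hA)] at key
  exact key

namespace Geo

variable (G : Geo d)

omit [NeZero d] in
lemma not_esc_of_neg_esc {ξ : Steps d} (h : ξ ∈ G.neg.Esc) : ξ ∉ G.Esc := by
  intro h'
  obtain ⟨N, hN⟩ := G.esc_iff.1 h' 1
  obtain ⟨N', hN'⟩ := G.neg.esc_iff.1 h 1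
  have h1 := hN (max N N') (le_max_left _ _)
  have h2 := hN' (max N N') (le_max_right _ _)
  rw [lv_neg] at h2
  norm_num at h1 h2
  linarith

/-- Reaching the level `L`. -/
def Reach (L : ℝ) : Set (Steps d) := {ξ | ∃ n, L ≤ G.lv ξ n}

/-- Reaching the level `L` for the first time at time `n`. -/
def First (L : ℝ) (n : ℕ) : Set (Steps d) :=
  {ξ | (∀ j < n, G.lv ξ j < L) ∧ L ≤ G.lv ξ n}

omit [NeZero d] in
lemma decided_first (L : ℝ) (n : ℕ) : Decided n (G.First L n) := by
  rintro a b h ⟨h1, h2⟩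
  refine ⟨fun j hj => ?_, ?_⟩
  · rw [G.lv_congr hj.le h]; exact h1 j hj
  · rwa [G.lv_congr le_rfl h]

omit [NeZero d] in
lemma first_disjoint (L : ℝ) : Pairwise (Function.onFun Disjoint (G.First L)) := by
  intro a b hab
  refine Set.disjoint_left.2 fun ξ ha hb => ?_
  rcases lt_or_gt_of_ne hab with h | h
  · exact absurd ha.2 (not_le.2 (hb.1 a h))
  · exact absurd hb.2 (not_le.2 (ha.1 b h))

omit [NeZero d] in
lemma reach_eq_iUnion (L : ℝ) : G.Reach L = ⋃ n, G.First L n := by
  classical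
  ext ξ
  simp only [Set.mem_iUnion]
  refine ⟨fun h => ⟨Nat.find h, fun j hj => ?_, Nat.find_spec h⟩, fun ⟨n, hn⟩ => ⟨n, hn.2⟩⟩
  exact not_le.1 (Nat.find_min h hj)

lemma measurableSet_Reach (L : ℝ) : MeasurableSet (G.Reach L) := by
  rw [reach_eq_iUnion]
  exact .iUnion fun n => (G.decided_first L n).measurableSet

lemma measure_reach (L : ℝ) (ν : Measure (Steps d)) :
    ν (G.Reach L) = ∑' n, ∑ w ∈ wordsIn n (G.First L n), ν (cyl n (ext w)) := by
  rw [reach_eq_iUnion, measure_iUnion (G.first_disjoint L)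
    fun n => (G.decided_first L n).measurableSet]
  exact tsum_congr fun n => (G.decided_first L n).measure_eq ν

omit [NeZero d] in
lemma esc_subset_reach (L : ℝ) : G.Esc ⊆ G.Reach L := fun ξ h => by
  obtain ⟨M, hM⟩ := exists_nat_ge L
  obtain ⟨N, hN⟩ := G.esc_iff.1 h M
  exact ⟨N, hM.trans (hN N le_rfl)⟩

/-- If the walkers start far apart, one environment and independent ones agree on both reaching. -/
lemma lintegral_reach_mul (L : ℝ) (y : Site d) (hy : 2 * L ≤ G.lev y) :
    ∫⁻ ω, quen ω 0 (G.Reach L) * quen ω y (G.neg.Reach L) ∂envLaw μ =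
      ann μ (G.Reach L) * ann μ (G.neg.Reach L) := by
  have hm : ∀ n m (v : Fin n → Dir d) (w : Fin m → Dir d),
      Measurable fun ω => wt ω 0 n (ext v) * wt ω y m (ext w) := fun n m v w =>
    (measurable_wt 0 n (ext v)).mul (measurable_wt y m (ext w))
  calc ∫⁻ ω, quen ω 0 (G.Reach L) * quen ω y (G.neg.Reach L) ∂envLaw μ
      = ∫⁻ ω, ∑' n, ∑' m, ∑ v ∈ wordsIn n (G.First L n), ∑ w ∈ wordsIn m (G.neg.First L m),
          wt ω 0 n (ext v) * wt ω y m (ext w) ∂envLaw μ := by
        refine lintegral_congr_ae ((ae_goodEnv μ).mono fun ω hω => ?_)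
        simp only [measure_reach, quen_cyl hω, ← ENNReal.tsum_mul_right]
        refine tsum_congr fun n => ?_
        rw [← ENNReal.tsum_mul_left]
        exact tsum_congr fun m => by rw [Finset.sum_mul_sum]
    _ = ∑' n, ∑' m, ∑ v ∈ wordsIn n (G.First L n), ∑ w ∈ wordsIn m (G.neg.First L m),
          ann μ (cyl n (ext v)) * ann μ (cyl m (ext w)) := by
        rw [lintegral_tsum fun n => (Measurable.tsum fun m =>
          Finset.measurable_sum _ fun v _ => Finset.measurable_sum _ fun w _ => hm n m v w).aemeasurable]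
        refine tsum_congr fun n => ?_
        rw [lintegral_tsum fun m => (Finset.measurable_sum _ fun v _ =>
          Finset.measurable_sum _ fun w _ => hm n m v w).aemeasurable]
        refine tsum_congr fun m => ?_
        rw [lintegral_finsetSum _ fun v _ => Finset.measurable_sum _ fun w _ => hm n m v w]
        refine Finset.sum_congr rfl fun v hv => ?_
        rw [lintegral_finsetSum _ fun w _ => hm n m v w]
        refine Finset.sum_congr rfl fun w hw => lintegral_wt_mul μ 0 y n m _ _ ?_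
        have hv' : ext v ∈ G.First L n := by simpa [wordsIn] using hv
        have hw' : ext w ∈ G.neg.First L m := by simpa [wordsIn] using hw
        rw [Finset.disjoint_left]
        intro z hz hz'
        obtain ⟨i, hi, rfl⟩ := mem_rows.1 hz
        obtain ⟨j, hj, he⟩ := mem_rows.1 hz'
        have h1 : G.lev (pos (ext v) i) < L := hv'.1 i hi
        have h2 : G.neg.lev (pos (ext w) j) < L := hw'.1 j hj
        rw [zero_add] at he
        rw [← he, lev_add] at h1
        rw [lev_neg_geo] at h2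
        linarith
    _ = ann μ (G.Reach L) * ann μ (G.neg.Reach L) := by
        simp only [measure_reach, ← ENNReal.tsum_mul_right]
        refine tsum_congr fun n => ?_
        rw [← ENNReal.tsum_mul_left]
        exact tsum_congr fun m => by rw [Finset.sum_mul_sum]

lemma exists_reach_small (hU : ann μ ({ξ | ∀ M : ℕ, ∃ n, (M : ℝ) ≤ G.lv ξ n} \ G.Esc) = 0)
    {θ : ℝ≥0∞} (hθ : 0 < θ) :
    ∃ K : ℕ, ∀ k, K ≤ k → ann μ (G.Reach (k : ℝ) \ G.Esc) ≤ θ := by
  have hanti : Antitone fun k : ℕ => G.Reach (k : ℝ) \ G.Esc := fun a b hab ξ ⟨⟨n, hn⟩, h⟩ =>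
    ⟨⟨n, le_trans (by exact_mod_cast hab) hn⟩, h⟩
  have hlim := tendsto_measure_iInter_atTop (μ := ann μ) (s := fun k : ℕ => G.Reach (k : ℝ) \ G.Esc)
    (fun k => ((G.measurableSet_Reach _).diff G.measurableSet_Esc).nullMeasurableSet) hanti
    ⟨0, measure_ne_top _ _⟩
  rw [show (⋂ k : ℕ, G.Reach (k : ℝ) \ G.Esc) =
      {ξ | ∀ M : ℕ, ∃ n, (M : ℝ) ≤ G.lv ξ n} \ G.Esc by
    ext ξ
    simp only [Set.mem_iInter, Set.mem_sdiff, Set.mem_ofPred_eq, Reach]
    exact ⟨fun h => ⟨fun M => (h M).1, (h 0).2⟩, fun h M => ⟨h.1 M, h.2⟩⟩, hU] at hlim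
  exact eventually_atTop.1 (hlim.eventually (Iic_mem_nhds hθ))

/-- The meeting of two escaping walkers in one environment, quenched. -/
lemma quen_meet_le {ω : Env d} (hω : GoodEnv ω) (L : ℝ) (y : Site d) (hy : 2 * L ≤ G.lev y)
    {ε : ℝ≥0∞} (hε : ε ≠ 0) (hε' : ε ≠ ∞) :
    (quen ω 0).prod (quen ω y) (G.Esc ×ˢ G.neg.Esc ∩ Meet y) ≤
      2 * ε + ε⁻¹ * (quen ω 0 (G.Reach L \ G.Esc) + quen ω y (G.neg.Reach L \ G.neg.Esc)) := by
  set Z₁ : Set (Site d) := {z | quen ω z G.neg.Esc ≤ ε}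
  set Z₂ : Set (Site d) := {z | ε ≤ quen ω z G.neg.Esc ∧ L ≤ G.lev z}
  set Z₃ : Set (Site d) := {z | quen ω z G.Esc ≤ ε}
  set Z₄ : Set (Site d) := {z | ε ≤ quen ω z G.Esc ∧ G.lev z < L}
  set B₁ : Set (Steps d) := {η | η ∈ G.neg.Esc ∧ ∃ j, y + pos η j ∈ Z₁}
  set B₂ : Set (Steps d) := ⋃ i, hitAt 0 Z₂ i
  set B₃ : Set (Steps d) := {ξ | ξ ∈ G.Esc ∧ ∃ i, 0 + pos ξ i ∈ Z₃}
  set B₄ : Set (Steps d) := ⋃ j, hitAt y Z₄ j
  have hsub : G.Esc ×ˢ G.neg.Esc ∩ Meet y ⊆
      (Set.univ ×ˢ B₁ ∪ B₂ ×ˢ Set.univ) ∪ (B₃ ×ˢ Set.univ ∪ Set.univ ×ˢ B₄) := by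
    rintro ⟨X, W⟩ ⟨⟨hX, hW⟩, i, j, he⟩
    change pos X i = y + pos W j at he
    rcases le_total (quen ω (y + pos W j) G.neg.Esc) ε with h1 | h1
    · exact Or.inl (Or.inl ⟨trivial, hW, j, h1⟩)
    rcases le_or_gt L (G.lev (y + pos W j)) with h2 | h2
    · refine Or.inl (Or.inr ⟨Set.mem_iUnion.2 ⟨i, ?_⟩, trivial⟩)
      show 0 + pos X i ∈ Z₂
      rw [zero_add, he]
      exact ⟨h1, h2⟩
    rcases le_total (quen ω (y + pos W j) G.Esc) ε with h3 | h3
    · refine Or.inr (Or.inl ⟨⟨hX, i, ?_⟩, trivial⟩)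
      rw [zero_add, he]
      exact h3
    · exact Or.inr (Or.inr ⟨trivial, Set.mem_iUnion.2 ⟨j, h3, h2⟩⟩)
  have b₁ : quen ω y B₁ ≤ ε := quen_le_of_hit hω y (fun j => decided_hitAt y Z₁ j)
    (E := fun _ => G.neg.Esc) (fun _ => G.neg.measurableSet_Esc)
    (fun η h => Set.mem_iUnion.2 h.2) (fun η h t _ => (G.neg.esc_shift t).2 h.1) fun _ _ h => h
  have b₃ : quen ω 0 B₃ ≤ ε := quen_le_of_hit hω 0 (fun j => decided_hitAt 0 Z₃ j)
    (E := fun _ => G.Esc) (fun _ => G.measurableSet_Esc)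
    (fun η h => Set.mem_iUnion.2 h.2) (fun η h t _ => (G.esc_shift t).2 h.1) fun _ _ h => h
  have b₂ : quen ω 0 B₂ ≤ ε⁻¹ * quen ω 0 (G.Reach L \ G.Esc) := by
    rw [← ENNReal.div_eq_inv_mul, ENNReal.le_div_iff_mul_le (Or.inl hε) (Or.inl hε'), mul_comm]
    refine mul_quen_hit_le hω 0 (G' := G.Reach L \ G.Esc) (fun j => decided_hitAt 0 Z₂ j) (E := fun _ => G.neg.Esc)
      (fun _ => G.neg.measurableSet_Esc) (fun t ξ h hE => ⟨⟨t, ?_⟩, ?_⟩) fun _ _ h => h.1
    · have := h.2
      rwa [zero_add] at this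
    · exact G.not_esc_of_neg_esc ((G.neg.esc_shift t).1 hE)
  have b₄ : quen ω y B₄ ≤ ε⁻¹ * quen ω y (G.neg.Reach L \ G.neg.Esc) := by
    rw [← ENNReal.div_eq_inv_mul, ENNReal.le_div_iff_mul_le (Or.inl hε) (Or.inl hε'), mul_comm]
    refine mul_quen_hit_le hω y (G' := G.neg.Reach L \ G.neg.Esc) (fun j => decided_hitAt y Z₄ j) (E := fun _ => G.Esc)
      (fun _ => G.measurableSet_Esc) (fun t ξ h hE => ⟨⟨t, ?_⟩, ?_⟩) fun _ _ h => h.1
    · have h2 : G.lev (y + pos ξ t) < L := h.2
      rw [lev_add] at h2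
      rw [lv_neg]
      unfold Geo.lv
      linarith
    · exact fun hn => G.not_esc_of_neg_esc hn ((G.esc_shift t).1 hE)
  refine ((measure_mono hsub).trans (measure_union_le _ _)).trans ?_
  refine (add_le_add (measure_union_le _ _) (measure_union_le _ _)).trans ?_
  simp only [Measure.prod_prod, measure_univ, one_mul, mul_one]
  refine (add_le_add (add_le_add b₁ b₂) (add_le_add b₃ b₄)).trans (le_of_eq ?_)
  ring

/-- Walkers far apart, escaping away from each other in independent environments, rarely meet. -/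
theorem facing_small
    (hU : ann μ ({ξ | ∀ M : ℕ, ∃ n, (M : ℝ) ≤ G.lv ξ n} \ G.Esc) = 0)
    (hU' : ann μ ({ξ | ∀ M : ℕ, ∃ n, (M : ℝ) ≤ G.neg.lv ξ n} \ G.neg.Esc) = 0)
    {δ : ℝ≥0∞} (hδ : 0 < δ) :
    ∃ N : ℝ, ∀ y, N ≤ G.lev y →
      (ann μ).prod (ann μ)
        {z | z.1 ∈ G.Esc ∧ z.2 ∈ G.neg.Esc ∧ ∃ i j, pos z.1 i = y + pos z.2 j} ≤ δ := by
  set δ' := min δ 1
  have hδ' : 0 < δ' := lt_min hδ one_pos
  have hδt : δ' ≠ ∞ := ne_top_of_le_ne_top ENNReal.one_ne_top (min_le_right _ _)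
  set ε := δ' / 8 with hεdef
  have hε : ε ≠ 0 := (ENNReal.div_pos hδ'.ne' (by norm_num)).ne'
  have hε' : ε ≠ ∞ := ENNReal.div_ne_top hδt (by norm_num)
  set θ := min ε (ε * ε)
  have hθ : 0 < θ := lt_min (pos_iff_ne_zero.2 hε) (pos_iff_ne_zero.2 (mul_ne_zero hε hε))
  obtain ⟨K, hK⟩ := G.exists_reach_small μ hU hθ
  obtain ⟨K', hK'⟩ := G.neg.exists_reach_small μ hU' hθ
  set L : ℝ := ((max K K' : ℕ) : ℝ)
  refine ⟨2 * L, fun y hy => ?_⟩
  have hf : ann μ (G.Reach L \ G.Esc) ≤ θ := hK _ (le_max_left _ _)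
  have hf' : ann μ (G.neg.Reach L \ G.neg.Esc) ≤ θ := hK' _ (le_max_right _ _)
  have hE := G.measurableSet_Esc
  have hE' := G.neg.measurableSet_Esc
  set T := G.Esc ×ˢ G.neg.Esc with hT
  have hTm : MeasurableSet T := hE.prod hE'
  have hMm := measurableSet_Meet y
  rw [show {z : Steps d × Steps d | z.1 ∈ G.Esc ∧ z.2 ∈ G.neg.Esc ∧
      ∃ i j, pos z.1 i = y + pos z.2 j} = T ∩ Meet y by
    ext z; simp [T, Meet, and_assoc]]
  have hq : ∀ (x : Site d) {E : Set (Steps d)}, MeasurableSet E → Measurable fun ω => quen ω x E :=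
    fun x E h => measurable_quen x h
  have hR := G.measurableSet_Reach L
  have hR' := G.neg.measurableSet_Reach L
  have hPP : (ann μ).prod (ann μ) T ≤ pairLaw μ y T +
      (ann μ (G.Reach L \ G.Esc) + ann μ (G.neg.Reach L \ G.neg.Esc)) := by
    rw [hT, Measure.prod_prod, pairLaw_prod μ y hE hE', ← lintegral_quen μ 0 (hR.diff hE),
      ← lintegral_quen μ y (hR'.diff hE'), ← lintegral_add_left (hq 0 (hR.diff hE)),
      ← lintegral_add_left (f := fun ω => quen ω 0 G.Esc * quen ω y G.neg.Esc)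
        ((hq 0 hE).mul (hq y hE'))]
    refine le_trans (mul_le_mul' (measure_mono (G.esc_subset_reach L))
      (measure_mono (G.neg.esc_subset_reach L))) ?_
    rw [← G.lintegral_reach_mul μ L y hy]
    refine lintegral_mono fun ω => ?_
    calc quen ω 0 (G.Reach L) * quen ω y (G.neg.Reach L)
        ≤ (quen ω 0 G.Esc + quen ω 0 (G.Reach L \ G.Esc)) * quen ω y (G.neg.Reach L) := by
          refine mul_le_mul_left ?_ _
          exact (measure_mono (fun x hx => (em _).imp id fun h => ⟨hx, h⟩)).trans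
            (measure_union_le _ _)
      _ ≤ quen ω 0 G.Esc * (quen ω y G.neg.Esc + quen ω y (G.neg.Reach L \ G.neg.Esc)) +
            quen ω 0 (G.Reach L \ G.Esc) * 1 := by
          rw [add_mul]
          refine add_le_add (mul_le_mul_right ?_ _) (mul_le_mul_right prob_le_one _)
          exact (measure_mono (fun x hx => (em _).imp id fun h => ⟨hx, h⟩)).trans
            (measure_union_le _ _)
      _ ≤ quen ω 0 G.Esc * quen ω y G.neg.Esc + 1 * quen ω y (G.neg.Reach L \ G.neg.Esc) +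
            quen ω 0 (G.Reach L \ G.Esc) := by
          rw [mul_one, mul_add]
          exact add_le_add (add_le_add le_rfl (mul_le_mul_left prob_le_one _)) le_rfl
      _ = _ := by rw [one_mul]; ring
  have hsame : pairLaw μ y (T ∩ Meet y) ≤
      2 * ε + ε⁻¹ * (ann μ (G.Reach L \ G.Esc) + ann μ (G.neg.Reach L \ G.neg.Esc)) := by
    rw [pairLaw_apply μ y (hTm.inter hMm), ← lintegral_quen μ 0 (hR.diff hE),
      ← lintegral_quen μ y (hR'.diff hE'), ← lintegral_add_left (hq 0 (hR.diff hE)),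
      ← lintegral_const_mul' _ _ (ENNReal.inv_ne_top.2 hε)]
    refine le_trans (lintegral_mono_ae ((ae_goodEnv μ).mono fun ω hω =>
      G.quen_meet_le hω L y hy hε hε')) (le_of_eq ?_)
    rw [lintegral_add_left measurable_const, lintegral_const, measure_univ, mul_one]
  have h1 : (ann μ).prod (ann μ) (T ∩ Meet y) + pairLaw μ y (T \ Meet y) ≤
      pairLaw μ y (T ∩ Meet y) + (ann μ (G.Reach L \ G.Esc) + ann μ (G.neg.Reach L \ G.neg.Esc)) +
        pairLaw μ y (T \ Meet y) := by
    rw [pairLaw_eq_prod_of_noMeet μ y (hTm.diff hMm) fun z hz => hz.2, measure_inter_add_sdiff T hMm]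
    refine hPP.trans (le_of_eq ?_)
    rw [← measure_inter_add_sdiff T hMm (μ := pairLaw μ y),
      pairLaw_eq_prod_of_noMeet μ y (hTm.diff hMm) fun z hz => hz.2]
    ring
  have h2 := (ENNReal.add_le_add_iff_right (measure_ne_top _ _)).1 h1
  refine h2.trans ((add_le_add hsame (add_le_add hf hf')).trans ?_)
  have e1 : ε⁻¹ * (ann μ (G.Reach L \ G.Esc) + ann μ (G.neg.Reach L \ G.neg.Esc)) ≤ 2 * ε := by
    refine (mul_le_mul_right (add_le_add (hf.trans (min_le_right _ _))
      (hf'.trans (min_le_right _ _))) _).trans (le_of_eq ?_)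
    rw [← two_mul, mul_left_comm, ← mul_assoc ε⁻¹, ENNReal.inv_mul_cancel hε hε', one_mul]
  calc 2 * ε + ε⁻¹ * (ann μ (G.Reach L \ G.Esc) + ann μ (G.neg.Reach L \ G.neg.Esc)) + (θ + θ)
      ≤ 2 * ε + 2 * ε + (ε + ε) := by
        exact add_le_add (add_le_add le_rfl e1) (add_le_add (min_le_left _ _) (min_le_left _ _))
    _ ≤ 8 * ε := by
        rw [show 2 * ε + 2 * ε + (ε + ε) = 6 * ε by ring]
        exact mul_le_mul_left (by norm_num) _
    _ = δ' := ENNReal.mul_div_cancel (by norm_num) (by norm_num)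
    _ ≤ δ := min_le_left _ _

end Geo

end Vale.Agent.P147
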