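import Vale.Agent.P147.PerK
import Vale.Agent.P147.Budget

/-!
# P147: choice of the scale

Over the scales `j` between `J` and `2 J` the band probabilities and the entropy increments sum to the order
`b J`, so some scale has both small enough; there the meeting probability is small.
-/

open MeasureTheory Filter
open scoped ENNReal Topology

namespace Vale.Agent.P147.Geo

open Cyl

variable {d : ℕ} [NeZero d] (G : Geo d) (μ : Measure (Dir d → ℝ)) [Law μ]

lemma sum_loss_le (s : Finset ℕ) (n : ℕ) {ε : ℝ≥0∞} (hε : ε ≠ 0) (hε' : ε ≠ ∞) :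
    ∑ K ∈ s, G.loss μ K n ε ≤ ((n + 5 : ℕ) : ℝ≥0∞) / (ε * ε) := by
  classical
  set B : ℕ → Set (Steps d) := fun m => ⋃ t, G.Bad μ (m - n) ((m : ℝ) + 4) ε t
  have hB : ∀ m, MeasurableSet (B m) := fun m =>
    .iUnion fun t => (G.decided_bad μ _ _ ε t).measurableSet
  set f : ℕ → ℕ × Site d → ℝ≥0∞ := fun m p =>
    if G.flr p.2 = m then ann μ (G.Tgt p.1 p.2 ∩ B m) else 0
  have h1 : ∀ K x, ann μ (G.Tgt K x ∩ B (G.flr x)) = ∑' m, f m (K, x) := by
    intro K x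
    rw [tsum_eq_single (G.flr x)]
    · simp [f]
    · intro m hm; simp [f, Ne.symm hm]
  have h2 : ∀ m, ∑ K ∈ s, ∑' x, f m (K, x) ≤ ann μ (B m) := by
    intro m
    set T : {K // K ∈ s} × Site d → Set (Steps d) := fun p =>
      if G.flr p.2 = m then G.Tgt p.1 p.2 ∩ B m else ∅
    have hT : ∑ K ∈ s, ∑' x, f m (K, x) = ∑' p, ann μ (T p) := by
      rw [ENNReal.tsum_prod', tsum_fintype]
      rw [← Finset.sum_coe_sort]
      refine Finset.sum_congr rfl fun K _ => tsum_congr fun x => ?_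
      simp only [f, T]
      split_ifs <;> simp
    rw [hT, ← measure_iUnion]
    · refine measure_mono (Set.iUnion_subset fun p => ?_)
      simp only [T]
      split_ifs
      · exact Set.inter_subset_right
      · exact Set.empty_subset _
    · intro p p' hpp
      refine Set.disjoint_left.2 fun ξ h h' => hpp ?_
      simp only [T] at h h'
      split_ifs at h h' with e e'
      · have hx0 : 0 ≤ G.lev p.2 := le_trans (Nat.cast_nonneg _) (G.tgt_lev ⟨ξ, h.1⟩)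
        have hx0' : 0 ≤ G.lev p'.2 := le_trans (Nat.cast_nonneg _) (G.tgt_lev ⟨ξ, h'.1⟩)
        obtain ⟨e1, e2⟩ := G.tgt_window_unique (m := m) h.1 h'.1
          (e ▸ Nat.floor_le hx0) (e ▸ Nat.lt_floor_add_one _)
          (e' ▸ Nat.floor_le hx0') (e' ▸ Nat.lt_floor_add_one _)
        exact Prod.ext (Subtype.ext e1) e2
      all_goals simp at *
    · intro p
      simp only [T]
      split_ifs
      · exact (G.measurableSet_Tgt _ _).inter (hB m)
      · exact MeasurableSet.empty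
  calc ∑ K ∈ s, G.loss μ K n ε = ∑ K ∈ s, ∑' x, ∑' m, f m (K, x) :=
        Finset.sum_congr rfl fun K _ => tsum_congr fun x => h1 K x
    _ = ∑' m, ∑ K ∈ s, ∑' x, f m (K, x) := by
        rw [Summable.tsum_finsetSum fun K _ => ENNReal.summable]
        exact Finset.sum_congr rfl fun K _ => ENNReal.tsum_comm
    _ ≤ ∑' m, ann μ (B m) := ENNReal.tsum_le_tsum h2
    _ ≤ _ := by
        refine ENNReal.summable.tsum_le_of_sum_le fun t => ?_
        rw [ENNReal.le_div_iff_mul_le (Or.inl (mul_ne_zero hε hε)) (Or.inl (ENNReal.mul_ne_top hε' hε')),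
          Finset.sum_mul]
        calc ∑ m ∈ t, ann μ (B m) * (ε * ε) ≤ ∑ m ∈ t, ann μ (G.BandEv (m - n) ((m : ℝ) + 4)) := by
              refine Finset.sum_le_sum fun m _ => ?_
              rw [mul_comm]
              exact G.ann_bad_le μ (m - n) _ ε
          _ ≤ _ := by
              refine G.sum_band_le μ t _ _ (n + 5) fun u _ hu => ?_
              rcases u.eq_empty_or_nonempty with rfl | hne
              · simp
              refine (Finset.card_le_card (t := Finset.Ico (u.min' hne) (u.min' hne + (n + 5))) ?_).trans_eq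
                (by rw [Nat.card_Ico]; omega)
              intro m hm
              have h := hu m hm _ (u.min'_mem hne)
              have h' : m - n < u.min' hne + 4 := by exact_mod_cast h
              exact Finset.mem_Ico.2 ⟨u.min'_le m hm, by omega⟩

lemma eR_two_pow_le (h : G.ManyReg μ) (hs : 0 < G.sReg μ) {C : ℝ} (hC0 : 0 ≤ C) (hC : G.EntBound μ C)
    (i : ℕ) : G.eR μ (2 ^ i) ≤ C * (i + 3) := by
  refine (G.eR_le μ h hs hC0 hC _).trans (mul_le_mul_of_nonneg_left ?_ hC0)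
  have h1 : Real.log ((2 : ℝ) ^ i + 1) ≤ Real.log ((2 : ℝ) ^ (i + 1)) :=
    Real.log_le_log (by positivity) (by
      rw [pow_succ]; linarith [one_le_pow₀ (M₀ := ℝ) (show (1 : ℝ) ≤ 2 by norm_num) (n := i)])
  rw [Real.log_pow] at h1
  push_cast at h1 ⊢
  have h2 : Real.log 2 ≤ 1 := by linarith [Real.log_two_lt_d9]
  have h3 : ((i : ℝ) + 1) * Real.log 2 ≤ (i : ℝ) + 1 :=
    mul_le_of_le_one_right (by positivity) h2
  linarith

/-- Some scale has a small band and a small entropy increment. -/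
lemma exists_scale (h : G.ManyReg μ) (hs : 0 < G.sReg μ) {C : ℝ} (hC0 : 0 ≤ C) (hC : G.EntBound μ C)
    {b J : ℕ} (hb : 1 ≤ b) (hJ : 2 * b + 2 ≤ J) :
    ∃ j, J ≤ j ∧ j < 2 * J ∧
      (ann μ (G.BandEv (2 ^ (j - b)) ((2 : ℝ) ^ (j + b) + 4))).toReal ≤ 18 * b / J ∧
      G.eR μ (2 ^ (j + 1)) - G.eR μ (2 ^ (j - 2 * b)) ≤ 18 * b * (C + 1) := by
  classical
  set F : ℕ → ℝ := fun j => (ann μ (G.BandEv (2 ^ (j - b)) ((2 : ℝ) ^ (j + b) + 4))).toReal
  set f : ℕ → ℝ := fun i => G.eR μ (2 ^ i)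
  have hf : Monotone f := fun i i' hii =>
    G.eR_mono μ h hs hC (Nat.pow_le_pow_right (by norm_num) hii)
  set φ : ℕ → ℝ := fun j => F j * J + (f (j + 1) - f (j - 2 * b)) / (C + 1)
  have hJ0 : (0 : ℝ) < J := by exact_mod_cast (by omega : 0 < J)
  have hF : ∑ j ∈ Finset.Ico J (2 * J), F j ≤ 2 * b + 1 := by
    have hband := G.sum_band_le μ (Finset.Ico J (2 * J)) (fun j => 2 ^ (j - b))
      (fun j => (2 : ℝ) ^ (j + b) + 4) (2 * b + 1) fun u hu hpair => by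
      rcases u.eq_empty_or_nonempty with rfl | hne
      · simp
      refine (Finset.card_le_card (t := Finset.Ico (u.min' hne) (u.min' hne + (2 * b + 1))) ?_).trans_eq
        (by rw [Nat.card_Ico]; omega)
      intro m hm
      have hmin := u.min'_mem hne
      have h1 := hpair m hm _ hmin
      have h2 : 2 ^ (m - b) < 2 ^ (u.min' hne + b) + 4 := by exact_mod_cast h1
      have h3 : J ≤ u.min' hne := (Finset.mem_Ico.1 (hu hmin)).1
      have h4 : 2 ^ 2 ≤ 2 ^ (u.min' hne + b) := Nat.pow_le_pow_right (by norm_num) (by omega)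
      have h5 : 2 ^ (m - b) < 2 ^ (u.min' hne + b + 1) := by rw [pow_succ 2 (u.min' hne + b)]; omega
      have h6 := (Nat.pow_lt_pow_iff_right (by norm_num)).1 h5
      exact Finset.mem_Ico.2 ⟨u.min'_le m hm, by omega⟩
    have h := ENNReal.toReal_mono (ENNReal.natCast_ne_top _) hband
    rw [ENNReal.toReal_sum fun j _ => measure_ne_top _ _, ENNReal.toReal_natCast, Nat.cast_add, Nat.cast_mul, Nat.cast_one, Nat.cast_ofNat] at h
    exact h
  have hdiff : ∑ j ∈ Finset.Ico J (2 * J), (f (j + 1) - f (j - 2 * b)) ≤ (2 * b + 1) * (5 * C * J) := by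
    have e1 : ∑ j ∈ Finset.Ico J (2 * J), f (j + 1) = ∑ i ∈ Finset.Ico (J + 1) (2 * J + 1), f i :=
      Finset.sum_Ico_add' f J (2 * J) 1
    have e2 : ∑ j ∈ Finset.Ico J (2 * J), f (j - 2 * b) =
        ∑ i ∈ Finset.Ico (J - 2 * b) (2 * J - 2 * b), f i := by
      have h' := Finset.sum_Ico_add' (fun i => f (i - 2 * b)) (J - 2 * b) (2 * J - 2 * b) (2 * b)
      simp only [Nat.add_sub_cancel, Nat.sub_add_cancel (by omega : 2 * b ≤ J),
        Nat.sub_add_cancel (by omega : 2 * b ≤ 2 * J)] at h'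
      exact h'.symm
    have e3 : ∑ i ∈ Finset.Ico (J + 1) (2 * J + 1), f i ≤
        ∑ i ∈ Finset.Ico (J - 2 * b) (2 * J + 1), f i :=
      Finset.sum_le_sum_of_subset_of_nonneg (Finset.Ico_subset_Ico (by omega) le_rfl)
        fun i _ _ => G.eR_nonneg μ _
    have e4 : ∑ i ∈ Finset.Ico (2 * J - 2 * b) (2 * J + 1), f i ≤ (2 * b + 1) * (5 * C * J) := by
      refine (Finset.sum_le_card_nsmul _ _ (5 * C * J) fun i hi => ?_).trans_eq ?_
      · have hi' := (Finset.mem_Ico.1 hi).2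
        refine (G.eR_two_pow_le μ h hs hC0 hC i).trans ?_
        have : (i : ℝ) + 3 ≤ 5 * J := by exact_mod_cast (by omega : i + 3 ≤ 5 * J)
        linarith [mul_le_mul_of_nonneg_left this hC0]
      · rw [Nat.card_Ico, nsmul_eq_mul, show 2 * J + 1 - (2 * J - 2 * b) = 2 * b + 1 by omega]
        push_cast; ring
    rw [Finset.sum_sub_distrib, e1, e2]
    linarith [Finset.sum_Ico_consecutive f (show J - 2 * b ≤ 2 * J - 2 * b by omega)
      (show 2 * J - 2 * b ≤ 2 * J + 1 by omega)]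
  have hsum : ∑ j ∈ Finset.Ico J (2 * J), φ j ≤ J * (18 * b) := by
    simp only [φ, Finset.sum_add_distrib, ← Finset.sum_mul, ← Finset.sum_div]
    have hd : (∑ j ∈ Finset.Ico J (2 * J), (f (j + 1) - f (j - 2 * b))) / (C + 1) ≤
        (2 * b + 1) * (5 * J) := by
      rw [div_le_iff₀ (by linarith)]
      refine hdiff.trans ?_
      have : 0 ≤ (2 * (b : ℝ) + 1) * (5 * J) := by positivity
      linarith
    have hF' := mul_le_mul_of_nonneg_right hF hJ0.le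
    have hb' : (1 : ℝ) ≤ b := by exact_mod_cast hb
    have : (J : ℝ) * 1 ≤ J * b := mul_le_mul_of_nonneg_left hb' hJ0.le
    linarith
  obtain ⟨j, hj, hφ⟩ := Finset.exists_le_of_sum_le (f := φ) (g := fun _ => (18 * b : ℝ))
    (Finset.nonempty_Ico.2 (by omega)) (hsum.trans_eq (by
      rw [Finset.sum_const, Nat.card_Ico, show 2 * J - J = J by omega, nsmul_eq_mul]))
  obtain ⟨hj1, hj2⟩ := Finset.mem_Ico.1 hj
  have hFn : 0 ≤ F j * J := mul_nonneg ENNReal.toReal_nonneg hJ0.le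
  have hdn : 0 ≤ (f (j + 1) - f (j - 2 * b)) / (C + 1) :=
    div_nonneg (sub_nonneg.2 (hf (by omega))) (by linarith)
  refine ⟨j, hj1, hj2, (le_div_iff₀ hJ0).2 (by linarith), ?_⟩
  exact (div_le_iff₀ (by linarith : (0 : ℝ) < C + 1)).1 (show (f (j + 1) - f (j - 2 * b)) / (C + 1) ≤ 18 * b by linarith)

lemma scale_arith {C σ : ℝ} (hC0 : 0 ≤ C) (hσ : 0 < σ) (hσ1 : σ ≤ 1) {b : ℕ} (hb : 2 ≤ b) (g : ℕ)
    {N n E F ε₁ ε₂ : ℝ} (hNpos : 0 < N) (hn1 : 1 ≤ n) (hnN : n = N * (1 / 2) ^ b) (hE0 : 0 ≤ E)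
    (hEb : E ≤ C * (6 * (b : ℝ) ^ 8)) (hFb : F ≤ 18 * b / (b : ℝ) ^ 8)
    (he1 : ε₁ = 1 / (b : ℝ) ^ 2) (he2 : ε₂ = 1 / (b : ℝ) ^ 16) :
    2 * σ * (n * E) / (g + 1) + N * (6 * ε₁ * (2 * σ * (18 * b * (C + 1)) +
        2 * (C * (4 * (1 / 2) ^ b / σ * (4 * (b : ℝ) ^ 8) + 1) + 4 * (1 / 2) ^ b / σ) + 6) +
      F / (ε₁ * ε₁) + 4 * (1 / 2) ^ b + 6 * ε₂ * (C * (6 * (b : ℝ) ^ 8) + 2)) +
      (n + 5) / (ε₂ * ε₂) ≤
    N * (300 * (C + 1) / b + 300 * (C + 1) / σ * ((b : ℝ) ^ 32 * (1 / 2) ^ b)) := by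
  have hbR : (2 : ℝ) ≤ b := by exact_mod_cast hb
  have hb0 : (0 : ℝ) < b := by linarith
  have hnpos : 0 < n := by linarith
  have hε₁ : 0 < ε₁ := by rw [he1]; positivity
  have hε₂ : 0 < ε₂ := by rw [he2]; positivity
  set X : ℝ := (b : ℝ) ^ 32 * (1 / 2) ^ b with hX
  have hX0 : 0 ≤ X := by positivity
  have hp : 0 ≤ (1 / 2 : ℝ) ^ b := by positivity
  have hb1 : (1 : ℝ) ≤ b := by linarith
  have hpow : ∀ m ≤ 32, (b : ℝ) ^ m * (1 / 2) ^ b ≤ X := fun m hm =>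
    mul_le_mul_of_nonneg_right (pow_le_pow_right₀ hb1 hm) hp
  have hinv : ∀ m ≥ 1, 1 / (b : ℝ) ^ m ≤ 1 / b := fun m hm =>
    one_div_le_one_div_of_le hb0 (le_self_pow₀ hb1 (by omega))
  set Y : ℝ := 1 / b
  have hY0 : 0 ≤ Y := by positivity
  have hC1 : 0 ≤ C + 1 := by linarith
  have t0 : 2 * σ * (n * E) / (g + 1) ≤ (N : ℝ) * (12 * C * X / σ) := by
    have hnE : 0 ≤ n * E := mul_nonneg hnpos.le hE0
    calc 2 * σ * (n * E) / (g + 1) ≤ 2 * σ * (n * E) :=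
          div_le_self (by positivity) (by linarith [Nat.cast_nonneg (α := ℝ) g])
      _ ≤ 2 * 1 * (n * (C * (6 * (b : ℝ) ^ 8))) := by gcongr
      _ = N * (12 * C * ((b : ℝ) ^ 8 * (1 / 2) ^ b)) := by subst hnN; ring
      _ ≤ N * (12 * C * X / σ) := by
          refine mul_le_mul_of_nonneg_left ?_ hNpos.le
          refine le_trans ?_ (le_div_self (by positivity) hσ hσ1)
          exact mul_le_mul_of_nonneg_left (hpow 8 (by norm_num)) (by positivity)
  have t1 : 6 * ε₁ * (2 * σ * (18 * b * (C + 1)) +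
        2 * (C * (4 * (1 / 2) ^ b / σ * (4 * (b : ℝ) ^ 8) + 1) + 4 * (1 / 2) ^ b / σ) + 6) ≤ 300 * (C + 1) * Y * (9 / 10) + 250 * (C + 1) / σ * X := by
    have e1 : ε₁ * (b : ℝ) = Y := by simp only [he1, Y]; field_simp
    have e2 : ε₁ ≤ Y := he1.trans_le (hinv 2 (by norm_num))
    have e3 : ε₁ * (4 * (1 / 2) ^ b / σ * (4 * (b : ℝ) ^ 8)) ≤ 16 * X / σ := by
      have : ε₁ * (4 * (1 / 2) ^ b / σ * (4 * (b : ℝ) ^ 8)) = 16 * ((b : ℝ) ^ 6 * (1 / 2) ^ b) / σ := by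
        rw [he1]; field_simp; ring
      rw [this]
      gcongr
      exact hpow 6 (by norm_num)
    have e4 : ε₁ * (4 * (1 / 2) ^ b / σ) ≤ 4 * X / σ := by
      calc ε₁ * (4 * (1 / 2) ^ b / σ) ≤ 1 * (4 * (1 / 2) ^ b / σ) :=
            mul_le_mul_of_nonneg_right (e2.trans (by rw [div_le_one hb0]; exact hb1)) (by positivity)
        _ ≤ 4 * X / σ := by
            rw [one_mul]; gcongr
            simpa using hpow 0 (Nat.zero_le _)
    have a1 : ε₁ * (2 * σ * (18 * b * (C + 1))) ≤ 36 * (C + 1) * Y := by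
      calc ε₁ * (2 * σ * (18 * b * (C + 1))) = 36 * (C + 1) * σ * (ε₁ * b) := by ring
        _ = 36 * (C + 1) * Y * σ := by rw [e1]; ring
        _ ≤ _ := mul_le_of_le_one_right (by positivity) hσ1
    have a2 : C * (ε₁ * (4 * (1 / 2) ^ b / σ * (4 * (b : ℝ) ^ 8))) ≤ C * (16 * X / σ) := mul_le_mul_of_nonneg_left e3 hC0
    have a3 : C * ε₁ ≤ C * Y := mul_le_mul_of_nonneg_left e2 hC0
    calc 6 * ε₁ * (2 * σ * (18 * b * (C + 1)) +
        2 * (C * (4 * (1 / 2) ^ b / σ * (4 * (b : ℝ) ^ 8) + 1) + 4 * (1 / 2) ^ b / σ) + 6) = 6 * (ε₁ * (2 * σ * (18 * b * (C + 1)))) +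
          12 * (C * (ε₁ * (4 * (1 / 2) ^ b / σ * (4 * (b : ℝ) ^ 8)))) + 12 * (C * ε₁) + 12 * (ε₁ * (4 * (1 / 2) ^ b / σ)) + 36 * ε₁ := by
            ring
      _ ≤ 6 * (36 * (C + 1) * Y) + 12 * (C * (16 * X / σ)) + 12 * (C * Y) + 12 * (4 * X / σ) + 36 * Y := by
          linarith
      _ = (228 * C + 252) * Y + (192 * C + 48) / σ * X := by ring
      _ ≤ _ := by
          refine add_le_add ?_ ?_
          · linarith [mul_le_mul_of_nonneg_right (by linarith : 228 * C + 252 ≤ 270 * (C + 1)) hY0]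
          · gcongr; linarith
  have t2 : F / (ε₁ * ε₁) ≤ 18 * Y := by
    calc F / (ε₁ * ε₁) ≤ (18 * b / (b : ℝ) ^ 8) / (ε₁ * ε₁) := by gcongr
      _ = 18 * (1 / (b : ℝ) ^ 3) := by simp only [he1]; field_simp
      _ ≤ 18 * Y := mul_le_mul_of_nonneg_left (hinv 3 (by norm_num)) (by norm_num)
  have t3 : 6 * ε₂ * (C * (6 * (b : ℝ) ^ 8) + 2) ≤ 12 * (C + 1) * Y := by
    have a1 : ε₂ * (b : ℝ) ^ 8 ≤ Y / 4 := by
      have : ε₂ * (b : ℝ) ^ 8 = 1 / (b : ℝ) ^ 8 := by simp only [he2]; field_simp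
      rw [this]
      calc 1 / (b : ℝ) ^ 8 ≤ 1 / (4 * b) := by
            apply one_div_le_one_div_of_le (by positivity)
            calc 4 * (b : ℝ) ≤ (b : ℝ) ^ 2 * b := by nlinarith
              _ = (b : ℝ) ^ 3 := by ring
              _ ≤ _ := pow_le_pow_right₀ hb1 (by norm_num)
        _ = Y / 4 := by simp only [Y]; field_simp
    have a2 : ε₂ ≤ Y := he2.trans_le (hinv 16 (by norm_num))
    have a3 : C * (ε₂ * (b : ℝ) ^ 8) ≤ C * (Y / 4) := mul_le_mul_of_nonneg_left a1 hC0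
    calc 6 * ε₂ * (C * (6 * (b : ℝ) ^ 8) + 2) = 36 * (C * (ε₂ * (b : ℝ) ^ 8)) + 12 * ε₂ := by ring
      _ ≤ 36 * (C * (Y / 4)) + 12 * Y := by linarith
      _ ≤ _ := by linarith [mul_nonneg hC0 hY0]
  have hXσ : X ≤ X / σ := le_div_self hX0 hσ hσ1
  have t4 : 4 * (1 / 2 : ℝ) ^ b ≤ 4 * (X / σ) := by
    have := hpow 0 (Nat.zero_le _)
    simp only [pow_zero, one_mul] at this
    linarith
  have t5 : (n + 5) / (ε₂ * ε₂) ≤ N * (6 * (X / σ)) := by
    have h5 : n + 5 ≤ 6 * n := by linarith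
    calc (n + 5) / (ε₂ * ε₂) ≤ 6 * n / (ε₂ * ε₂) := by gcongr
      _ = N * (6 * X) := by simp only [he2, X]; subst hnN; field_simp
      _ ≤ _ := by gcongr
  have hmain := mul_le_mul_of_nonneg_left (add_le_add (add_le_add (add_le_add t1 t2) t4) t3) hNpos.le
  have hY : 300 * (C + 1) / (b : ℝ) = 300 * (C + 1) * Y := by simp only [Y]; ring
  rw [hY]
  set Q := X / σ with hQ
  have e1 : (12 * C * X / σ) = 12 * C * Q := by rw [hQ]; ring
  have e2 : 250 * (C + 1) / σ * X = 250 * (C + 1) * Q := by rw [hQ]; ring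
  have e3 : 300 * (C + 1) / σ * X = 300 * (C + 1) * Q := by rw [hQ]; ring
  rw [e1] at t0
  rw [e2] at hmain
  rw [e3]
  have hQ0 : 0 ≤ Q := by positivity
  have h1 : 0 ≤ N * (C * Q) := by positivity
  have h2 : 0 ≤ N * Q := by positivity
  have h3 : 0 ≤ N * (C * Y) := by positivity
  have h4 : 0 ≤ N * Y := by positivity
  linarith

/-- The facing hypothesis at scale `N`. -/
def FaceSmall (N : ℕ) (δ : ℝ) : Prop :=
  ∀ x, (N : ℝ) ≤ G.lev x → (ann μ).prod (ann μ) (G.Face (G.tip x)) ≤ ENNReal.ofReal δ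

/-- At a good scale the average meeting probability is small. -/
lemma sum_meet_le (h : G.ManyReg μ) (hs : 0 < G.sReg μ) {C : ℝ} (hC0 : 0 ≤ C) (hC : G.EntBound μ C)
    {b g j : ℕ} (hb : 2 ≤ b) (hj : b ^ 8 ≤ j) (hj' : j < 2 * b ^ 8)
    (hF : (ann μ (G.BandEv (2 ^ (j - b)) ((2 : ℝ) ^ (j + b) + 4))).toReal ≤ 18 * b / (b ^ 8 : ℕ))
    (hd : G.eR μ (2 ^ (j + 1)) - G.eR μ (2 ^ (j - 2 * b)) ≤ 18 * b * (C + 1))
    {θ δ : ℝ} (hθ : 0 < θ) (hδ : 0 ≤ δ) (hface : G.FaceSmall μ (2 ^ j) δ) :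
    ∑ K ∈ Finset.Ico (2 ^ j) (2 ^ (j + 1)), (ann μ).prod (ann μ) (G.Meet K) ≤
      ENNReal.ofReal ((2 : ℝ) ^ j * (6 / (g + 1) + θ + 3 ^ g / θ * δ +
        (300 * (C + 1)) / b + (300 * (C + 1) / (G.sReg μ).toReal) * ((b : ℝ) ^ 32 * (1 / 2) ^ b))) := by
  set σ := (G.sReg μ).toReal
  have hσ : 0 < σ := G.sReg_toReal_pos μ hs
  have hσ1 : σ ≤ 1 := G.sReg_toReal_le_one μ
  have hb8 : b ≤ b ^ 8 := Nat.le_self_pow (by norm_num) b
  have h2b : 2 * b ≤ b ^ 8 := by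
    calc 2 * b ≤ b * b := Nat.mul_le_mul_right b hb
      _ = b ^ 2 := (sq b).symm
      _ ≤ b ^ 8 := Nat.pow_le_pow_right (by omega) (by norm_num)
  set N := 2 ^ j with hN
  set n := 2 ^ (j - b) with hn
  set r := 2 ^ (j - 2 * b) with hr
  set U := 2 ^ (j + b) with hU
  set ε₁ : ℝ := 1 / (b : ℝ) ^ 2 with he1
  set ε₂ : ℝ := 1 / (b : ℝ) ^ 16 with he2
  have hbR : (2 : ℝ) ≤ b := by exact_mod_cast hb
  have hb0 : (0 : ℝ) < b := by linarith
  set X : ℝ := (b : ℝ) ^ 32 * (1 / 2) ^ b with hX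
  have hnN : (n : ℝ) = N * (1 / 2) ^ b := by
    rw [hn, hN, Nat.cast_pow, Nat.cast_pow, Nat.cast_ofNat,
      show j = (j - b) + b by omega, pow_add, div_pow, one_pow]
    simp
  have hrn : (r : ℝ) = n * (1 / 2) ^ b := by
    rw [hr, hn, Nat.cast_pow, Nat.cast_pow, Nat.cast_ofNat,
      show j - b = (j - 2 * b) + b by omega, pow_add, div_pow, one_pow]
    simp
  have hNpos : (0 : ℝ) < N := by rw [hN]; positivity
  have hnpos : (0 : ℝ) < n := by rw [hn]; positivity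
  have hn2 : 2 ≤ n := le_trans (by norm_num) (Nat.pow_le_pow_right (by norm_num) (by omega : 1 ≤ j - b))
  have hnK : 2 * n ≤ N := by
    rw [hn, hN, ← pow_succ']
    exact Nat.pow_le_pow_right (by norm_num) (by omega)
  have hrK : r ≤ N := Nat.pow_le_pow_right (by norm_num) (by omega)
  have hN2 : 2 ^ (j + 1) = 2 * N := by rw [hN, pow_succ']
  have hmono := G.eR_mono μ h hs hC
  set E := G.eR μ (2 ^ (j + 1)) with hE
  have hj2R : (j : ℝ) + 4 ≤ 6 * (b : ℝ) ^ 8 := by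
    have : j + 4 ≤ 6 * b ^ 8 := by omega
    exact_mod_cast this
  have hEb : E ≤ C * (6 * (b : ℝ) ^ 8) := by
    refine (G.eR_two_pow_le μ h hs hC0 hC (j + 1)).trans (mul_le_mul_of_nonneg_left ?_ hC0)
    push_cast; linarith
  set F := (ann μ (G.BandEv n ((U : ℝ) + 4))).toReal
  have hFb : F ≤ 18 * b / (b : ℝ) ^ 8 := by
    have : (U : ℝ) = (2 : ℝ) ^ (j + b) := by rw [hU]; push_cast; rfl
    simp only [F, this]
    exact hF.trans_eq (by push_cast; rfl)
  have hlogr : 1 + Real.log ((r : ℝ) + 1) ≤ 4 * (b : ℝ) ^ 8 := by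
    have h1 : Real.log ((r : ℝ) + 1) ≤ Real.log ((2 : ℝ) ^ (j + 1)) := by
      refine Real.log_le_log (by positivity) ?_
      have : (r : ℝ) ≤ N := by exact_mod_cast hrK
      have hN' : (N : ℝ) = (2 : ℝ) ^ j := by rw [hN]; push_cast; rfl
      rw [pow_succ]
      linarith [one_le_pow₀ (M₀ := ℝ) (show (1 : ℝ) ≤ 2 by norm_num) (n := j)]
    rw [Real.log_pow] at h1
    have h2 : Real.log 2 ≤ 1 := by linarith [Real.log_two_lt_d9]
    have h3 : ((j + 1 : ℕ) : ℝ) * Real.log 2 ≤ ((j + 1 : ℕ) : ℝ) := mul_le_of_le_one_right (by positivity) h2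
    have h4 : (j : ℝ) + 1 ≤ 2 * (b : ℝ) ^ 8 := by exact_mod_cast (by omega : j + 1 ≤ 2 * b ^ 8)
    push_cast at h1 h3
    linarith [one_le_pow₀ (M₀ := ℝ) (show (1 : ℝ) ≤ b by linarith) (n := 8)]
  set q : ℝ := 4 * r / (σ * n)
  have hq : q = 4 * (1 / 2) ^ b / σ := by
    simp only [q]; rw [hrn]; field_simp
  set M : ℝ := 2 * σ * (18 * b * (C + 1)) + 2 * (C * (q * (4 * (b : ℝ) ^ 8) + 1) + q) + 6
  set Z : ℕ → ℝ := fun K =>
    (2 * σ * (G.eR μ K - G.eR μ (K - n)) + 6) / (g + 1) + θ + 3 ^ g / θ * δ +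
      6 * ε₁ * M + F / (ε₁ * ε₁) + 4 * (1 / 2) ^ b + 6 * ε₂ * (C * (6 * (b : ℝ) ^ 8) + 2)
  have hε₁ : 0 < ε₁ := by positivity
  have hε₂ : 0 < ε₂ := by positivity
  have hq0 : 0 ≤ q := by positivity
  have hperK : ∀ K ∈ Finset.Ico N (2 ^ (j + 1)), (ann μ).prod (ann μ) (G.Meet K) ≤
      ENNReal.ofReal (Z K) + G.loss μ K n (ENNReal.ofReal ε₂) := by
    intro K hK
    obtain ⟨hK1, hK2⟩ := Finset.mem_Ico.1 hK
    refine (G.meet_le μ h hs hC0 hC (U := U) (g := g) (le_trans hnK hK1) (le_trans hrK hK1) hn2 hθ hδ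
      hε₁ hε₂ (F := F) ENNReal.toReal_nonneg (le_of_eq (ENNReal.ofReal_toReal (measure_ne_top _ _)).symm)
      (fun x hx => hface x (le_trans (by exact_mod_cast hK1) hx)) (by positivity)).trans
      (add_le_add (ENNReal.ofReal_le_ofReal ?_) le_rfl)
    have hKE : G.eR μ K ≤ E := hmono hK2.le
    have hmid : 2 * σ * (G.eR μ K - G.eR μ r) +
        2 * (C * (q * (1 + Real.log ((r : ℝ) + 1)) + 1) + q) + 6 ≤ M := by
      have h1 : 2 * σ * (G.eR μ K - G.eR μ r) ≤ 2 * σ * (18 * b * (C + 1)) :=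
        mul_le_mul_of_nonneg_left (by linarith) (by positivity)
      have h2 : C * (q * (1 + Real.log ((r : ℝ) + 1))) ≤ C * (q * (4 * (b : ℝ) ^ 8)) :=
        mul_le_mul_of_nonneg_left (mul_le_mul_of_nonneg_left hlogr hq0) hC0
      simp only [M]
      linarith
    have hhigh : 2 * (K : ℝ) / U ≤ 4 * (1 / 2) ^ b := by
      have h1 : (K : ℝ) ≤ 2 * N := by exact_mod_cast (by omega : K ≤ 2 * N)
      have h2 : (U : ℝ) = N * 2 ^ b := by rw [hU, hN]; push_cast; rw [pow_add]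
      rw [h2, div_le_iff₀ (by positivity), div_pow, one_pow]
      have h3 : 4 * (1 / (2 : ℝ) ^ b) * ((N : ℝ) * 2 ^ b) = 4 * N := by field_simp
      linarith
    have hmul := mul_le_mul_of_nonneg_left hmid (by positivity : (0 : ℝ) ≤ 6 * ε₁)
    have htop : 6 * ε₂ * (G.eR μ K + 2) ≤ 6 * ε₂ * (C * (6 * (b : ℝ) ^ 8) + 2) :=
      mul_le_mul_of_nonneg_left (by linarith) (by positivity)
    simp only [Z]
    linarith
  have hsumE : ∑ K ∈ Finset.Ico N (2 ^ (j + 1)), (G.eR μ K - G.eR μ (K - n)) ≤ n * E := by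
    rw [hN2, Finset.sum_sub_distrib]
    have e2 : ∑ K ∈ Finset.Ico N (2 * N), G.eR μ (K - n) =
        ∑ i ∈ Finset.Ico (N - n) (2 * N - n), G.eR μ i := by
      have h' := Finset.sum_Ico_add' (fun i => G.eR μ (i - n)) (N - n) (2 * N - n) n
      simp only [Nat.add_sub_cancel, Nat.sub_add_cancel (by omega : n ≤ N),
        Nat.sub_add_cancel (by omega : n ≤ 2 * N)] at h'
      exact h'.symm
    have e3 : ∑ i ∈ Finset.Ico N (2 * N), G.eR μ i ≤ ∑ i ∈ Finset.Ico (N - n) (2 * N), G.eR μ i :=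
      Finset.sum_le_sum_of_subset_of_nonneg (Finset.Ico_subset_Ico (Nat.sub_le _ _) le_rfl)
        fun i _ _ => G.eR_nonneg μ _
    have e4 : ∑ i ∈ Finset.Ico (2 * N - n) (2 * N), G.eR μ i ≤ n * E := by
      refine (Finset.sum_le_card_nsmul _ _ E fun i hi => hmono ?_).trans_eq ?_
      · rw [hN2]; exact (Finset.mem_Ico.1 hi).2.le
      · rw [Nat.card_Ico, nsmul_eq_mul, show 2 * N - (2 * N - n) = n by omega]
    rw [e2]
    linarith [Finset.sum_Ico_consecutive (G.eR μ) (show N - n ≤ 2 * N - n by omega)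
      (show 2 * N - n ≤ 2 * N by omega)]
  have hcard : (Finset.Ico N (2 ^ (j + 1))).card = N := by rw [Nat.card_Ico, hN2]; omega
  have hZsum : ∑ K ∈ Finset.Ico N (2 ^ (j + 1)), Z K ≤
      2 * σ * (n * E) / (g + 1) + N * (6 / (g + 1) + θ + 3 ^ g / θ * δ + 6 * ε₁ * M + F / (ε₁ * ε₁) +
        4 * (1 / 2) ^ b + 6 * ε₂ * (C * (6 * (b : ℝ) ^ 8) + 2)) := by
    simp only [Z, Finset.sum_add_distrib, ← Finset.sum_div, ← Finset.mul_sum, Finset.sum_const, hcard,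
      nsmul_eq_mul]
    have : 2 * σ * (∑ K ∈ Finset.Ico N (2 ^ (j + 1)), (G.eR μ K - G.eR μ (K - n))) / (g + 1) ≤
        2 * σ * (n * E) / (g + 1) := by
      gcongr
    rw [add_div]
    linear_combination this
  have hZ0 : ∀ K ∈ Finset.Ico N (2 ^ (j + 1)), 0 ≤ Z K := fun K _ => by
    have := sub_nonneg.2 (hmono (Nat.sub_le K n))
    simp only [Z]
    positivity
  have hloss : ((n + 5 : ℕ) : ℝ≥0∞) / (ENNReal.ofReal ε₂ * ENNReal.ofReal ε₂) =
      ENNReal.ofReal (((n : ℝ) + 5) / (ε₂ * ε₂)) := by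
    rw [← ENNReal.ofReal_mul hε₂.le, ← ENNReal.ofReal_natCast,
      ← ENNReal.ofReal_div_of_pos (mul_pos hε₂ hε₂)]
    push_cast; rfl
  refine (Finset.sum_le_sum hperK).trans ?_
  rw [Finset.sum_add_distrib, ← ENNReal.ofReal_sum_of_nonneg hZ0]
  refine (add_le_add le_rfl ((G.sum_loss_le μ _ n (by simpa using hε₂) ENNReal.ofReal_ne_top).trans_eq
    hloss)).trans ?_
  rw [← ENNReal.ofReal_add (Finset.sum_nonneg hZ0) (by positivity)]
  refine ENNReal.ofReal_le_ofReal ?_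
  have hfin := scale_arith hC0 hσ hσ1 hb g hNpos (by exact_mod_cast (by omega : 1 ≤ n)) hnN
    (G.eR_nonneg μ (2 ^ (j + 1))) hEb hFb he1 he2
  rw [← hq] at hfin
  have hN' : (N : ℝ) = (2 : ℝ) ^ j := by rw [hN]; push_cast; rfl
  rw [← hN']
  simp only [M] at hZsum
  linarith

/-- The meeting probability cannot stay positive, so escape in both directions is impossible. -/
theorem not_both (h : G.ManyReg μ) (hs : 0 < G.sReg μ) (hs' : 0 < G.neg.sReg μ)
    {C : ℝ} (hC0 : 0 ≤ C) (hC : G.EntBound μ C)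
    (hface : ∀ δ : ℝ, 0 < δ → ∃ N₀ : ℕ, ∀ N ≥ N₀, G.FaceSmall μ N δ) : False := by
  set L := G.sReg μ * ann μ G.Back
  have hL : 0 < L := ENNReal.mul_pos hs.ne' (G.ann_back_pos μ hs').ne'
  have hLt : L ≠ ∞ := ENNReal.mul_ne_top (measure_ne_top _ _) (measure_ne_top _ _)
  set η := L.toReal / 2
  have hη : 0 < η := half_pos (ENNReal.toReal_pos hL.ne' hLt)
  have hlt : ENNReal.ofReal η < L := by
    have hpos := ENNReal.toReal_pos hL.ne' hLt
    exact (ENNReal.ofReal_lt_iff_lt_toReal hη.le hLt).2 (half_lt_self hpos)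
  obtain ⟨K₀, hK₀⟩ := eventually_atTop.1 ((G.tendsto_meet μ h).eventually (lt_mem_nhds hlt))
  obtain ⟨g, hg⟩ := exists_nat_ge (24 / η)
  have hg' : 6 / ((g : ℝ) + 1) ≤ η / 4 := by
    rw [div_le_iff₀ (by positivity)]
    rw [div_le_iff₀ hη] at hg
    linarith
  set θ := η / 4
  set δ := η / 4 * θ / 3 ^ g
  obtain ⟨N₀, hN₀⟩ := hface δ (by positivity)
  have hlim : Tendsto (fun b : ℕ => (300 * (C + 1)) / (b : ℝ) +
      (300 * (C + 1) / (G.sReg μ).toReal) * ((b : ℝ) ^ 32 * (1 / 2) ^ b)) atTop (𝓝 0) := by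
    have h1 := tendsto_const_div_atTop_nhds_zero_nat (300 * (C + 1))
    have h2 := (tendsto_pow_const_mul_const_pow_of_lt_one 32 (by norm_num : (0 : ℝ) ≤ 1 / 2)
      (by norm_num)).const_mul (300 * (C + 1) / (G.sReg μ).toReal)
    simpa using h1.add h2
  obtain ⟨b, hb1, hb2⟩ := ((hlim.eventually (ge_mem_nhds (show (0 : ℝ) < η / 4 by positivity))).and
    (eventually_ge_atTop (N₀ + K₀ + 3))).exists
  set J := b ^ 8
  have hbJ : 2 * b + 2 ≤ J := by
    calc 2 * b + 2 ≤ b * b := by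
          have : 3 * b ≤ b * b := Nat.mul_le_mul_right b (by omega)
          omega
      _ = b ^ 2 := (sq b).symm
      _ ≤ J := Nat.pow_le_pow_right (by omega) (by norm_num)
  obtain ⟨j, hj1, hj2, hF, hd⟩ := G.exists_scale μ h hs hC0 hC (b := b) (J := J) (by omega) hbJ
  have hjN : N₀ + K₀ ≤ 2 ^ j := le_trans (by omega) (Nat.lt_two_pow_self (n := j)).le
  have hsum := G.sum_meet_le μ h hs hC0 hC (g := g) (θ := θ) (δ := δ) (by omega : 2 ≤ b) hj1 hj2 hF hd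
    (by positivity) (by positivity) (hN₀ _ (by omega))
  have hbound : ENNReal.ofReal ((2 : ℝ) ^ j * (6 / (g + 1) + θ + 3 ^ g / θ * δ +
      (300 * (C + 1)) / b + (300 * (C + 1) / (G.sReg μ).toReal) * ((b : ℝ) ^ 32 * (1 / 2) ^ b))) ≤
      ENNReal.ofReal η * (2 ^ j : ℕ) := by
    rw [← ENNReal.ofReal_natCast, ← ENNReal.ofReal_mul hη.le, Nat.cast_pow, Nat.cast_ofNat, mul_comm η]
    refine ENNReal.ofReal_le_ofReal (mul_le_mul_of_nonneg_left ?_ (by positivity))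
    have e : 3 ^ g / θ * δ = η / 4 := by
      simp only [δ, θ]; field_simp
    rw [e]
    linarith [show θ = η / 4 from rfl]
  have hne : (Finset.Ico (2 ^ j) (2 ^ (j + 1))).Nonempty :=
    Finset.nonempty_Ico.2 (Nat.pow_lt_pow_right (by norm_num) (Nat.lt_succ_self j))
  have hstrict : ∑ _K ∈ Finset.Ico (2 ^ j) (2 ^ (j + 1)), ENNReal.ofReal η <
      ∑ K ∈ Finset.Ico (2 ^ j) (2 ^ (j + 1)), (ann μ).prod (ann μ) (G.Meet K) := by
    refine ENNReal.sum_lt_sum_of_nonempty hne fun K hK => hK₀ K ?_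
    have := (Finset.mem_Ico.1 hK).1
    omega
  rw [Finset.sum_const, Nat.card_Ico, show 2 ^ (j + 1) - 2 ^ j = 2 ^ j by rw [pow_succ]; omega,
    nsmul_eq_mul, mul_comm] at hstrict
  exact absurd (hsum.trans hbound) (not_le.2 hstrict)

end Vale.Agent.P147.Geo
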