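import Vale.Agent.P147.ZeroOne
import Vale.Agent.P147.Facing
import Vale.Agent.P147.EntTail
import Vale.Agent.P147.Scales

/-!
# P147: the zero-one law from the tail bound for one slab
-/

open MeasureTheory Filter
open scoped ENNReal

namespace Vale.Agent.P147

open Cyl

variable {d : ℕ} [NeZero d]

omit [NeZero d] in
lemma vec_injective : Function.Injective (vec : Dir d → Site d) := by
  rintro ⟨i, a⟩ ⟨j, b⟩ h
  have hi := congrFun h i
  by_cases hij : i = j
  · subst hij
    cases a <;> cases b <;> simp_all [vec]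
  · cases a <;> simp [vec, hij] at hi

omit [NeZero d] in
lemma mem_cyl_iff_pos {n : ℕ} {ξ e : Steps d} :
    ξ ∈ cyl n e ↔ ∀ k ≤ n, pos ξ k = pos e k := by
  refine ⟨fun h k hk => pos_cyl hk h, fun h i hi => vec_injective ?_⟩
  have h1 := h (i + 1) hi
  rw [pos_succ, pos_succ, h i hi.le] at h1
  exact add_left_cancel h1

variable (μ : Measure (Dir d → ℝ)) [Law μ]

omit [NeZero d] [Law μ] in
lemma measurable_posPath : Measurable fun (ξ : Steps d) n => pos ξ n :=
  measurable_pi_lambda _ fun _ => Finset.measurable_sum _ fun i _ =>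
    (measurable_of_countable (vec (d := d))).fun_comp (measurable_pi_apply i)

/-- The annealed probability of a finite path is the mean of its product of transition probabilities. -/
theorem annealed_path (n : ℕ) (e : ℕ → Dir d) :
    annealed μ {X | ∀ k ≤ n, X k = ∑ i ∈ Finset.range k, vec (e i)} =
      ∫⁻ ω, ∏ i ∈ Finset.range n,
        ENNReal.ofReal (ω (∑ j ∈ Finset.range i, vec (e j)) (e i)) ∂envLaw μ := by
  have hm : MeasurableSet {X : ℕ → Site d | ∀ k ≤ n, X k = pos e k} := by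
    have : {X : ℕ → Site d | ∀ k ≤ n, X k = pos e k} =
        ⋂ k, ⋂ (_ : k ≤ n), (fun X : ℕ → Site d => X k) ⁻¹' {pos e k} := by ext X; simp
    rw [this]
    exact .iInter fun k => .iInter fun _ => measurable_pi_apply k (measurableSet_singleton _)
  have hset : (fun (ξ : Steps d) k => pos ξ k) ⁻¹' {X | ∀ k ≤ n, X k = pos e k} = cyl n e := by
    ext ξ; simp [mem_cyl_iff_pos]
  change annealed μ {X | ∀ k ≤ n, X k = pos e k} = _
  rw [annealed_eq, Measure.map_apply measurable_posPath hm, hset, ann_cyl μ 0 n e]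
  refine lintegral_congr fun ω => ?_
  simp [wt, pos]

namespace Geo

variable (G : Geo d)

lemma faceSmall (hs : 0 < G.sReg μ) (hs' : 0 < G.neg.sReg μ) {δ : ℝ} (hδ : 0 < δ) :
    ∃ N₀ : ℕ, ∀ N ≥ N₀, G.FaceSmall μ N δ := by
  obtain ⟨R, hR⟩ := G.facing_small μ (G.unbounded_subset_esc μ hs) (G.neg.unbounded_subset_esc μ hs')
    (δ := ENNReal.ofReal δ) (ENNReal.ofReal_pos.2 hδ)
  refine ⟨⌈R⌉₊, fun N hN x hx => le_trans (measure_mono ?_) (hR (G.tip x) ?_)⟩
  · rintro z ⟨h1, h2, h3⟩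
    exact ⟨G.S_subset_Esc h1, G.back_subset_esc h2, h3⟩
  · have h1 : R ≤ (N : ℝ) := le_trans (Nat.le_ceil R) (by exact_mod_cast hN)
    linarith [G.le_lev_tip x]

/-- The zero-one law for a normalised direction, given the tail bound. -/
theorem esc_zero_one
    (htail : 0 < G.sReg μ → G.ManyReg μ → ∃ C : ℝ, 0 ≤ C ∧ G.TailBound μ C) :
    ann μ G.Esc = 0 ∨ ann μ G.Esc = 1 := by
  by_cases h0 : ann μ G.Esc = 0
  · exact Or.inl h0
  right
  have hs : 0 < G.sReg μ := G.sReg_pos μ (pos_iff_ne_zero.2 h0)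
  have hmany : G.ManyReg μ := fun N => G.esc_ae_exists_reg μ hs N
  have hneg : ann μ G.neg.Esc = 0 := by
    by_contra h1
    have hs' : 0 < G.neg.sReg μ := G.neg.sReg_pos μ (pos_iff_ne_zero.2 h1)
    obtain ⟨C, hC0, hC⟩ := htail hs hmany
    obtain ⟨C', hC'0, hC'⟩ := G.entBound_of_tail μ hmany hs hC0 hC
    exact G.not_both μ hmany hs hs' hC'0 hC' fun δ hδ => G.faceSmall μ hs hs' hδ
  rw [← prob_compl_eq_zero_iff G.measurableSet_Esc]
  refine measure_mono_null (t := (G.Esc ∪ G.neg.Esc)ᶜ ∪ G.neg.Esc) (fun ξ hξ => ?_)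
    (measure_union_null (G.esc_or_neg_esc μ hs) hneg)
  by_cases h : ξ ∈ G.neg.Esc
  · exact Or.inr h
  · exact Or.inl fun h' => h'.elim hξ h

end Geo

/-- The zero-one law, given the tail bound for every normalised direction. -/
theorem annealed_escape_zero_one (hd : 2 ≤ d)
    (htail : ∀ G : Geo d, 0 < G.sReg μ → G.ManyReg μ → ∃ C : ℝ, 0 ≤ C ∧ G.TailBound μ C)
    {ℓ : Fin d → ℝ} (hℓ : ℓ ≠ 0) :
    annealed μ (Escape ℓ) = 0 ∨ annealed μ (Escape ℓ) = 1 := by
  obtain ⟨G, c, hc, hG⟩ := exists_geo hd ℓ hℓ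
  have hlev : ∀ x, G.lev x = c * ∑ i, ℓ i * (x i : ℝ) := by
    intro x
    simp only [Geo.lev, hG, Finset.mul_sum, mul_assoc]
  have hset : (fun (ξ : Steps d) k => pos ξ k) ⁻¹' Escape ℓ = G.Esc := by
    ext ξ
    have : G.lv ξ = fun n => c * ∑ i, ℓ i * (pos ξ n i : ℝ) := funext fun n => hlev _
    simp only [Set.mem_preimage, Escape, Geo.Esc, Set.mem_ofPred_eq, this]
    exact (tendsto_const_mul_atTop_of_pos hc).symm
  have hm : MeasurableSet (Escape ℓ : Set (ℕ → Site d)) := by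
    have : (Escape ℓ : Set (ℕ → Site d)) = ⋂ M : ℕ, ⋃ N : ℕ, ⋂ n, ⋂ (_ : N ≤ n),
        {X | (M : ℝ) ≤ ∑ i, ℓ i * (X n i : ℝ)} := by
      ext X
      simp only [Escape, Set.mem_ofPred_eq, Set.mem_iInter, Set.mem_iUnion]
      refine ⟨fun h M => eventually_atTop.1 (tendsto_atTop.1 h M), fun h => tendsto_atTop.2 fun b => ?_⟩
      obtain ⟨M, hM⟩ := exists_nat_ge b
      obtain ⟨N, hN⟩ := h M
      exact eventually_atTop.2 ⟨N, fun n hn => hM.trans (hN n hn)⟩
    rw [this]
    refine .iInter fun M => .iUnion fun N => .iInter fun n => .iInter fun _ => ?_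
    exact measurableSet_le measurable_const ((measurable_of_countable
      fun x : Site d => ∑ i, ℓ i * (x i : ℝ)).fun_comp (measurable_pi_apply n))
  rw [annealed_eq, Measure.map_apply measurable_posPath hm, hset]
  exact G.esc_zero_one μ (htail G)

end Vale.Agent.P147
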