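import Vale.Agent.P147.Quenched

/-!
# P147: directions, levels, escape and regeneration events

A `Geo` is a direction `ℓ`, normalised by its value at the best unit step `es`, with a second unit step `fs`
orthogonal to `es` on which `ℓ` is nonnegative. All events are events of the step sequence of a walk and are
relative to its start.
-/

open MeasureTheory Filter
open scoped ENNReal

namespace Vale.Agent.P147

open Cyl

variable {d : ℕ}

/-- A normalised direction. -/
structure Geo (d : ℕ) where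
  /-- the direction -/
  ℓ : Fin d → ℝ
  /-- the best unit step -/
  es : Dir d
  /-- a step orthogonal to `es` -/
  fs : Dir d
  norm : ∑ i, ℓ i * (vec es i : ℝ) = 1
  bound : ∀ e : Dir d, |∑ i, ℓ i * (vec e i : ℝ)| ≤ 1
  perp : fs.1 ≠ es.1
  nonneg : 0 ≤ ∑ i, ℓ i * (vec fs i : ℝ)

/-- The opposite step. -/
def flip (e : Dir d) : Dir d := (e.1, !e.2)

lemma vec_flip (e : Dir d) : vec (flip e) = -vec e := by
  obtain ⟨i, b⟩ := e
  cases b <;> simp [vec, flip, ← Pi.single_neg]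

/-- A step sequence after prepending one step. -/
def cons (e : Dir d) (ξ : Steps d) : Steps d := fun n => if n = 0 then e else ξ (n - 1)

namespace Geo

variable (G : Geo d)

/-- The level of a site. -/
def lev (x : Site d) : ℝ := ∑ i, G.ℓ i * (x i : ℝ)

lemma lev_zero : G.lev 0 = 0 := by simp [lev]

lemma lev_add (x y : Site d) : G.lev (x + y) = G.lev x + G.lev y := by
  simp [lev, mul_add, Finset.sum_add_distrib]

lemma lev_neg (x : Site d) : G.lev (-x) = -G.lev x := by simp [lev]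

lemma lev_sub (x y : Site d) : G.lev (x - y) = G.lev x - G.lev y := by
  rw [sub_eq_add_neg, lev_add, lev_neg, sub_eq_add_neg]

lemma lev_es : G.lev (vec G.es) = 1 := G.norm

lemma abs_lev_vec (e : Dir d) : |G.lev (vec e)| ≤ 1 := G.bound e

lemma lev_fs : 0 ≤ G.lev (vec G.fs) := G.nonneg

lemma lev_fs_le : G.lev (vec G.fs) ≤ 1 := (abs_le.1 (G.abs_lev_vec _)).2

/-- The opposite direction. -/
def neg : Geo d where
  ℓ := -G.ℓ
  es := flip G.es
  fs := flip G.fs
  norm := by simpa [vec_flip] using G.norm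
  bound e := by simpa using G.bound e
  perp := G.perp
  nonneg := by simpa [vec_flip] using G.nonneg

@[simp] lemma lev_neg_geo (x : Site d) : G.neg.lev x = -G.lev x := by simp [lev, neg]

@[simp] lemma neg_es : G.neg.es = flip G.es := rfl

/-- The level after `n` steps. -/
def lv (ξ : Steps d) (n : ℕ) : ℝ := G.lev (pos ξ n)

@[simp] lemma lv_zero (ξ : Steps d) : G.lv ξ 0 = 0 := by simp [lv, lev]

lemma lv_succ (ξ : Steps d) (n : ℕ) : G.lv ξ (n + 1) = G.lv ξ n + G.lev (vec (ξ n)) := by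
  rw [lv, pos_succ, lev_add]; rfl

lemma lv_succ_le (ξ : Steps d) (n : ℕ) : G.lv ξ (n + 1) ≤ G.lv ξ n + 1 := by
  rw [lv_succ]; linarith [(abs_le.1 (G.abs_lev_vec (ξ n))).2]

lemma le_lv_succ (ξ : Steps d) (n : ℕ) : G.lv ξ n - 1 ≤ G.lv ξ (n + 1) := by
  rw [lv_succ]; linarith [(abs_le.1 (G.abs_lev_vec (ξ n))).1]

lemma lv_shift (ξ : Steps d) (n k : ℕ) : G.lv (shift n ξ) k = G.lv ξ (n + k) - G.lv ξ n := by
  simp [lv, pos_add, lev_add]

lemma lv_congr {ξ η : Steps d} {n k : ℕ} (hk : k ≤ n) (h : ∀ i < n, η i = ξ i) :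
    G.lv η k = G.lv ξ k := by rw [lv, lv, pos_cyl hk h]

@[simp] lemma lv_neg (ξ : Steps d) (n : ℕ) : G.neg.lv ξ n = -G.lv ξ n := by simp [lv]

lemma measurable_lv (n : ℕ) : Measurable fun ξ : Steps d => G.lv ξ n := by
  have h : Measurable fun ξ : Steps d => pos ξ n := Finset.measurable_sum _ fun i _ =>
    (measurable_of_countable (vec (d := d))).fun_comp (measurable_pi_apply i)
  exact (measurable_of_countable G.lev).fun_comp h

/-- Escape in the direction. -/
def Esc : Set (Steps d) := {ξ | Tendsto (G.lv ξ) atTop atTop}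

lemma esc_iff {ξ : Steps d} : ξ ∈ G.Esc ↔ ∀ M : ℕ, ∃ N, ∀ n ≥ N, (M : ℝ) ≤ G.lv ξ n := by
  refine ⟨fun h M => eventually_atTop.1 (tendsto_atTop.1 h M), fun h => tendsto_atTop.2 fun b => ?_⟩
  obtain ⟨M, hM⟩ := exists_nat_ge b
  obtain ⟨N, hN⟩ := h M
  exact eventually_atTop.2 ⟨N, fun n hn => hM.trans (hN n hn)⟩

lemma measurableSet_Esc : MeasurableSet G.Esc := by
  have : G.Esc = ⋂ M : ℕ, ⋃ N : ℕ, ⋂ n, ⋂ (_ : n ≥ N), {ξ | (M : ℝ) ≤ G.lv ξ n} := by
    ext ξ; simp [esc_iff]
  rw [this]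
  exact .iInter fun M => .iUnion fun N => .iInter fun n => .iInter fun _ =>
    measurableSet_le measurable_const (G.measurable_lv n)

lemma esc_shift {ξ : Steps d} (n : ℕ) : shift n ξ ∈ G.Esc ↔ ξ ∈ G.Esc := by
  simp only [esc_iff, lv_shift]
  constructor
  · intro h M
    obtain ⟨K, hK⟩ := exists_nat_ge ((M : ℝ) - G.lv ξ n)
    obtain ⟨N, hN⟩ := h K
    refine ⟨n + N, fun k hk => ?_⟩
    have := hN (k - n) (by omega)
    rw [Nat.add_sub_cancel' (by omega : n ≤ k)] at this
    linarith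
  · intro h M
    obtain ⟨K, hK⟩ := exists_nat_ge ((M : ℝ) + G.lv ξ n)
    obtain ⟨N, hN⟩ := h K
    exact ⟨N, fun k hk => by linarith [hN (n + k) (by omega)]⟩

/-- `n` is a strict record of the level. -/
def Rec (n : ℕ) (ξ : Steps d) : Prop := ∀ j < n, G.lv ξ j < G.lv ξ n

/-- The regeneration event: first step `es`, later levels at least one, escape. -/
def S : Set (Steps d) := {ξ | ξ 0 = G.es ∧ (∀ n, 1 ≤ n → 1 ≤ G.lv ξ n) ∧ ξ ∈ G.Esc}

lemma lv_one_of_mem_S {ξ : Steps d} (h : ξ ∈ G.S) : G.lv ξ 1 = 1 := by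
  rw [lv_succ, lv_zero, h.1, lev_es, zero_add]

lemma lv_nonneg_of_mem_S {ξ : Steps d} (h : ξ ∈ G.S) (n : ℕ) : 0 ≤ G.lv ξ n := by
  rcases Nat.eq_zero_or_pos n with rfl | hn
  · simp
  · linarith [h.2.1 n hn]

lemma S_subset_Esc : G.S ⊆ G.Esc := fun _ h => h.2.2

lemma measurableSet_S : MeasurableSet G.S := by
  have : G.S = (fun ξ : Steps d => ξ 0) ⁻¹' {G.es} ∩
      ((⋂ n, ⋂ (_ : 1 ≤ n), {ξ | 1 ≤ G.lv ξ n}) ∩ G.Esc) := by
    ext ξ; simp [S]
  rw [this]
  exact (measurable_pi_apply 0 (measurableSet_singleton _)).inter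
    ((MeasurableSet.iInter fun n => .iInter fun _ =>
      measurableSet_le measurable_const (G.measurable_lv n)).inter G.measurableSet_Esc)

/-- `n` is a regeneration time. -/
def Reg (n : ℕ) (ξ : Steps d) : Prop := G.Rec n ξ ∧ shift n ξ ∈ G.S

/-- The trajectory of `ξ` up to time `n` looks like one of `S`. -/
def PreS (n : ℕ) (ξ : Steps d) : Prop :=
  ∀ i, 1 ≤ i → i ≤ n → ξ 0 = G.es ∧ 1 ≤ G.lv ξ i

/-- `j` is a regeneration time as far as the first `n` steps tell. -/
def PreReg (n j : ℕ) (ξ : Steps d) : Prop :=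
  j < n ∧ G.Rec j ξ ∧ ξ j = G.es ∧ ∀ i, j < i → i ≤ n → G.lv ξ j + 1 ≤ G.lv ξ i

/-- The number of regeneration times before `n`, as far as the first `n` steps tell. -/
noncomputable def preCount (n : ℕ) (ξ : Steps d) : ℕ :=
  open Classical in ((Finset.range n).filter fun j => G.PreReg n j ξ).card

/-- The part decided by the first `n` steps of: `ξ ∈ S` and `n` is the `K`th regeneration time. -/
def AtReg (K n : ℕ) : Set (Steps d) :=
  {ξ | G.Rec n ξ ∧ G.PreS n ξ ∧ G.preCount n ξ = K}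

/-- `ξ ∈ S` and its `K`th regeneration is at the site `x`. -/
def Tgt (K : ℕ) (x : Site d) : Set (Steps d) :=
  ⋃ n, (G.AtReg K n ∩ {ξ | pos ξ n = x}) ∩ shift n ⁻¹' G.S

variable [NeZero d] (μ : Measure (Dir d → ℝ))

/-- The probability of the regeneration event. -/
noncomputable def sReg : ℝ≥0∞ := ann μ G.S

/-- The law of the displacement over `K` regeneration slabs. -/
noncomputable def disp (K : ℕ) (x : Site d) : ℝ≥0∞ :=
  ∑' n, ann μ (G.AtReg K n ∩ {ξ | pos ξ n = x})

/-- The entropy of the displacement over `K` slabs. -/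
noncomputable def ent (K : ℕ) : ℝ≥0∞ :=
  ∑' x, ENNReal.ofReal (Real.negMulLog (G.disp μ K x).toReal)

end Geo

/-- Every nonzero direction is a positive multiple of a normalised one, if `d ≥ 2`. -/
theorem exists_geo (hd : 2 ≤ d) (ℓ : Fin d → ℝ) (hℓ : ℓ ≠ 0) :
    ∃ G : Geo d, ∃ c : ℝ, 0 < c ∧ G.ℓ = fun i => c * ℓ i := by
  have : Nonempty (Fin d) := ⟨⟨0, by omega⟩⟩
  obtain ⟨i, hi⟩ := Finite.exists_max fun i => |ℓ i|
  have hpos : 0 < |ℓ i| := by
    rcases lt_or_eq_of_le (abs_nonneg (ℓ i)) with h | h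
    · exact h
    · refine absurd (funext fun j => ?_) hℓ
      exact abs_nonpos_iff.1 ((hi j).trans_eq h.symm)
  have : Nontrivial (Fin d) := Fin.nontrivial_iff_two_le.2 hd
  obtain ⟨k, hk⟩ := exists_ne i
  have hsum : ∀ (g : Fin d → ℝ) (e : Dir d),
      ∑ j, g j * (vec e j : ℝ) = g e.1 * (if e.2 then 1 else -1) := by
    intro g e
    rw [Finset.sum_eq_single e.1]
    · cases h : e.2 <;> simp [vec, h]
    · intro j _ hj; simp [vec, hj]
    · simp
  refine ⟨{ ℓ := fun j => |ℓ i|⁻¹ * ℓ j, es := (i, decide (0 ≤ ℓ i)), fs := (k, decide (0 ≤ ℓ k)),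
            norm := ?_, bound := ?_, perp := hk, nonneg := ?_ }, |ℓ i|⁻¹, inv_pos.2 hpos, rfl⟩
  · rw [hsum]
    by_cases h : 0 ≤ ℓ i
    · simp only [h, decide_true, if_true, mul_one]
      rw [abs_of_nonneg h] at hpos ⊢
      exact inv_mul_cancel₀ hpos.ne'
    · simp only [h, decide_false, Bool.false_eq_true, if_false]
      rw [abs_of_neg (not_le.1 h)] at hpos ⊢
      field_simp
      rw [div_self]
      linarith
  · intro e
    rw [hsum, abs_mul, abs_mul, abs_inv, abs_abs]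
    have : |(if e.2 then (1 : ℝ) else -1)| = 1 := by split_ifs <;> simp
    rw [this, mul_one]
    exact inv_mul_le_one_of_le₀ (hi e.1) (abs_nonneg _)
  · rw [hsum]
    by_cases h : 0 ≤ ℓ k
    · simp only [h, decide_true, if_true, mul_one]
      positivity
    · simp only [h, decide_false, Bool.false_eq_true, if_false]
      have := mul_nonpos_of_nonneg_of_nonpos (inv_nonneg.2 hpos.le) (not_le.1 h).le
      linarith

end Vale.Agent.P147
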