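import Vale.Agent.P147.Geo

/-!
# P147: the norm of a site
-/

namespace Vale.Agent.P147

variable {d : ℕ}

/-- The `ℓ¹` norm of a site. -/
noncomputable def nrm (x : Site d) : ℝ := ∑ i, |(x i : ℝ)|

/-- The displacement over one slab has the tail `C / n` at the distance `n ^ 4`. -/
def Geo.TailBound [NeZero d] (G : Geo d) (μ : MeasureTheory.Measure (Dir d → ℝ)) (C : ℝ) : Prop :=
  ∀ n : ℕ, 1 ≤ n → (∑' u : {u : Site d | (n : ℝ) ^ 4 ≤ nrm u}, G.disp μ 1 u) ≤ ENNReal.ofReal (C / n)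

end Vale.Agent.P147
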