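import Vale.Agent.P147.Renewal
import Vale.Agent.P147.Norm

/-!
# P147: the displacement over one slab has a polynomial tail

The largest norm before the first passage of level `n` has expectation `O (n ^ 2)` on the regeneration event.
Records of a tilted coordinate function are counted by the regenerations, at most one per level; the tilt
needed for this is controlled by covering the path with blocks between regenerations at smaller scales.
-/

open MeasureTheory Filter
open scoped ENNReal Topology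

namespace Vale.Agent.P147

open Cyl

variable {d : ℕ}

lemma nrm_nonneg_site (x : Site d) : 0 ≤ nrm x := Finset.sum_nonneg fun _ _ => abs_nonneg _

lemma nrm_zero_site : nrm (0 : Site d) = 0 := by simp [nrm]

lemma nrm_add_le_site (x y : Site d) : nrm (x + y) ≤ nrm x + nrm y := by
  rw [nrm, nrm, nrm, ← Finset.sum_add_distrib]
  exact Finset.sum_le_sum fun i _ => by
    simp only [Pi.add_apply, Int.cast_add]
    exact abs_add_le _ _

namespace Geo

variable (G : Geo d)

/-- A tilted coordinate. -/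
noncomputable def psi (e : Dir d) (lam : ℝ) (x : Site d) : ℝ :=
  (if e.2 then 1 else -1) * (x e.1 : ℝ) + lam * G.lev x

/-- The level stays below `n` up to time `t`. -/
def Below (n t : ℕ) : Set (Steps d) := {ξ | ∀ w ≤ t, G.lv ξ w < n}

/-- The largest norm before the first passage of level `n`. -/
noncomputable def mx (n : ℕ) (ξ : Steps d) : ℝ≥0∞ :=
  ⨆ t, (G.Below n t).indicator (fun η => ENNReal.ofReal (nrm (pos η t))) ξ

/-- A record of the tilted coordinate before level `n`. -/
def PRec (e : Dir d) (lam : ℝ) (n t : ℕ) : Set (Steps d) :=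
  {ξ | (∀ w ≤ t, 0 ≤ G.lv ξ w ∧ G.lv ξ w < n) ∧
    ∀ j < t, G.psi e lam (pos ξ j) < G.psi e lam (pos ξ t)}

/-- The future after a record avoids the past. -/
def PFut (e : Dir d) (lam : ℝ) (n : ℕ) : Set (Steps d) :=
  G.S ∩ {η | ∀ u, 0 ≤ G.psi e lam (pos η u) ∨ (n : ℝ) ≤ G.lv η u}

/-- A possible first regeneration at a level at least `c`. -/
def AtCut (c : ℝ) (n : ℕ) : Set (Steps d) :=
  {ξ | G.Rec n ξ ∧ G.PreS n ξ ∧ c ≤ G.lv ξ n ∧ ∀ j, G.PreReg n j ξ → G.lv ξ j < c}

/-- Some slab is long compared with its level. -/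
def GapBad (M a : ℕ) : Set (Steps d) :=
  ⋃ t, ⋃ n, G.AtWin t n ∩ shift n ⁻¹' G.Long ((max t a : ℕ) / (M : ℝ))

lemma psi_add (e : Dir d) (lam : ℝ) (x y : Site d) :
    G.psi e lam (x + y) = G.psi e lam x + G.psi e lam y := by
  simp only [psi, lev_add, Pi.add_apply, Int.cast_add]; ring

lemma psi_zero (e : Dir d) (lam : ℝ) : G.psi e lam 0 = 0 := by simp [psi, lev_zero]

lemma psi_vec_le (e f : Dir d) {lam : ℝ} (hlam : 0 ≤ lam) : G.psi e lam (vec f) ≤ 1 + lam := by
  refine add_le_add ?_ (mul_le_of_le_one_right hlam (abs_le.1 (G.abs_lev_vec f)).2)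
  obtain ⟨i, a⟩ := e
  obtain ⟨k, c⟩ := f
  by_cases h : i = k
  · subst h; cases a <;> cases c <;> simp [vec]
  · cases a <;> simp [vec, h]

lemma abs_le_psi (e : Fin d) {lam : ℝ} (hlam : 0 ≤ lam) {x : Site d} (hx : 0 ≤ G.lev x) :
    |(x e : ℝ)| ≤ max (G.psi (e, true) lam x) 0 + max (G.psi (e, false) lam x) 0 := by
  have h1 : (x e : ℝ) ≤ max (G.psi (e, true) lam x) 0 := by
    refine le_trans ?_ (le_max_left _ _)
    simp [psi]; positivity
  have h2 : -(x e : ℝ) ≤ max (G.psi (e, false) lam x) 0 := by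
    refine le_trans ?_ (le_max_left _ _)
    simp [psi]; positivity
  refine abs_le.2 ⟨?_, ?_⟩
  · linarith [le_max_right (G.psi (e, true) lam x) 0]
  · linarith [le_max_right (G.psi (e, false) lam x) 0]

lemma nrm_le_psi {lam : ℝ} (hlam : 0 ≤ lam) {x : Site d} (hx : 0 ≤ G.lev x) :
    nrm x ≤ ∑ e : Dir d, max (G.psi e lam x) 0 := by
  rw [Fintype.sum_prod_type]
  refine Finset.sum_le_sum fun i _ => ?_
  rw [Fintype.sum_bool]
  exact G.abs_le_psi i hlam hx

lemma decided_below (n t : ℕ) : Decided t (G.Below n t) := fun ξ η h hξ w hw => by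
  rw [G.lv_congr hw h]; exact hξ w hw

lemma decided_pRec (e : Dir d) (lam : ℝ) (n t : ℕ) : Decided t (G.PRec e lam n t) := by
  rintro ξ η h ⟨h1, h2⟩
  refine ⟨fun w hw => ?_, fun j hj => ?_⟩
  · rw [G.lv_congr hw h]; exact h1 w hw
  · rw [pos_cyl hj.le h, pos_congr h]; exact h2 j hj

lemma decided_atCut (c : ℝ) (n : ℕ) : Decided n (G.AtCut c n) := by
  rintro ξ η h ⟨h1, h2, h3, h4⟩
  refine ⟨G.decided_rec n ξ η h h1, G.decided_preS n ξ η h h2, by rwa [G.lv_congr le_rfl h], fun j hj => ?_⟩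
  rw [G.lv_congr hj.1.le h]
  exact h4 j ((G.preReg_congr h).1 hj)

lemma pFut_avoid {e : Dir d} {lam : ℝ} {n t : ℕ} {ξ : Steps d} (hξ : ξ ∈ G.PRec e lam n t) :
    G.PFut e lam n ⊆ Avoid 0 t ξ (pos ξ t) := by
  intro η hη j hj
  obtain ⟨i, hi, he⟩ := mem_rows.1 hj
  rw [zero_add] at he
  rcases hη.2 j with h | h
  · have h1 := hξ.2 i hi
    rw [he, psi_add] at h1
    linarith
  · have h1 := (hξ.1 i hi.le).2
    have h2 := (hξ.1 t le_rfl).1
    have e1 : G.lev (pos ξ i) = G.lev (pos ξ t) + G.lev (pos η j) := by rw [he, lev_add]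
    simp only [lv] at h h1 h2
    linarith

lemma atCut_inter {c : ℝ} {n : ℕ} {ξ : Steps d} (h : ξ ∈ G.AtCut c n ∩ shift n ⁻¹' G.S) :
    ξ ∈ G.S ∧ G.Reg n ξ ∧ c ≤ G.lv ξ n ∧ ∀ j < n, G.Reg j ξ → G.lv ξ j < c :=
  ⟨(G.mem_S_iff h.2 h.1.1).2 h.1.2.1, ⟨h.1.1, h.2⟩, h.1.2.2.1,
    fun j hj hr => h.1.2.2.2 j ((G.reg_iff_preReg hj h.2).1 hr)⟩

lemma atCut_unique {c : ℝ} {m n : ℕ} {ξ : Steps d} (hm : ξ ∈ G.AtCut c m ∩ shift m ⁻¹' G.S)
    (hn : ξ ∈ G.AtCut c n ∩ shift n ⁻¹' G.S) : m = n := by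
  obtain ⟨-, hm1, hm2, hm3⟩ := G.atCut_inter hm
  obtain ⟨-, hn1, hn2, hn3⟩ := G.atCut_inter hn
  rcases lt_trichotomy m n with h | h | h
  · exact absurd hm2 (not_le.2 (hn3 m h hm1))
  · exact h
  · exact absurd hn2 (not_le.2 (hm3 n h hn1))

/-- Off `GapBad`, every regeneration has a next one nearby. -/
lemma exists_next {M a : ℕ} {ξ : Steps d} (hS : ξ ∈ G.S) (hgood : ξ ∉ G.GapBad M a) {m : ℕ}
    (hm : G.Reg m ξ) : ∃ n, m < n ∧ G.Reg n ξ ∧
      G.lv ξ n ≤ G.lv ξ m + max (G.lv ξ m) a / (M : ℝ) := by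
  have h0 := G.lv_nonneg_of_mem_S hS m
  set t := ⌊G.lv ξ m⌋₊
  have ht : ξ ∈ G.AtWin t m :=
    ⟨hm.1, fun i h1 _ => ⟨hS.1, hS.2.1 i h1⟩, Nat.floor_le h0, Nat.lt_floor_add_one _⟩
  have hnot : shift m ξ ∉ G.Long ((max t a : ℕ) / (M : ℝ)) := fun h =>
    hgood (Set.mem_iUnion₂.2 ⟨t, m, ht, h⟩)
  simp only [Long, Set.mem_ofPred_eq, not_and, not_forall, not_lt, exists_prop] at hnot
  obtain ⟨k, hk, hreg, hle⟩ := hnot hm.2
  refine ⟨m + k, by omega, (G.reg_shift hm).1 hreg, ?_⟩
  rw [lv_shift] at hle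
  have h2 : ((max t a : ℕ) : ℝ) ≤ max (G.lv ξ m) a := by
    rw [Nat.cast_max]
    exact max_le_max (Nat.floor_le h0) le_rfl
  have h3 := div_le_div_of_nonneg_right h2 (Nat.cast_nonneg (α := ℝ) M)
  linarith

/-- Off `GapBad`, the regeneration levels leave no large gaps. -/
lemma exists_cut {M a : ℕ} {ξ : Steps d} (hS : ξ ∈ G.S) (hgood : ξ ∉ G.GapBad M a) {c : ℝ} (hc : 0 ≤ c) :
    ∃ n, ξ ∈ G.AtCut c n ∩ shift n ⁻¹' G.S ∧ G.lv ξ n ≤ c + max c a / (M : ℝ) := by
  classical
  have hgrow : ∀ i : ℕ, ∃ n, G.Reg n ξ ∧ (i : ℝ) ≤ G.lv ξ n := by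
    intro i
    induction i with
    | zero => exact ⟨0, G.reg_zero hS, by simp⟩
    | succ i ih =>
      obtain ⟨m, hm, hmi⟩ := ih
      obtain ⟨n, hmn, hn, -⟩ := G.exists_next hS hgood hm
      exact ⟨n, hn, by push_cast; linarith [G.reg_lt hm hmn]⟩
  have hex : ∃ n, G.Reg n ξ ∧ c ≤ G.lv ξ n := by
    obtain ⟨i, hi⟩ := exists_nat_ge c
    obtain ⟨n, hn, hni⟩ := hgrow i
    exact ⟨n, hn, hi.trans hni⟩
  obtain ⟨hn, hcn⟩ := Nat.find_spec hex
  have hbef : ∀ j < Nat.find hex, G.Reg j ξ → G.lv ξ j < c := fun j hj hr =>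
    not_le.1 fun h => Nat.find_min hex hj ⟨hr, h⟩
  refine ⟨Nat.find hex, ⟨⟨hn.1, fun i h1 _ => ⟨hS.1, hS.2.1 i h1⟩, hcn,
    fun j hj => hbef j hj.1 ((G.reg_iff_preReg hj.1 hn.2).2 hj)⟩, hn.2⟩, ?_⟩
  rcases Nat.eq_zero_or_pos (Nat.find hex) with h0 | h0
  · rw [h0, lv_zero]
    positivity
  · set n := Nat.find hex
    set j := Nat.findGreatest (fun j => G.Reg j ξ) (n - 1)
    have hjr : G.Reg j ξ := Nat.findGreatest_spec (P := fun j => G.Reg j ξ) (Nat.zero_le _) (G.reg_zero hS)
    have hjn : j < n := by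
      have := Nat.findGreatest_le (P := fun j => G.Reg j ξ) (n - 1)
      omega
    obtain ⟨n', hjn', hr', hle⟩ := G.exists_next hS hgood hjr
    have hnn : n ≤ n' := not_lt.1 fun h =>
      Nat.findGreatest_is_greatest (P := fun j => G.Reg j ξ) hjn' (by omega) hr'
    have h1 : G.lv ξ n ≤ G.lv ξ n' := by
      rcases eq_or_lt_of_le hnn with h | h
      · rw [h]
      · exact (hr'.1 n h).le
    have h2 := hbef j hjn hjr
    have h3 := div_le_div_of_nonneg_right (max_le_max h2.le (le_refl (a : ℝ))) (Nat.cast_nonneg (α := ℝ) M)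
    linarith

lemma le_mx {n t : ℕ} {ξ : Steps d} (h : ξ ∈ G.Below n t) : ENNReal.ofReal (nrm (pos ξ t)) ≤ G.mx n ξ := by
  refine le_trans ?_ (le_iSup _ t)
  rw [Set.indicator_of_mem h]

/-- The blocks between the cuts at the multiples of `k / M`. -/
noncomputable def blocks (M k D : ℕ) (ξ : Steps d) : ℝ≥0∞ :=
  ∑ i ∈ Finset.range (3 * M), ∑' n,
    (G.AtCut (i * ((k : ℝ) / M)) n ∩ shift n ⁻¹' G.S).indicator (fun η => G.mx D (shift n η)) ξ

/-- The covering of the path at the scale `k`. -/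
lemma nrm_le_blocks {M a k : ℕ} {ξ : Steps d} (hS : ξ ∈ G.S) (hgood : ξ ∉ G.GapBad M a) (hM : 0 < M)
    (hk : a ≤ k) {u : ℕ} (hu : G.lv ξ u < 2 * k) :
    ENNReal.ofReal (nrm (pos ξ u)) ≤ G.blocks M k (4 * k / M + 1) ξ := by
  classical
  set D := 4 * k / M + 1
  set δ : ℝ := (k : ℝ) / M
  have hM' : (0 : ℝ) < M := by exact_mod_cast hM
  have hδ0 : 0 ≤ δ := by positivity
  have hδk : (M : ℝ) * δ = k := by simp only [δ]; field_simp
  have hD : 4 * δ < (D : ℝ) := by
    have h1 : 4 * k < M * D := by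
      have := Nat.lt_div_mul_add (a := 4 * k) hM
      simp only [D]
      rw [mul_add, mul_one, mul_comm M (4 * k / M)]
      omega
    have h2 : (4 : ℝ) * k < M * D := by exact_mod_cast h1
    refine lt_of_mul_lt_mul_left ?_ hM'.le
    linarith
  have hcut : ∀ i : ℕ, ∃ n, ξ ∈ G.AtCut (i * δ) n ∩ shift n ⁻¹' G.S ∧
      G.lv ξ n ≤ i * δ + max (i * δ) a / (M : ℝ) := fun i =>
    G.exists_cut hS hgood (mul_nonneg (Nat.cast_nonneg i) hδ0)
  choose N hN1 hN2 using hcut
  have hN3 := fun i => G.atCut_inter (hN1 i)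
  have hN0 : N 0 = 0 := by
    refine G.atCut_unique (hN1 0) ⟨⟨fun j hj => absurd hj (Nat.not_lt_zero j), fun i h1 h2 => ?_, by simp,
      fun j hj => absurd hj.1 (Nat.not_lt_zero j)⟩, (G.reg_zero hS).2⟩
    omega
  have hmono : ∀ i, N i ≤ N (i + 1) := by
    intro i
    refine not_lt.1 fun hlt => ?_
    have h1 := (hN3 i).2.2.2 _ hlt (hN3 (i + 1)).2.1
    have h2 := (hN3 (i + 1)).2.2.1
    push_cast at h2
    linarith
  have hlev : ∀ i ≤ 3 * M, G.lv ξ (N i) ≤ (i + 3) * δ := by
    intro i hi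
    have hi' : (i : ℝ) ≤ 3 * M := by exact_mod_cast hi
    have h2 : max ((i : ℝ) * δ) a / (M : ℝ) ≤ 3 * δ := by
      rw [div_le_iff₀ hM']
      have h3 := mul_le_mul_of_nonneg_right hi' hδ0
      have h4 : (a : ℝ) ≤ k := by exact_mod_cast hk
      refine max_le ?_ ?_
      · linarith
      · linarith [Nat.cast_nonneg (α := ℝ) k]
    linarith [hN2 i]
  have hblock : ∀ i, i < 3 * M → ∀ v, N i ≤ v → v ≤ N (i + 1) →
      ENNReal.ofReal (nrm (pos ξ v)) ≤ ENNReal.ofReal (nrm (pos ξ (N i))) + G.mx D (shift (N i) ξ) := by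
    intro i hi v h1 h2
    have hb : shift (N i) ξ ∈ G.Below D (v - N i) := by
      intro w hw
      rw [lv_shift]
      have h3 : G.lv ξ (N i + w) ≤ G.lv ξ (N (i + 1)) := by
        rcases eq_or_lt_of_le (show N i + w ≤ N (i + 1) by omega) with h | h
        · rw [h]
        · exact ((hN3 (i + 1)).2.1.1 _ h).le
      have h4 := hlev (i + 1) hi
      have h5 := (hN3 i).2.2.1
      push_cast at h4
      linarith
    obtain ⟨w, rfl⟩ := Nat.exists_eq_add_of_le h1
    rw [Nat.add_sub_cancel_left] at hb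
    rw [pos_add]
    refine (ENNReal.ofReal_le_ofReal (nrm_add_le_site _ _)).trans (ENNReal.ofReal_add_le.trans ?_)
    exact add_le_add le_rfl (G.le_mx hb)
  have hprefix : ∀ i ≤ 3 * M, ENNReal.ofReal (nrm (pos ξ (N i))) ≤
      ∑ j ∈ Finset.range i, G.mx D (shift (N j) ξ) := by
    intro i hi
    induction i with
    | zero => simp [hN0, nrm_zero_site]
    | succ i ih =>
      rw [Finset.sum_range_succ]
      exact (hblock i (by omega) _ (hmono i) le_rfl).trans (add_le_add (ih (by omega)) le_rfl)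
  have htop : u < N (3 * M) := by
    refine not_le.1 fun hle => ?_
    have h1 : ((3 * M : ℕ) : ℝ) * δ ≤ G.lv ξ (N (3 * M)) := (hN3 (3 * M)).2.2.1
    have h2 : G.lv ξ (N (3 * M)) ≤ G.lv ξ u := by
      rcases eq_or_lt_of_le hle with h | h
      · rw [h]
      · linarith [G.reg_lt (hN3 (3 * M)).2.1 h]
    push_cast at h1
    linarith [Nat.cast_nonneg (α := ℝ) k]
  have hex : ∃ i, u < N (i + 1) := ⟨3 * M - 1, by rwa [Nat.sub_add_cancel (by omega : 1 ≤ 3 * M)]⟩
  set i := Nat.find hex
  have hi : i < 3 * M := by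
    have := Nat.find_min' hex (show u < N (3 * M - 1 + 1) by
      rwa [Nat.sub_add_cancel (by omega : 1 ≤ 3 * M)])
    omega
  have hle : N i ≤ u := by
    rcases Nat.eq_zero_or_pos i with h | h
    · rw [h, hN0]; exact Nat.zero_le u
    · have := Nat.find_min hex (show i - 1 < i by omega)
      rw [Nat.sub_add_cancel h] at this
      exact not_lt.1 this
  calc ENNReal.ofReal (nrm (pos ξ u)) ≤ ∑ j ∈ Finset.range (i + 1), G.mx D (shift (N j) ξ) := by
        rw [Finset.sum_range_succ]
        exact (hblock i hi u hle (Nat.find_spec hex).le).trans (add_le_add (hprefix i hi.le) le_rfl)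
    _ ≤ ∑ j ∈ Finset.range (3 * M), G.mx D (shift (N j) ξ) :=
        Finset.sum_le_sum_of_subset (Finset.range_subset_range.2 hi)
    _ ≤ _ := by
        refine Finset.sum_le_sum fun j _ => le_trans ?_ (ENNReal.le_tsum (N j))
        rw [Set.indicator_of_mem (hN1 j)]

lemma measurableSet_below (n t : ℕ) [NeZero d] : MeasurableSet (G.Below n t) :=
  (G.decided_below n t).measurableSet

variable [NeZero d] (μ : Measure (Dir d → ℝ))

lemma measurable_mx (n : ℕ) : Measurable (G.mx n) :=
  Measurable.iSup fun t => Measurable.indicator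
    (ENNReal.measurable_ofReal.comp ((measurable_of_countable nrm).fun_comp
      (Finset.measurable_sum _ fun i _ =>
        (measurable_of_countable (vec (d := d))).fun_comp (measurable_pi_apply i))))
    (G.measurableSet_below n t)

/-- The expected largest norm before the first passage of level `n`, on the regeneration event. -/
noncomputable def Hh (n : ℕ) : ℝ≥0∞ := ∫⁻ ξ in G.S, G.mx n ξ ∂ann μ

omit [NeZero d] in
lemma measurableSet_pFut (e : Dir d) (lam : ℝ) (n : ℕ) : MeasurableSet (G.PFut e lam n) := by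
  refine G.measurableSet_S.inter ?_
  have : {η : Steps d | ∀ u, 0 ≤ G.psi e lam (pos η u) ∨ (n : ℝ) ≤ G.lv η u} =
      ⋂ u, ((fun η : Steps d => G.psi e lam (pos η u)) ⁻¹' Set.Ici 0 ∪ {η | (n : ℝ) ≤ G.lv η u}) := by
    ext η; simp
  rw [this]
  exact .iInter fun u => MeasurableSet.union
    (((measurable_of_countable (G.psi e lam)).fun_comp (Finset.measurable_sum _ fun i _ =>
        (measurable_of_countable (vec (d := d))).fun_comp (measurable_pi_apply i))) measurableSet_Ici)
    (measurableSet_le measurable_const (G.measurable_lv u))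

variable [Law μ]

lemma sum_pRec_le (e : Dir d) (lam : ℝ) (n : ℕ) :
    (∑' t, ann μ (G.PRec e lam n t)) * ann μ (G.PFut e lam n) ≤ n := by
  classical
  set B : ℕ → Set (Steps d) := fun t => G.PRec e lam n t ∩ shift t ⁻¹' G.PFut e lam n
  have hB : ∀ t, MeasurableSet (B t) := fun t =>
    (G.decided_pRec e lam n t).measurableSet.inter (measurable_shift t (G.measurableSet_pFut e lam n))
  have hpt : ∀ ξ, ∑' t, (B t).indicator (1 : Steps d → ℝ≥0∞) ξ ≤ (n : ℝ≥0∞) := by
    intro ξ
    refine ENNReal.summable.tsum_le_of_sum_le fun T => ?_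
    simp only [Set.indicator_apply, Pi.one_apply]
    rw [Finset.sum_ite, Finset.sum_const_zero, add_zero, Finset.sum_const, nsmul_one]
    rw [Nat.cast_le]
    refine (Finset.card_le_card_of_injOn (fun t => ⌊G.lv ξ t⌋₊) ?_ ?_).trans_eq (Finset.card_range n)
    · intro t ht
      obtain ⟨h1, h2⟩ := ((Finset.mem_filter.1 ht).2).1.1 t le_rfl
      exact Finset.mem_range.2 ((Nat.floor_lt h1).2 h2)
    · intro t ht t' ht' heq
      have hb := (Finset.mem_filter.1 ht).2
      have hb' := (Finset.mem_filter.1 ht').2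
      have step : ∀ p q, ξ ∈ B p → ξ ∈ B q → p < q → ⌊G.lv ξ p⌋₊ < ⌊G.lv ξ q⌋₊ := by
        intro p q hp hq hpq
        have := hp.2.1.2.1 (q - p) (by omega)
        rw [lv_shift, Nat.add_sub_cancel' hpq.le] at this
        have h1 : G.lv ξ p + 1 ≤ G.lv ξ q := by linarith
        have h2 := Nat.floor_mono h1
        rw [Nat.floor_add_one (hp.1.1 p le_rfl).1] at h2
        omega
      have heq' : ⌊G.lv ξ t⌋₊ = ⌊G.lv ξ t'⌋₊ := heq
      rcases lt_trichotomy t t' with h | h | h
      · exact absurd heq' (step t t' hb hb' h).ne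
      · exact h
      · exact absurd heq'.symm (step t' t hb' hb h).ne
  rw [← ENNReal.tsum_mul_right]
  calc ∑' t, ann μ (G.PRec e lam n t) * ann μ (G.PFut e lam n) = ∑' t, ann μ (B t) :=
        tsum_congr fun t => (ann_split_decided μ (G.decided_pRec e lam n t) (G.measurableSet_pFut e lam n)
          fun ξ hξ => G.pFut_avoid hξ).symm
    _ = ∫⁻ ξ, ∑' t, (B t).indicator 1 ξ ∂ann μ := by
        rw [lintegral_tsum fun t => (measurable_one.indicator (hB t)).aemeasurable]
        exact tsum_congr fun t => (lintegral_indicator_one (hB t)).symm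
    _ ≤ ∫⁻ _, (n : ℝ≥0∞) ∂ann μ := lintegral_mono hpt
    _ = n := by simp

omit [Law μ] [NeZero d] in
/-- The tilted coordinate is at most its increment times the number of its records. -/
lemma psi_le_records (e : Dir d) {lam : ℝ} (hlam : 0 ≤ lam) {n : ℕ} {ξ : Steps d} (hS : ξ ∈ G.S) {t : ℕ}
    (ht : ξ ∈ G.Below n t) :
    ENNReal.ofReal (max (G.psi e lam (pos ξ t)) 0) ≤
      ENNReal.ofReal (1 + lam) * ∑' w, (G.PRec e lam n w).indicator 1 ξ := by
  classical
  have hlow : ∀ m ≤ t, ∀ w ≤ m, 0 ≤ G.lv ξ w ∧ G.lv ξ w < n := fun m hm w hw =>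
    ⟨G.lv_nonneg_of_mem_S hS w, ht w (hw.trans hm)⟩
  have key : ∀ m ≤ t, ∀ w ≤ m, G.psi e lam (pos ξ w) ≤
      (1 + lam) * (((Finset.range (m + 1)).filter fun v => ξ ∈ G.PRec e lam n v).card : ℝ) := by
    intro m
    induction m with
    | zero =>
      intro _ w hw
      rw [Nat.le_zero.1 hw, pos_zero, psi_zero]
      positivity
    | succ m ih =>
      intro hm w hw
      set F := fun m => (Finset.range (m + 1)).filter fun v => ξ ∈ G.PRec e lam n v
      have hsub : F m ⊆ F (m + 1) :=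
        Finset.filter_subset_filter _ (Finset.range_subset_range.2 (by omega))
      have hmono : ((F m).card : ℝ) ≤ (F (m + 1)).card := by exact_mod_cast Finset.card_le_card hsub
      have hfac := mul_le_mul_of_nonneg_left hmono (by linarith : 0 ≤ 1 + lam)
      rcases Nat.lt_or_ge w (m + 1) with h | h
      · exact (ih (by omega) w (by omega)).trans hfac
      obtain rfl : w = m + 1 := by omega
      by_cases hrec : ∀ j < m + 1, G.psi e lam (pos ξ j) < G.psi e lam (pos ξ (m + 1))
      · have hins : (F m).card + 1 ≤ (F (m + 1)).card := by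
          have hmem : ξ ∈ G.PRec e lam n (m + 1) := ⟨hlow (m + 1) hm, hrec⟩
          rw [← Finset.card_insert_of_notMem (s := F m) (a := m + 1) (by simp [F])]
          exact Finset.card_le_card (Finset.insert_subset (by simp [F, hmem]) hsub)
        have h1 := ih (by omega) m le_rfl
        have h2 := G.psi_vec_le e (ξ m) hlam
        have h3 : ((F m).card : ℝ) + 1 ≤ (F (m + 1)).card := by exact_mod_cast hins
        have h4 := mul_le_mul_of_nonneg_left h3 (by linarith : 0 ≤ 1 + lam)
        rw [pos_succ, psi_add]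
        linarith
      · push Not at hrec
        obtain ⟨j, hj, hle⟩ := hrec
        exact hle.trans ((ih (by omega) j (by omega)).trans hfac)
  refine (ENNReal.ofReal_le_ofReal (max_le (key t le_rfl t le_rfl) (by positivity))).trans ?_
  rw [ENNReal.ofReal_mul (by linarith), ENNReal.ofReal_natCast]
  gcongr
  refine le_trans (le_of_eq ?_) (ENNReal.sum_le_tsum (Finset.range (t + 1)))
  simp [Set.indicator_apply]

/-- The record bound. -/
lemma hh_le {lam : ℝ} (hlam : 0 ≤ lam) {n : ℕ} {q : ℝ} (hq : 0 < q)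
    (hqe : ∀ e, ENNReal.ofReal q ≤ ann μ (G.PFut e lam n)) :
    G.Hh μ n ≤ ENNReal.ofReal ((2 * d) * (1 + lam) * n / q) := by
  have hpt : ∀ ξ ∈ G.S, G.mx n ξ ≤
      ∑ e : Dir d, ENNReal.ofReal (1 + lam) * ∑' w, (G.PRec e lam n w).indicator 1 ξ := by
    intro ξ hξ
    refine iSup_le fun t => ?_
    by_cases ht : ξ ∈ G.Below n t
    · rw [Set.indicator_of_mem ht]
      refine (ENNReal.ofReal_le_ofReal (G.nrm_le_psi hlam (G.lv_nonneg_of_mem_S hξ t))).trans ?_
      rw [ENNReal.ofReal_sum_of_nonneg fun e _ => le_max_right _ _]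
      exact Finset.sum_le_sum fun e _ => G.psi_le_records e hlam hξ ht
    · rw [Set.indicator_of_notMem ht]; exact zero_le
  have hm : ∀ e, Measurable fun ξ => ∑' w, (G.PRec e lam n w).indicator (1 : Steps d → ℝ≥0∞) ξ :=
    fun e => Measurable.tsum fun w => measurable_one.indicator (G.decided_pRec e lam n w).measurableSet
  calc G.Hh μ n ≤ ∫⁻ ξ, ∑ e : Dir d, ENNReal.ofReal (1 + lam) *
          ∑' w, (G.PRec e lam n w).indicator 1 ξ ∂ann μ :=
        (setLIntegral_mono' G.measurableSet_S hpt).trans (setLIntegral_le_lintegral _ _)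
    _ = ∑ e : Dir d, ENNReal.ofReal (1 + lam) * ∑' w, ann μ (G.PRec e lam n w) := by
        rw [lintegral_finsetSum _ fun e _ => (hm e).const_mul _]
        refine Finset.sum_congr rfl fun e _ => ?_
        rw [lintegral_const_mul _ (hm e), lintegral_tsum fun w =>
          (measurable_one.indicator (G.decided_pRec e lam n w).measurableSet).aemeasurable]
        exact congrArg _ (tsum_congr fun w =>
          lintegral_indicator_one (G.decided_pRec e lam n w).measurableSet)
    _ ≤ ∑ _e : Dir d, ENNReal.ofReal (1 + lam) * ((n : ℝ≥0∞) / ENNReal.ofReal q) := by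
        refine Finset.sum_le_sum fun e _ => mul_le_mul_right ?_ _
        rw [ENNReal.le_div_iff_mul_le (Or.inl (by simpa using hq)) (Or.inl ENNReal.ofReal_ne_top)]
        exact (mul_le_mul_right (hqe e) _).trans (G.sum_pRec_le μ e lam n)
    _ = _ := by
        rw [Finset.sum_const, Finset.card_univ, nsmul_eq_mul, ← ENNReal.ofReal_natCast n,
          ← ENNReal.ofReal_div_of_pos hq, ← ENNReal.ofReal_mul (by linarith), ← ENNReal.ofReal_natCast,
          ← ENNReal.ofReal_mul (Nat.cast_nonneg _)]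
        congr 1
        simp [Fintype.card_prod]
        ring

omit [Law μ] [NeZero d] in
lemma long_anti {a b : ℝ} (h : a ≤ b) : G.Long b ⊆ G.Long a := fun _ hξ =>
  ⟨hξ.1, fun n h1 h2 => lt_of_le_of_lt h (hξ.2 n h1 h2)⟩

lemma mul_long_le (hs : 0 < G.sReg μ) (k : ℕ) : (k : ℝ≥0∞) * ann μ (G.Long k) ≤ 1 := by
  refine le_trans ?_ (G.sum_long_le μ hs k)
  refine le_trans (le_of_eq ?_) (Finset.sum_le_sum
    (f := fun _ => ann μ (G.Long k)) fun i hi => measure_mono (G.long_anti ?_))
  · rw [Finset.sum_const, Finset.card_range, nsmul_eq_mul]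
  · exact_mod_cast Finset.mem_range.1 hi

lemma tendsto_gapBad (hs : 0 < G.sReg μ) {M : ℕ} (hM : 0 < M) :
    Tendsto (fun a => ann μ (G.GapBad M a)) atTop (𝓝 0) := by
  set f : ℕ → ℝ≥0∞ := fun t => ann μ (G.Long ((t : ℝ) / M))
  have hanti : Antitone f := fun t t' h => measure_mono (G.long_anti (by gcongr))
  have hfin : ∑' t, f t ≤ 2 * M := by
    refine ENNReal.tsum_le_of_sum_range_le fun N => ?_
    calc ∑ t ∈ Finset.range N, f t ≤ ∑ t ∈ Finset.range (M + M * N), f t :=
          Finset.sum_le_sum_of_subset (Finset.range_subset_range.2 (by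
            have := Nat.le_mul_of_pos_left N hM; omega))
      _ = ∑ t ∈ Finset.range M, f t + ∑ k ∈ Finset.range N, ∑ i ∈ Finset.range M, f (M + (M * k + i)) := by
          rw [Finset.sum_range_add]
          congr 1
          induction N with
          | zero => simp
          | succ N ih => rw [Nat.mul_succ, Finset.sum_range_add, ih, Finset.sum_range_succ (n := N)]
      _ ≤ (M : ℝ≥0∞) + ∑ k ∈ Finset.range N, (M : ℝ≥0∞) * ann μ (G.Long ((k : ℝ) + 1)) := by
          refine add_le_add ?_ (Finset.sum_le_sum fun k _ => ?_)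
          · refine (Finset.sum_le_sum fun t _ => prob_le_one).trans_eq ?_
            simp
          · refine (Finset.sum_le_sum (g := fun _ => ann μ (G.Long ((k : ℝ) + 1))) fun i _ =>
              measure_mono (G.long_anti ?_)).trans_eq (by simp)
            rw [le_div_iff₀ (by exact_mod_cast hM)]
            push_cast
            linarith [Nat.cast_nonneg (α := ℝ) i]
      _ ≤ _ := by
          rw [← Finset.mul_sum, two_mul]
          exact add_le_add le_rfl (mul_le_of_le_one_right' (G.sum_long_le μ hs N))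
  have hzero : Tendsto f atTop (𝓝 0) := by
    refine ENNReal.tendsto_atTop_zero_of_tsum_ne_top ?_
    exact ne_top_of_le_ne_top (ENNReal.mul_ne_top ENNReal.ofNat_ne_top (ENNReal.natCast_ne_top M)) hfin
  have hdom : Tendsto (fun a => ∑' t, f (max t a)) atTop (𝓝 0) := by
    simp only [← lintegral_count]
    rw [show (0 : ℝ≥0∞) = ∫⁻ _t : ℕ, 0 ∂Measure.count from lintegral_zero.symm]
    refine tendsto_lintegral_of_dominated_convergence f (fun a => measurable_of_countable _)
      (fun a => Eventually.of_forall fun t => hanti (le_max_left t a)) ?_ (Eventually.of_forall fun t => ?_)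
    · rw [lintegral_count]
      exact ne_top_of_le_ne_top (ENNReal.mul_ne_top ENNReal.ofNat_ne_top (ENNReal.natCast_ne_top M)) hfin
    · refine hzero.congr' (eventually_atTop.2 ⟨t, fun a ha => ?_⟩)
      simp only [max_eq_right ha]
  have hwin : ∀ t, ∑' n, ann μ (G.AtWin t n) ≤ (G.sReg μ)⁻¹ := by
    intro t
    rw [← one_div, ENNReal.le_div_iff_mul_le (Or.inl hs.ne') (Or.inl (measure_ne_top _ _)),
      ← ENNReal.tsum_mul_right]
    rw [sReg, tsum_congr fun n => (G.ann_rec_split_S μ (G.decided_atWin t n) (fun _ h => h.1)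
      G.measurableSet_S subset_rfl).symm, ← measure_iUnion]
    · exact prob_le_one
    · exact fun m n hmn => Set.disjoint_left.2 fun ξ h1 h2 => hmn (G.atWin_unique h1 h2)
    · exact fun n => (G.decided_atWin t n).measurableSet.inter (measurable_shift n G.measurableSet_S)
  have hle : ∀ a, ann μ (G.GapBad M a) ≤ (G.sReg μ)⁻¹ * ∑' t, f (max t a) := by
    intro a
    rw [← ENNReal.tsum_mul_left]
    refine (measure_iUnion_le _).trans (ENNReal.tsum_le_tsum fun t => (measure_iUnion_le _).trans ?_)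
    rw [tsum_congr fun n => G.ann_rec_split_S μ (G.decided_atWin t n) (fun _ h => h.1)
      (G.measurableSet_Long _) (fun _ h => h.1), ENNReal.tsum_mul_right]
    exact mul_le_mul' (hwin t) le_rfl
  refine tendsto_of_tendsto_of_tendsto_of_le_of_le tendsto_const_nhds ?_ (fun _ => zero_le) hle
  simpa using ENNReal.Tendsto.const_mul hdom (Or.inr (ENNReal.inv_ne_top.2 hs.ne'))

lemma tendsto_small (a : ℕ) :
    Tendsto (fun lam : ℕ => ann μ (G.S ∩ {ξ | ∃ u, G.lv ξ u < a ∧ (lam : ℝ) < nrm (pos ξ u)})) atTop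
      (𝓝 0) := by
  have hm : ∀ lam : ℕ, MeasurableSet (G.S ∩ {ξ | ∃ u, G.lv ξ u < a ∧ (lam : ℝ) < nrm (pos ξ u)}) := by
    intro lam
    refine G.measurableSet_S.inter ?_
    have : {ξ : Steps d | ∃ u, G.lv ξ u < a ∧ (lam : ℝ) < nrm (pos ξ u)} =
        ⋃ u, ({ξ | G.lv ξ u < a} ∩ {ξ | (lam : ℝ) < nrm (pos ξ u)}) := by ext ξ; simp
    rw [this]
    exact .iUnion fun u => (measurableSet_lt (G.measurable_lv u) measurable_const).inter
      (measurableSet_lt measurable_const ((measurable_of_countable nrm).fun_comp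
        (Finset.measurable_sum _ fun i _ =>
          (measurable_of_countable (vec (d := d))).fun_comp (measurable_pi_apply i))))
  have h := tendsto_measure_iInter_atTop (μ := ann μ) (fun lam => (hm lam).nullMeasurableSet)
    (fun l l' hll => Set.inter_subset_inter_right _ fun ξ ⟨u, h1, h2⟩ =>
      ⟨u, h1, lt_of_le_of_lt (by exact_mod_cast hll) h2⟩) ⟨0, measure_ne_top _ _⟩
  have hempty : (⋂ lam : ℕ, G.S ∩ {ξ | ∃ u, G.lv ξ u < a ∧ (lam : ℝ) < nrm (pos ξ u)}) = ∅ := by
    refine Set.eq_empty_of_forall_notMem fun ξ hξ => ?_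
    rw [Set.mem_iInter] at hξ
    obtain ⟨T, hT⟩ := G.esc_iff.1 (hξ 0).1.2.2 a
    obtain ⟨R, hR⟩ := exists_nat_ge (∑ u ∈ Finset.range T, nrm (pos ξ u))
    obtain ⟨u, h1, h2⟩ := (hξ R).2
    have huT : u < T := not_le.1 fun h => not_le.2 h1 (hT u h)
    linarith [Finset.single_le_sum (f := fun u => nrm (pos ξ u)) (fun i _ => nrm_nonneg_site _)
      (Finset.mem_range.2 huT)]
  rw [hempty, measure_empty] at h
  exact h

lemma measurable_blocks (M k D : ℕ) : Measurable (G.blocks M k D) :=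
  Finset.measurable_sum _ fun _ _ => Measurable.tsum fun n =>
    ((G.measurable_mx D).fun_comp (measurable_shift n)).indicator
      ((G.decided_atCut _ n).measurableSet.inter (measurable_shift n G.measurableSet_S))

lemma lintegral_blocks_le (hs : 0 < G.sReg μ) (M k D : ℕ) :
    ∫⁻ ξ, G.blocks M k D ξ ∂ann μ ≤ (3 * M : ℕ) * G.Hh μ D := by
  have hm : ∀ (c : ℝ) (n : ℕ), Measurable ((G.AtCut c n ∩ shift n ⁻¹' G.S).indicator
      fun η => G.mx D (shift n η)) := fun c n =>
    ((G.measurable_mx D).fun_comp (measurable_shift n)).indicator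
      ((G.decided_atCut c n).measurableSet.inter (measurable_shift n G.measurableSet_S))
  unfold blocks
  rw [lintegral_finsetSum _ fun i _ => Measurable.tsum (hm _)]
  refine (Finset.sum_le_sum (g := fun _ => G.Hh μ D) fun i _ => ?_).trans_eq (by simp)
  rw [lintegral_tsum fun n => (hm _ n).aemeasurable]
  set c : ℝ := i * ((k : ℝ) / M)
  have hterm : ∀ n, ∫⁻ ξ, (G.AtCut c n ∩ shift n ⁻¹' G.S).indicator (fun η => G.mx D (shift n η)) ξ
      ∂ann μ = ann μ (G.AtCut c n) * G.Hh μ D := by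
    intro n
    have hA := (G.decided_atCut c n).measurableSet
    have hmap : (((ann μ).restrict (G.AtCut c n)).map (shift n)).restrict G.S =
        ann μ (G.AtCut c n) • (ann μ).restrict G.S := by
      refine Measure.ext fun E hE => ?_
      rw [Measure.restrict_apply hE, Measure.map_apply (measurable_shift n) (hE.inter G.measurableSet_S),
        Measure.restrict_apply (measurable_shift n (hE.inter G.measurableSet_S)), Set.inter_comm,
        G.ann_rec_split_S μ (G.decided_atCut c n) (fun _ h => h.1) (hE.inter G.measurableSet_S)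
          Set.inter_subset_right,
        Measure.smul_apply, smul_eq_mul, Measure.restrict_apply hE]
    rw [Hh, ← smul_eq_mul, ← lintegral_smul_measure, ← hmap,
      setLIntegral_map G.measurableSet_S (G.measurable_mx D) (measurable_shift n),
      Measure.restrict_restrict (measurable_shift n G.measurableSet_S), Set.inter_comm,
      lintegral_indicator ((measurable_shift n G.measurableSet_S).inter hA)]
  rw [tsum_congr hterm, ENNReal.tsum_mul_right]
  refine mul_le_of_le_one_left' ((ENNReal.mul_le_mul_iff_left hs.ne' (measure_ne_top _ _)).1 ?_)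
  rw [← ENNReal.tsum_mul_right, one_mul]
  calc ∑' n, ann μ (G.AtCut c n) * G.sReg μ = ∑' n, ann μ (G.AtCut c n ∩ shift n ⁻¹' G.S) :=
        tsum_congr fun n => (G.ann_rec_split_S μ (G.decided_atCut c n) (fun _ h => h.1)
          G.measurableSet_S subset_rfl).symm
    _ = ann μ (⋃ n, G.AtCut c n ∩ shift n ⁻¹' G.S) := (measure_iUnion
          (fun m n hmn => Set.disjoint_left.2 fun ξ h1 h2 => hmn (G.atCut_unique h1 h2))
          fun n => (G.decided_atCut c n).measurableSet.inter (measurable_shift n G.measurableSet_S)).symm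
    _ ≤ G.sReg μ := measure_mono (Set.iUnion_subset fun n ξ hξ => (G.atCut_inter hξ).1)

/-- The largest norm before level `n` has a mean of order `n ^ 2`. -/
theorem exists_hh_bound (hs : 0 < G.sReg μ) :
    ∃ A : ℝ, 0 ≤ A ∧ ∀ n : ℕ, 1 ≤ n → G.Hh μ n ≤ ENNReal.ofReal (A * (n : ℝ) ^ 2) := by
  have hst : G.sReg μ ≠ ∞ := measure_ne_top _ _
  set σ := (G.sReg μ).toReal
  have hσ : 0 < σ := ENNReal.toReal_pos hs.ne' hst
  have hse : ENNReal.ofReal σ = G.sReg μ := ENNReal.ofReal_toReal hst
  have h8 : (0 : ℝ≥0∞) < ENNReal.ofReal (σ / 8) := ENNReal.ofReal_pos.2 (by positivity)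
  obtain ⟨M, hM⟩ := exists_nat_ge (9600 * d / σ ^ 2 + 6)
  have hd0 : (0 : ℝ) ≤ 9600 * d / σ ^ 2 := by positivity
  have hM6 : 6 ≤ M := by exact_mod_cast (by linarith : (6 : ℝ) ≤ M)
  have hM' : (0 : ℝ) < M := by exact_mod_cast (by omega : 0 < M)
  obtain ⟨a, ha1, ha2⟩ := (((G.tendsto_gapBad μ hs (M := M) (by omega)).eventually (ge_mem_nhds h8)).and
    (eventually_ge_atTop M)).exists
  obtain ⟨l0, hl0⟩ := ((G.tendsto_small μ a).eventually (ge_mem_nhds h8)).exists
  set C1 : ℝ := 1200 / (M * σ)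
  set A : ℝ := 8 * d * (1 + l0) / σ + 1
  have hA : 0 < A := by positivity
  refine ⟨A, hA.le, fun n => ?_⟩
  induction n using Nat.strong_induction_on with
  | _ n ih =>
    intro hn
    have hnR : (1 : ℝ) ≤ n := by exact_mod_cast hn
    set lam : ℝ := l0 + C1 * A * n
    have hlam0 : (l0 : ℝ) ≤ lam := le_add_of_nonneg_right (by positivity)
    have hlam : 0 < lam := add_pos_of_nonneg_of_pos (Nat.cast_nonneg _) (by positivity)
    set I := (Finset.range n).filter fun i => a * 2 ^ i < n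
    set Big : ℕ → Set (Steps d) := fun i =>
      {ξ | ENNReal.ofReal (lam * (a * 2 ^ i : ℕ)) ≤ G.blocks M (a * 2 ^ i) (4 * (a * 2 ^ i) / M + 1) ξ}
    have hcover : ∀ e, G.S ⊆ G.PFut e lam n ∪ ((G.GapBad M a ∪
        (G.S ∩ {ξ | ∃ u, G.lv ξ u < a ∧ (l0 : ℝ) < nrm (pos ξ u)})) ∪ ⋃ i ∈ I, Big i) := by
      intro e ξ hξ
      by_cases hF : ξ ∈ G.PFut e lam n
      · exact Or.inl hF
      refine Or.inr ?_
      by_cases hgap : ξ ∈ G.GapBad M a
      · exact Or.inl (Or.inl hgap)
      simp only [PFut, Set.mem_inter_iff, hξ, true_and, Set.mem_ofPred_eq, not_forall, not_or, not_le] at hF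
      obtain ⟨u, hneg, hun⟩ := hF
      have hnr : lam * G.lv ξ u < nrm (pos ξ u) := by
        have h1 : |((pos ξ u) e.1 : ℝ)| ≤ nrm (pos ξ u) :=
          Finset.single_le_sum (f := fun i => |((pos ξ u) i : ℝ)|) (fun i _ => abs_nonneg _)
            (Finset.mem_univ e.1)
        simp only [psi, show G.lev (pos ξ u) = G.lv ξ u from rfl] at hneg
        split_ifs at hneg <;>
          linarith [neg_abs_le ((pos ξ u) e.1 : ℝ), le_abs_self ((pos ξ u) e.1 : ℝ)]
      have hu : 1 ≤ u := Nat.one_le_iff_ne_zero.2 fun h => by simp [h, nrm_zero_site] at hnr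
      have hu1 := hξ.2.1 u hu
      rcases lt_or_ge (G.lv ξ u) a with hua | hua
      · refine Or.inl (Or.inr ⟨hξ, u, hua, ?_⟩)
        linarith [mul_le_mul_of_nonneg_left hu1 hlam.le]
      · have hex : ∃ i : ℕ, G.lv ξ u < ((a * 2 ^ (i + 1) : ℕ) : ℝ) := by
          refine ⟨n, hun.trans_le (Nat.cast_le.2 ?_)⟩
          calc n ≤ 2 ^ (n + 1) :=
                (Nat.lt_two_pow_self (n := n)).le.trans (Nat.pow_le_pow_right (by norm_num) (by omega))
            _ ≤ a * 2 ^ (n + 1) := Nat.le_mul_of_pos_left _ (by omega)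
        set i := Nat.find hex
        have hlow : ((a * 2 ^ i : ℕ) : ℝ) ≤ G.lv ξ u := by
          rcases Nat.eq_zero_or_pos i with h | h
          · simpa [h] using hua
          · have := Nat.find_min hex (show i - 1 < i by omega)
            rw [Nat.sub_add_cancel h] at this
            exact not_lt.1 this
        have hin : a * 2 ^ i < n := by exact_mod_cast lt_of_le_of_lt hlow hun
        refine Or.inr (Set.mem_iUnion₂.2 ⟨i, Finset.mem_filter.2 ⟨Finset.mem_range.2 ?_, hin⟩, ?_⟩)
        · calc i < 2 ^ i := Nat.lt_two_pow_self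
            _ ≤ a * 2 ^ i := Nat.le_mul_of_pos_left _ (by omega)
            _ ≤ n := hin.le
        · have hk : G.lv ξ u < 2 * ((a * 2 ^ i : ℕ) : ℝ) := by
            refine (Nat.find_spec hex).trans_eq ?_
            simp only [i]
            push_cast; ring
          refine le_trans (ENNReal.ofReal_le_ofReal ?_) (G.nrm_le_blocks hξ hgap (by omega)
            (Nat.le_mul_of_pos_right a (by positivity)) hk)
          linarith [mul_le_mul_of_nonneg_left hlow hlam.le]
    have hbig : ∀ i ∈ I, ann μ (Big i) ≤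
        ENNReal.ofReal (75 * A / (M * lam) * (a * 2 ^ i : ℕ)) := by
      intro i hi
      set k := a * 2 ^ i
      have hkn : k < n := (Finset.mem_filter.1 hi).2
      have hka : M ≤ k := le_trans ha2 (Nat.le_mul_of_pos_right a (by positivity))
      have hD : 4 * k / M + 1 ≤ n - 1 ∧ ((4 * k / M + 1 : ℕ) : ℝ) ≤ 5 * k / (M : ℝ) := by
        have h1 : (4 * k / M + 1) * M ≤ 5 * k := by
          have := Nat.div_mul_le_self (4 * k) M
          rw [add_mul, one_mul]; omega
        refine ⟨?_, ?_⟩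
        · have h2 : (4 * k / M + 1) * 6 ≤ 5 * k := le_trans (Nat.mul_le_mul_left _ hM6) h1
          omega
        · rw [le_div_iff₀ hM']; exact_mod_cast h1
      have hH : G.Hh μ (4 * k / M + 1) ≤ ENNReal.ofReal (A * (5 * k / M) ^ 2) :=
        (ih _ (by omega) (Nat.le_add_left 1 _)).trans (ENNReal.ofReal_le_ofReal
          (mul_le_mul_of_nonneg_left (pow_le_pow_left₀ (Nat.cast_nonneg _) hD.2 2) hA.le))
      have hk0 : (0 : ℝ) < k := by exact_mod_cast (by omega : 0 < k)
      have hmk : ENNReal.ofReal (lam * k) * ann μ (Big i) ≤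
          ENNReal.ofReal (75 * A / (M * lam) * k) * ENNReal.ofReal (lam * k) := by
        refine (mul_meas_ge_le_lintegral (G.measurable_blocks M k _) _).trans
          ((G.lintegral_blocks_le μ hs M k _).trans ((mul_le_mul_right hH _).trans_eq ?_))
        rw [← ENNReal.ofReal_natCast, ← ENNReal.ofReal_mul (Nat.cast_nonneg _),
          ← ENNReal.ofReal_mul (by positivity)]
        congr 1
        push_cast
        field_simp
        ring
      rw [mul_comm] at hmk
      exact (ENNReal.mul_le_mul_iff_left (by simpa using mul_pos hlam hk0) ENNReal.ofReal_ne_top).1 hmk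
    have hsum : ann μ (⋃ i ∈ I, Big i) ≤ ENNReal.ofReal (σ / 8) := by
      refine (measure_biUnion_finset_le _ _).trans ((Finset.sum_le_sum hbig).trans ?_)
      rw [← ENNReal.ofReal_sum_of_nonneg fun i _ => by positivity, ← Finset.mul_sum]
      refine ENNReal.ofReal_le_ofReal ?_
      have hgeo : ∑ i ∈ I, a * 2 ^ i ≤ 2 * n := by
        rcases I.eq_empty_or_nonempty with h | h
        · simp [h]
        · have hmax := (Finset.mem_filter.1 (I.max'_mem h)).2
          calc ∑ i ∈ I, a * 2 ^ i ≤ ∑ i ∈ Finset.range (I.max' h + 1), a * 2 ^ i :=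
                Finset.sum_le_sum_of_subset fun i hi =>
                  Finset.mem_range.2 (Nat.lt_succ_of_le (I.le_max' i hi))
            _ = a * ∑ i ∈ Finset.range (I.max' h + 1), 2 ^ i := (Finset.mul_sum _ _ _).symm
            _ ≤ a * 2 ^ (I.max' h + 1) :=
                Nat.mul_le_mul_left a (Nat.geomSum_lt le_rfl fun x hx => Finset.mem_range.1 hx).le
            _ ≤ 2 * n := by rw [pow_succ, ← mul_assoc]; omega
      have hgeo' : ∑ i ∈ I, ((a * 2 ^ i : ℕ) : ℝ) ≤ 2 * n := by exact_mod_cast hgeo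
      have hC : C1 * A * n ≤ lam := le_add_of_nonneg_left (Nat.cast_nonneg _)
      have h1 : C1 * A * n * (M * σ) = 1200 * (A * n) := by
        simp only [C1]; field_simp
      have h2 := mul_le_mul_of_nonneg_right hC (by positivity : (0 : ℝ) ≤ M * σ)
      calc 75 * A / (M * lam) * ∑ i ∈ I, ((a * 2 ^ i : ℕ) : ℝ) ≤ 75 * A / (M * lam) * (2 * n) :=
            mul_le_mul_of_nonneg_left hgeo' (by positivity)
        _ ≤ σ / 8 := by
            rw [div_mul_eq_mul_div, div_le_iff₀ (by positivity)]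
            linarith
    have hq : ∀ e, ENNReal.ofReal (σ / 2) ≤ ann μ (G.PFut e lam n) := by
      intro e
      have hle : ENNReal.ofReal (σ / 2) + ENNReal.ofReal (3 * σ / 8) ≤
          ann μ (G.PFut e lam n) + ENNReal.ofReal (3 * σ / 8) := by
        calc ENNReal.ofReal (σ / 2) + ENNReal.ofReal (3 * σ / 8) ≤ G.sReg μ := by
              rw [← ENNReal.ofReal_add (by positivity) (by positivity), ← hse]
              exact ENNReal.ofReal_le_ofReal (by linarith)
          _ ≤ ann μ (G.PFut e lam n) + ((ann μ (G.GapBad M a) +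
                ann μ (G.S ∩ {ξ | ∃ u, G.lv ξ u < a ∧ (l0 : ℝ) < nrm (pos ξ u)})) +
                  ann μ (⋃ i ∈ I, Big i)) :=
              (measure_mono (hcover e)).trans ((measure_union_le _ _).trans (add_le_add le_rfl
                ((measure_union_le _ _).trans (add_le_add (measure_union_le _ _) le_rfl))))
          _ ≤ _ := by
              refine add_le_add le_rfl ((add_le_add (add_le_add ha1 hl0) hsum).trans_eq ?_)
              rw [← ENNReal.ofReal_add (by positivity) (by positivity),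
                ← ENNReal.ofReal_add (by positivity) (by positivity)]
              congr 1; ring
      exact (ENNReal.add_le_add_iff_right ENNReal.ofReal_ne_top).1 hle
    refine (G.hh_le μ hlam.le (half_pos hσ) hq).trans (ENNReal.ofReal_le_ofReal ?_)
    rw [div_le_iff₀ (half_pos hσ)]
    have hMd : 9600 * (d : ℝ) ≤ M * σ ^ 2 := by
      have h := (div_le_iff₀ (by positivity)).1 (show 9600 * (d : ℝ) / σ ^ 2 ≤ M by linarith)
      linarith
    have hC1 : 2 * (d : ℝ) * C1 ≤ σ / 4 := by
      simp only [C1]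
      rw [mul_div_assoc', div_le_iff₀ (by positivity)]
      linarith
    have hA2 : 8 * (d : ℝ) * (1 + l0) ≤ A * σ := by
      simp only [A]; rw [add_mul, div_mul_cancel₀ _ hσ.ne']; linarith
    have h1 := mul_le_mul_of_nonneg_right hC1 (by positivity : (0 : ℝ) ≤ A * (n : ℝ) ^ 2)
    have h2 := mul_le_mul_of_nonneg_right hA2 (by positivity : (0 : ℝ) ≤ (n : ℝ))
    have h3 : (A * σ) * n ≤ (A * σ) * (n : ℝ) ^ 2 :=
      mul_le_mul_of_nonneg_left (le_self_pow₀ hnR two_ne_zero) (by positivity)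
    simp only [lam]
    linarith

/-- The displacement over one slab has a polynomial tail. -/
theorem exists_tailBound (_h : G.ManyReg μ) (hs : 0 < G.sReg μ) :
    ∃ C : ℝ, 0 ≤ C ∧ G.TailBound μ C := by
  obtain ⟨A, hA, hH⟩ := G.exists_hh_bound μ hs
  have hst : G.sReg μ ≠ ∞ := measure_ne_top _ _
  set σ := (G.sReg μ).toReal
  have hσ : 0 < σ := ENNReal.toReal_pos hs.ne' hst
  refine ⟨(2 + A) / σ, by positivity, fun n hn => ?_⟩
  have hnR : (1 : ℝ) ≤ n := by exact_mod_cast hn
  set B := {u : Site d | (n : ℝ) ^ 4 ≤ nrm u}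
  set T := {ξ : Steps d | ENNReal.ofReal ((n : ℝ) ^ 4) ≤ G.mx n ξ}
  have hsub : (⋃ u : B, G.Tgt 1 u) ⊆ G.Long ((n - 1 : ℕ) : ℝ) ∪ (T ∩ G.S) := by
    refine Set.iUnion_subset fun u ξ hξ => ?_
    by_cases hlev : ((n - 1 : ℕ) : ℝ) < G.lev (u : Site d)
    · exact Or.inl (G.tgt_subset_long (n - 1) u hlev hξ)
    obtain ⟨k, ⟨hk, hpk⟩, hks⟩ := Set.mem_iUnion.1 hξ
    refine Or.inr ⟨?_, G.tgt_subset_S 1 u hξ⟩
    have hb : ξ ∈ G.Below n k := by
      intro w hw
      have h1 : G.lv ξ w ≤ G.lv ξ k := by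
        rcases eq_or_lt_of_le hw with h | h
        · rw [h]
        · exact (hk.1 w h).le
      have h2 : G.lv ξ k = G.lev (u : Site d) := congrArg G.lev hpk
      have h3 : ((n - 1 : ℕ) : ℝ) = (n : ℝ) - 1 := by
        rw [Nat.cast_sub hn, Nat.cast_one]
      linarith [not_lt.1 hlev]
    refine le_trans (ENNReal.ofReal_le_ofReal ?_) (G.le_mx hb)
    have hpk' : pos ξ k = (u : Site d) := hpk
    rw [hpk']
    exact u.2
  have hlong : ann μ (G.Long ((n - 1 : ℕ) : ℝ)) ≤ ENNReal.ofReal (2 / n) := by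
    rcases eq_or_lt_of_le hn with h | h
    · refine prob_le_one.trans ?_
      rw [← h]; simp
    · have h2 : (n : ℝ) ≤ 2 * ((n - 1 : ℕ) : ℝ) := by
        exact_mod_cast (by omega : n ≤ 2 * (n - 1))
      have hpos : (0 : ℝ) < ((n - 1 : ℕ) : ℝ) := by exact_mod_cast (by omega : 0 < n - 1)
      calc ann μ (G.Long ((n - 1 : ℕ) : ℝ)) ≤ ENNReal.ofReal (1 / ((n - 1 : ℕ) : ℝ)) := by
            rw [ENNReal.ofReal_div_of_pos hpos, ENNReal.ofReal_one, ENNReal.ofReal_natCast,
              ENNReal.le_div_iff_mul_le (Or.inl (Nat.cast_ne_zero.2 (by omega)))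
                (Or.inl (ENNReal.natCast_ne_top _)), mul_comm]
            exact G.mul_long_le μ hs (n - 1)
        _ ≤ _ := by
            refine ENNReal.ofReal_le_ofReal ?_
            rw [div_le_div_iff₀ hpos (by positivity)]
            linarith
  have hmax : ann μ (T ∩ G.S) ≤ ENNReal.ofReal (A / n) := by
    have h1 := mul_meas_ge_le_lintegral (μ := (ann μ).restrict G.S) (G.measurable_mx n)
      (ENNReal.ofReal ((n : ℝ) ^ 4))
    rw [Measure.restrict_apply' G.measurableSet_S] at h1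
    have h2 : ENNReal.ofReal ((n : ℝ) ^ 4) * ann μ (T ∩ G.S) ≤ ENNReal.ofReal (A * (n : ℝ) ^ 2) :=
      h1.trans (hH n hn)
    rw [mul_comm, ← ENNReal.le_div_iff_mul_le
      (Or.inl (ENNReal.ofReal_pos.2 (by positivity)).ne') (Or.inl ENNReal.ofReal_ne_top),
      ← ENNReal.ofReal_div_of_pos (by positivity)] at h2
    refine h2.trans (ENNReal.ofReal_le_ofReal ?_)
    rw [div_le_div_iff₀ (by positivity) (by positivity)]
    have h3 : (n : ℝ) ^ 3 ≤ (n : ℝ) ^ 4 := pow_le_pow_right₀ hnR (by norm_num)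
    linarith [mul_le_mul_of_nonneg_left h3 hA]
  have key : (∑' u : B, G.disp μ 1 u) * G.sReg μ ≤ ENNReal.ofReal ((2 + A) / n) := by
    rw [← ENNReal.tsum_mul_right]
    calc ∑' u : B, G.disp μ 1 u * G.sReg μ = ann μ (⋃ u : B, G.Tgt 1 u) := by
          have hd : Pairwise (Function.onFun Disjoint fun u : B => G.Tgt 1 (u : Site d)) := fun u v huv =>
            G.tgt_disjoint 1 fun h => huv (Subtype.ext h)
          rw [measure_iUnion hd fun u => G.measurableSet_Tgt 1 _]
          exact tsum_congr fun u => (G.ann_tgt μ 1 u).symm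
      _ ≤ _ := (measure_mono hsub).trans ((measure_union_le _ _).trans (add_le_add hlong hmax))
      _ = _ := by rw [← ENNReal.ofReal_add (by positivity) (by positivity), ← add_div]
  rw [← ENNReal.le_div_iff_mul_le (Or.inl hs.ne') (Or.inl hst)] at key
  refine key.trans_eq ?_
  rw [← ENNReal.ofReal_toReal hst, ← ENNReal.ofReal_div_of_pos hσ, div_right_comm]

end Geo

end Vale.Agent.P147
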