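import Vale.Agent.P147.Defs
import Vale.Agent.P147.Cyl

/-!
# P147: quenched and annealed laws of the step sequence
-/

open MeasureTheory Filter ProbabilityTheory
open scoped ENNReal

namespace Vale.Agent.P147

open Cyl

variable {d : ℕ} [NeZero d]

/-- Step sequences. -/
abbrev Steps (d : ℕ) : Type := ℕ → Dir d

/-- A good row: strictly positive probabilities with sum one. -/
def GoodRow (p : Dir d → ℝ) : Prop := (∀ e, 0 < p e) ∧ ∑ e, p e = 1

/-- The hypotheses on the one-site law. -/
class Law (μ : Measure (Dir d → ℝ)) : Prop where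
  prob : IsProbabilityMeasure μ
  good : ∀ᵐ p ∂μ, (∀ e, 0 < p e) ∧ ∑ e, p e = 1

instance Law.isProb (μ : Measure (Dir d → ℝ)) [Law μ] : IsProbabilityMeasure μ := Law.prob

/-- Position after `n` steps, relative to the start. -/
def pos (ξ : Steps d) (n : ℕ) : Site d := ∑ i ∈ Finset.range n, vec (ξ i)

omit [NeZero d] in
@[simp] lemma pos_zero (ξ : Steps d) : pos ξ 0 = 0 := by simp [pos]

omit [NeZero d] in
lemma pos_succ (ξ : Steps d) (n : ℕ) : pos ξ (n + 1) = pos ξ n + vec (ξ n) := by
  simp [pos, Finset.sum_range_succ]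

omit [NeZero d] in
lemma pos_congr {ξ η : Steps d} {n : ℕ} (h : ∀ i < n, η i = ξ i) : pos η n = pos ξ n :=
  Finset.sum_congr rfl fun i hi => by rw [h i (Finset.mem_range.1 hi)]

omit [NeZero d] in
lemma pos_cyl {ξ η : Steps d} {n k : ℕ} (hk : k ≤ n) (h : η ∈ cyl n ξ) : pos η k = pos ξ k :=
  pos_congr fun i hi => h i (lt_of_lt_of_le hi hk)

/-- The shift of a step sequence. -/
def shift (n : ℕ) (ξ : Steps d) : Steps d := fun i => ξ (n + i)

omit [NeZero d] in
lemma measurable_shift (n : ℕ) : Measurable (shift (d := d) n) :=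
  measurable_pi_lambda _ fun _ => measurable_pi_apply _

omit [NeZero d] in
lemma pos_add (ξ : Steps d) (n k : ℕ) : pos ξ (n + k) = pos ξ n + pos (shift n ξ) k := by
  simp [pos, shift, Finset.sum_range_add]

/-- The steps of the walk. -/
noncomputable def stepsOf (ω : Env d) (x : Site d) (u : ℕ → unitInterval) : Steps d :=
  fun n => pick (ω (walk ω x u n)) (u n : ℝ)

lemma walk_eq (ω : Env d) (x : Site d) (u : ℕ → unitInterval) (n : ℕ) :
    walk ω x u n = x + pos (stepsOf ω x u) n := by
  induction n with
  | zero => simp [walk]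
  | succ n ih => rw [pos_succ, ← add_assoc, ← ih]; rfl

lemma stepsOf_apply (ω : Env d) (x : Site d) (u : ℕ → unitInterval) (n : ℕ) :
    stepsOf ω x u n = pick (ω (x + pos (stepsOf ω x u) n)) (u n : ℝ) := by
  rw [← walk_eq]; rfl

/-! ### Choosing a step -/

/-- The number of steps. -/
abbrev nDir (d : ℕ) : ℕ := Fintype.card (Dir d)

lemma enum_equiv (e : Dir d) : enum ((Fintype.equivFin (Dir d)) e : ℕ) = e := by
  rw [enum, dif_pos ((Fintype.equivFin (Dir d)) e).2]
  exact (Fintype.equivFin (Dir d)).symm_apply_apply e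

lemma sum_enum (p : Dir d → ℝ) : cum p (nDir d) = ∑ e, p e := by
  rw [cum, Finset.sum_range fun i => p (enum i)]
  refine Fintype.sum_equiv (Fintype.equivFin (Dir d)).symm _ _ fun k => ?_
  rw [enum, dif_pos k.2]

lemma cum_mono {p : Dir d → ℝ} (hp : GoodRow p) : Monotone (cum p) := fun _ _ h =>
  Finset.sum_le_sum_of_subset_of_nonneg (Finset.range_subset_range.2 h) fun _ _ _ => (hp.1 _).le

lemma cum_succ (p : Dir d → ℝ) (k : ℕ) : cum p (k + 1) = cum p k + p (enum k) := by
  simp [cum, Finset.sum_range_succ]

lemma pick_of_mem {p : Dir d → ℝ} (hp : GoodRow p) {k : ℕ} (hk : k < nDir d) {u : ℝ}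
    (h1 : cum p k ≤ u) (h2 : u < cum p (k + 1)) : pick p u = enum k := by
  have : ((Finset.range (nDir d)).filter fun i => cum p (i + 1) ≤ u) = Finset.range k := by
    ext i
    simp only [Finset.mem_filter, Finset.mem_range]
    constructor
    · rintro ⟨_, hi⟩
      by_contra hc
      exact absurd (le_trans (cum_mono hp (by omega : k + 1 ≤ i + 1)) hi) (not_le.2 h2)
    · intro hi
      exact ⟨lt_trans hi hk, le_trans (cum_mono hp (by omega : i + 1 ≤ k)) h1⟩
  simp only [pick]
  rw [this, Finset.card_range]

lemma exists_index {p : Dir d → ℝ} (hp : GoodRow p) {u : ℝ} (h0 : 0 ≤ u) (h1 : u < 1) :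
    ∃ k < nDir d, cum p k ≤ u ∧ u < cum p (k + 1) := by
  classical
  have hN : u < cum p (nDir d) := by rw [sum_enum, hp.2]; exact h1
  have hex : ∃ k, u < cum p k := ⟨_, hN⟩
  have hpos : Nat.find hex ≠ 0 := by
    intro h
    have := Nat.find_spec hex
    rw [h] at this
    simp [cum] at this
    linarith
  obtain ⟨k, hk⟩ := Nat.exists_eq_succ_of_ne_zero hpos
  refine ⟨k, ?_, not_lt.1 (Nat.find_min hex (by omega)), by simpa [hk] using Nat.find_spec hex⟩
  have := Nat.find_min' hex hN
  omega

lemma volume_pick_eq {p : Dir d → ℝ} (hp : GoodRow p) (e : Dir d) :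
    (volume : Measure unitInterval) {u | pick p (u : ℝ) = e} = ENNReal.ofReal (p e) := by
  set k : ℕ := ((Fintype.equivFin (Dir d)) e : ℕ) with hkdef
  have hk : k < nDir d := ((Fintype.equivFin (Dir d)) e).2
  have he : enum k = e := enum_equiv e
  have hc0 : 0 ≤ cum p k := Finset.sum_nonneg fun i _ => (hp.1 _).le
  have hc1 : cum p (k + 1) ≤ 1 := by
    calc cum p (k + 1) ≤ cum p (nDir d) := cum_mono hp hk
      _ = 1 := by rw [sum_enum, hp.2]
  have hs := cum_succ p k
  rw [he] at hs
  have ha : cum p k ∈ Set.Icc (0 : ℝ) 1 := ⟨hc0, by linarith [hp.1 e]⟩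
  have hb : cum p (k + 1) ∈ Set.Icc (0 : ℝ) 1 := ⟨by linarith [hp.1 e], hc1⟩
  let a : unitInterval := ⟨cum p k, ha⟩
  let b : unitInterval := ⟨cum p (k + 1), hb⟩
  have hne : ∀ᵐ u : unitInterval, u ≠ (1 : unitInterval) := by
    rw [ae_iff]; simp
  have : ({u : unitInterval | pick p (u : ℝ) = e} : Set unitInterval) =ᵐ[volume] Set.Ico a b := by
    filter_upwards [hne] with u hu
    have hu1 : (u : ℝ) < 1 := lt_of_le_of_ne u.2.2 fun h => hu (Subtype.ext h)
    obtain ⟨j, hj, hj1, hj2⟩ := exists_index hp u.2.1 hu1
    have hpk := pick_of_mem hp hj hj1 hj2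
    apply propext
    constructor
    · intro h
      have hjk : j = k := by
        have h' : enum (d := d) j = enum k := by rw [he, ← hpk]; exact h
        simp only [enum, dif_pos hj, dif_pos hk, EmbeddingLike.apply_eq_iff_eq, Fin.mk.injEq] at h'
        exact h'
      subst hjk
      exact ⟨hj1, hj2⟩
    · rintro ⟨h1, h2⟩
      show pick p (u : ℝ) = e
      rw [pick_of_mem hp hk h1 h2, he]
  rw [measure_congr this, unitInterval.volume_Ico]
  congr 1
  show cum p (k + 1) - cum p k = p e
  linarith

lemma measurable_enum : Measurable (enum (d := d)) := measurable_of_countable _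

lemma measurable_pick : Measurable fun z : (Dir d → ℝ) × ℝ => pick z.1 z.2 := by
  have h1 : Measurable fun z : (Dir d → ℝ) × ℝ =>
      ((Finset.range (Fintype.card (Dir d))).filter fun k => cum z.1 (k + 1) ≤ z.2).card := by
    simp only [Finset.card_filter]
    refine Finset.measurable_sum _ fun k _ => ?_
    refine Measurable.ite ?_ measurable_const measurable_const
    refine measurableSet_le ?_ measurable_snd
    exact Finset.measurable_sum _ fun i _ => (measurable_pi_apply _).comp measurable_fst
  exact Measurable.fun_comp (measurable_enum (d := d)) h1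

omit [NeZero d] in
lemma measurable_env_apply : Measurable fun z : Env d × Site d => z.1 z.2 :=
  measurable_from_prod_countable_left fun x => measurable_pi_apply x

lemma measurable_pick_comp {γ : Type*} [MeasurableSpace γ] {f : γ → Env d} {g : γ → Site d}
    {h : γ → ℝ} (hf : Measurable f) (hg : Measurable g) (hh : Measurable h) :
    Measurable fun z => pick (f z (g z)) (h z) := by
  have h2 : Measurable fun z => f z (g z) :=
    Measurable.fun_comp (measurable_env_apply (d := d)) (hf.prodMk hg)
  have h3 := Measurable.fun_comp (measurable_pick (d := d)) (h2.prodMk hh)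
  exact h3

/-- The parameters of a walk. -/
abbrev Inp (d : ℕ) : Type := (Env d × Site d) × (ℕ → unitInterval)

omit [NeZero d] in
lemma measurable_unif (n : ℕ) : Measurable fun z : Inp d => (z.2 n : ℝ) :=
  measurable_subtype_coe.comp ((measurable_pi_apply n).comp measurable_snd)

omit [NeZero d] in
lemma measurable_env : Measurable fun z : Inp d => z.1.1 :=
  measurable_fst.comp measurable_fst

lemma measurable_walk (n : ℕ) : Measurable fun z : Inp d => walk z.1.1 z.1.2 z.2 n := by
  induction n with
  | zero => exact measurable_snd.comp measurable_fst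
  | succ n ih =>
    have h1 : Measurable fun z : Inp d =>
        vec (pick (z.1.1 (walk z.1.1 z.1.2 z.2 n)) (z.2 n : ℝ)) :=
      (measurable_of_countable (vec (d := d))).comp
        (measurable_pick_comp measurable_env ih (measurable_unif n))
    exact ih.add h1

lemma measurable_stepsOf : Measurable fun z : Inp d => stepsOf z.1.1 z.1.2 z.2 :=
  measurable_pi_lambda _ fun n =>
    measurable_pick_comp measurable_env (measurable_walk n) (measurable_unif n)

lemma measurable_stepsOf_snd (ω : Env d) (x : Site d) : Measurable (stepsOf ω x) := by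
  have h : Measurable fun u : ℕ → unitInterval => (((ω, x), u) : Inp d) :=
    measurable_const.prodMk measurable_id
  have h' := Measurable.fun_comp (measurable_stepsOf (d := d)) h
  exact h' 

lemma measurable_stepsOf_env (x : Site d) :
    Measurable fun z : Env d × (ℕ → unitInterval) => stepsOf z.1 x z.2 := by
  have h : Measurable fun z : Env d × (ℕ → unitInterval) => (((z.1, x), z.2) : Inp d) :=
    (measurable_fst.prodMk measurable_const).prodMk measurable_snd
  have h' := Measurable.fun_comp (measurable_stepsOf (d := d)) h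
  exact h' 

instance : IsProbabilityMeasure uniform := by unfold uniform; infer_instance

/-- The quenched law of the step sequence. -/
noncomputable def quen (ω : Env d) (x : Site d) : Measure (Steps d) := uniform.map (stepsOf ω x)

instance (ω : Env d) (x : Site d) : IsProbabilityMeasure (quen ω x) :=
  Measure.isProbabilityMeasure_map (measurable_stepsOf_snd ω x).aemeasurable

lemma measurable_quen (x : Site d) {E : Set (Steps d)} (hE : MeasurableSet E) :
    Measurable fun ω => quen ω x E := by
  have : (fun ω => quen ω x E) = fun ω => uniform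
      (Prod.mk ω ⁻¹' ((fun z : Env d × (ℕ → unitInterval) => stepsOf z.1 x z.2) ⁻¹' E)) := by
    funext ω
    rw [quen, Measure.map_apply (measurable_stepsOf_snd ω x) hE]
    rfl
  rw [this]
  exact measurable_measure_prodMk_left (measurable_stepsOf_env x hE)

/-- The weight of the first `n` steps of `ξ` from `x`. -/
noncomputable def wt (ω : Env d) (x : Site d) (n : ℕ) (ξ : Steps d) : ℝ≥0∞ :=
  ∏ i ∈ Finset.range n, ENNReal.ofReal (ω (x + pos ξ i) (ξ i))

omit [NeZero d] in
lemma measurable_wt (x : Site d) (n : ℕ) (ξ : Steps d) : Measurable fun ω => wt ω x n ξ :=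
  Finset.measurable_prod _ fun _ _ => ENNReal.measurable_ofReal.comp
    ((measurable_pi_apply _).comp (measurable_pi_apply _))

omit [NeZero d] in
lemma wt_add (ω : Env d) (x : Site d) (n k : ℕ) (ξ : Steps d) :
    wt ω x (n + k) ξ = wt ω x n ξ * wt ω (x + pos ξ n) k (shift n ξ) := by
  simp only [wt, Finset.prod_range_add, add_assoc]
  congr 1
  refine Finset.prod_congr rfl fun i _ => ?_
  rw [pos_add]; rfl

omit [NeZero d] in
lemma wt_congr (ω : Env d) (x : Site d) {n : ℕ} {ξ η : Steps d} (h : η ∈ cyl n ξ) :
    wt ω x n η = wt ω x n ξ := by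
  refine Finset.prod_congr rfl fun i hi => ?_
  rw [pos_cyl (Finset.mem_range.1 hi).le h, h i (Finset.mem_range.1 hi)]

/-- A good environment. -/
def GoodEnv (ω : Env d) : Prop := ∀ x, GoodRow (ω x)

lemma quen_cyl {ω : Env d} (hω : GoodEnv ω) (x : Site d) (n : ℕ) (ξ : Steps d) :
    quen ω x (cyl n ξ) = wt ω x n ξ := by
  rw [quen, Measure.map_apply (measurable_stepsOf_snd ω x) (measurableSet_cyl n ξ)]
  have hset : stepsOf ω x ⁻¹' cyl n ξ = Set.pi (Finset.range n : Set ℕ)
      (fun i => {v : unitInterval | pick (ω (x + pos ξ i)) (v : ℝ) = ξ i}) := by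
    ext u
    simp only [Set.mem_preimage, mem_cyl, Set.mem_pi, Finset.coe_range, Set.mem_Iio,
      Set.mem_ofPred_eq]
    constructor
    · intro h i hi
      rw [← h i hi, stepsOf_apply]
      rw [pos_congr (ξ := stepsOf ω x u) (η := ξ) fun j hj => (h j (lt_trans hj hi)).symm]
    · intro h i
      induction i using Nat.strong_induction_on with
      | _ i ih =>
        intro hi
        rw [stepsOf_apply, pos_congr (ξ := ξ) (η := stepsOf ω x u)
          fun j hj => ih j hj (lt_trans hj hi)]
        exact h i hi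
  rw [hset, uniform, Measure.infinitePi_pi]
  · exact Finset.prod_congr rfl fun i _ => volume_pick_eq (hω _) _
  · intro i _
    exact (measurable_pick.comp (measurable_const.prodMk measurable_subtype_coe))
      (measurableSet_singleton (ξ i))

omit [NeZero d] in
lemma shift_preimage_cyl_inter {n k : ℕ} (ξ η : Steps d) :
    cyl n ξ ∩ shift n ⁻¹' cyl k η = cyl (n + k) (fun i => if i < n then ξ i else η (i - n)) := by
  ext θ
  simp only [Set.mem_inter_iff, mem_cyl, Set.mem_preimage, shift]
  constructor
  · rintro ⟨h1, h2⟩ i hi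
    split_ifs with hin
    · exact h1 i hin
    · have := h2 (i - n) (by omega)
      rwa [Nat.add_sub_cancel' (by omega : n ≤ i)] at this
  · intro h
    refine ⟨fun i hi => by simpa [hi] using h i (by omega), fun i hi => ?_⟩
    simpa [show ¬ n + i < n by omega] using h (n + i) (by omega)

/-- The Markov property at a fixed time. -/
lemma quen_markov {ω : Env d} (hω : GoodEnv ω) (x : Site d) (n : ℕ) (ξ : Steps d)
    {E : Set (Steps d)} (hE : MeasurableSet E) :
    quen ω x (cyl n ξ ∩ shift n ⁻¹' E) = wt ω x n ξ * quen ω (x + pos ξ n) E := by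
  have key : ((quen ω x).restrict (cyl n ξ)).map (shift n)
      = wt ω x n ξ • quen ω (x + pos ξ n) := by
    refine ext_of_cyl fun k η => ?_
    rw [Measure.map_apply (measurable_shift n) (measurableSet_cyl k η),
      Measure.restrict_apply (measurable_shift n (measurableSet_cyl k η)), Set.inter_comm,
      shift_preimage_cyl_inter, quen_cyl hω, Measure.smul_apply, smul_eq_mul, quen_cyl hω, wt_add]
    set θ : Steps d := fun i => if i < n then ξ i else η (i - n)
    have h1 : θ ∈ cyl n ξ := fun i hi => by simp [θ, hi]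
    have h2 : shift n θ ∈ cyl k η := fun i _ => by simp [θ, shift]
    rw [wt_congr ω x h1, pos_cyl le_rfl h1, wt_congr ω _ h2]
  have := congrArg (fun m : Measure (Steps d) => m E) key
  simp only [Measure.smul_apply, smul_eq_mul] at this
  rw [Measure.map_apply (measurable_shift n) hE,
    Measure.restrict_apply (measurable_shift n hE), Set.inter_comm] at this
  exact this

/-! ### The environment -/

variable (μ : Measure (Dir d → ℝ)) [Law μ]

instance : IsProbabilityMeasure (envLaw μ) := by unfold envLaw; infer_instance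

omit [NeZero d] in
lemma ae_goodEnv : ∀ᵐ ω ∂envLaw μ, GoodEnv ω := by
  refine ae_all_iff.2 fun x => ?_
  exact (measurePreserving_eval_infinitePi (fun _ : Site d => μ) x).quasiMeasurePreserving.ae
    (Law.good (μ := μ))

omit [NeZero d] in
/-- Translation of environments. -/
def shiftEnv (a : Site d) (ω : Env d) : Env d := fun x => ω (x + a)

omit [NeZero d] in
lemma map_shiftEnv (a : Site d) : (envLaw μ).map (shiftEnv a) = envLaw μ := by
  have hinj : Function.Injective fun x : Site d => x + a := fun _ _ h => add_right_cancel h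
  have h := Measure.map_infinitePi_infinitePi_of_inj (P := fun _ : Site d => μ) hinj
  unfold envLaw
  exact h

omit [NeZero d] in
lemma measurable_shiftEnv (a : Site d) : Measurable (shiftEnv (d := d) a) :=
  measurable_pi_lambda _ fun _ => measurable_pi_apply _

omit [Law μ] in
lemma stepsOf_shiftEnv (a x : Site d) (ω : Env d) (u : ℕ → unitInterval) :
    stepsOf (shiftEnv a ω) x u = stepsOf ω (x + a) u := by
  have : ∀ n, walk (shiftEnv a ω) x u n + a = walk ω (x + a) u n := by
    intro n
    induction n with
    | zero => rfl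
    | succ n ih => simp only [walk]; rw [← ih]; simp only [shiftEnv]; abel
  funext n
  simp only [stepsOf, shiftEnv, this]

omit [Law μ] in
lemma quen_shiftEnv (a x : Site d) (ω : Env d) : quen (shiftEnv a ω) x = quen ω (x + a) := by
  simp only [quen]
  congr 1
  funext u
  exact stepsOf_shiftEnv a x ω u

/-- The annealed law of the step sequence. -/
noncomputable def ann : Measure (Steps d) :=
  ((envLaw μ).prod uniform).map fun z => stepsOf z.1 0 z.2

instance : IsProbabilityMeasure (ann μ) :=
  Measure.isProbabilityMeasure_map (measurable_stepsOf_env 0).aemeasurable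

lemma lintegral_quen (x : Site d) {E : Set (Steps d)} (hE : MeasurableSet E) :
    ∫⁻ ω, quen ω x E ∂envLaw μ = ann μ E := by
  have h0 : ∫⁻ ω, quen ω 0 E ∂envLaw μ = ann μ E := by
    rw [ann, Measure.map_apply (measurable_stepsOf_env 0) hE,
      Measure.prod_apply (measurable_stepsOf_env 0 hE)]
    refine lintegral_congr fun ω => ?_
    rw [quen, Measure.map_apply (measurable_stepsOf_snd ω 0) hE]
    rfl
  rw [← h0]
  conv_rhs => rw [← map_shiftEnv μ x, lintegral_map (measurable_quen 0 hE) (measurable_shiftEnv x)]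
  simp [quen_shiftEnv]

lemma ann_cyl (x : Site d) (n : ℕ) (ξ : Steps d) :
    ann μ (cyl n ξ) = ∫⁻ ω, wt ω x n ξ ∂envLaw μ := by
  rw [← lintegral_quen μ x (measurableSet_cyl n ξ)]
  exact lintegral_congr_ae ((ae_goodEnv μ).mono fun ω hω => quen_cyl hω x n ξ)

/-! ### Independence over disjoint sets of sites -/

omit [NeZero d] in
lemma lintegral_mul_of_disjoint (S T : Finset (Site d)) (hST : Disjoint S T)
    {F : (S → Dir d → ℝ) → ℝ≥0∞} {G : (T → Dir d → ℝ) → ℝ≥0∞}
    (hF : Measurable F) (hG : Measurable G) :
    ∫⁻ ω, F (fun s => ω s) * G (fun t => ω t) ∂envLaw μ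
      = (∫⁻ ω, F (fun s => ω s) ∂envLaw μ) * ∫⁻ ω, G (fun t => ω t) ∂envLaw μ := by
  have hind : iIndepFun (fun (x : Site d) (ω : Env d) => ω x) (envLaw μ) :=
    iIndepFun_infinitePi (P := fun _ : Site d => μ) (X := fun _ p => p) fun _ => measurable_id
  have h := (hind.indepFun_finset S T hST fun _ => measurable_pi_apply _).comp hF hG
  exact lintegral_mul_eq_lintegral_mul_lintegral_of_indepFun
    (hF.comp (measurable_pi_lambda _ fun _ => measurable_pi_apply _))
    (hG.comp (measurable_pi_lambda _ fun _ => measurable_pi_apply _)) h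

/-- The sites whose rows are used by the first `n` steps. -/
noncomputable def rows (x : Site d) (n : ℕ) (ξ : Steps d) : Finset (Site d) :=
  (Finset.range n).image fun i => x + pos ξ i

omit [NeZero d] in
lemma mem_rows {x z : Site d} {n : ℕ} {ξ : Steps d} :
    z ∈ rows x n ξ ↔ ∃ i < n, x + pos ξ i = z := by
  simp [rows]

/-- The weight as a function of the rows it uses. -/
noncomputable def wtR (x : Site d) (n : ℕ) (ξ : Steps d) (ρ : rows x n ξ → Dir d → ℝ) : ℝ≥0∞ :=
  ∏ i ∈ (Finset.range n).attach,
    ENNReal.ofReal (ρ ⟨x + pos ξ i.1, mem_rows.2 ⟨i.1, Finset.mem_range.1 i.2, rfl⟩⟩ (ξ i.1))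

omit [NeZero d] in
lemma wtR_eq (ω : Env d) (x : Site d) (n : ℕ) (ξ : Steps d) :
    wtR x n ξ (fun s => ω s) = wt ω x n ξ := by
  rw [wtR, wt]
  exact Finset.prod_attach (Finset.range n) fun i => ENNReal.ofReal (ω (x + pos ξ i) (ξ i))

omit [NeZero d] in
lemma measurable_wtR (x : Site d) (n : ℕ) (ξ : Steps d) : Measurable (wtR x n ξ) :=
  Finset.measurable_prod _ fun _ _ => ENNReal.measurable_ofReal.comp
    ((measurable_pi_apply _).comp (measurable_pi_apply _))

lemma lintegral_wt_mul (x y : Site d) (n k : ℕ) (ξ η : Steps d)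
    (h : Disjoint (rows x n ξ) (rows y k η)) :
    ∫⁻ ω, wt ω x n ξ * wt ω y k η ∂envLaw μ = ann μ (cyl n ξ) * ann μ (cyl k η) := by
  have := lintegral_mul_of_disjoint μ _ _ h (measurable_wtR x n ξ) (measurable_wtR y k η)
  simp only [wtR_eq] at this
  rw [this, ann_cyl μ x, ann_cyl μ y]

/-- Trajectories from `y` that never stand on a row used by the first `n` steps of `ξ` from `x`. -/
def Avoid (x : Site d) (n : ℕ) (ξ : Steps d) (y : Site d) : Set (Steps d) :=
  {η | ∀ j, y + pos η j ∉ rows x n ξ}

/-- A finite path and a walk that avoids its rows: the same environment and independent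
environments give the same law. -/
theorem lintegral_wt_mul_quen (x : Site d) (n : ℕ) (ξ : Steps d) (y : Site d)
    {F : Set (Steps d)} (hF : MeasurableSet F) (hsub : F ⊆ Avoid x n ξ y) :
    ∫⁻ ω, wt ω x n ξ * quen ω y F ∂envLaw μ = ann μ (cyl n ξ) * ann μ F := by
  classical
  set ν : Measure (Steps d) := (((envLaw μ).withDensity fun ω => wt ω x n ξ).prod uniform).map
    fun z => stepsOf z.1 y z.2 with hν
  have hval : ∀ E, MeasurableSet E → ν E = ∫⁻ ω, wt ω x n ξ * quen ω y E ∂envLaw μ := by
    intro E hE
    rw [hν, Measure.map_apply (measurable_stepsOf_env y) hE,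
      Measure.prod_apply (measurable_stepsOf_env y hE),
      lintegral_withDensity_eq_lintegral_mul _ (measurable_wt x n ξ)
        (measurable_measure_prodMk_left (measurable_stepsOf_env y hE))]
    refine lintegral_congr fun ω => ?_
    rw [Pi.mul_apply, quen, Measure.map_apply (measurable_stepsOf_snd ω y) hE]
    rfl
  have hfin : IsFiniteMeasure ν := by
    refine ⟨?_⟩
    rw [hval _ MeasurableSet.univ]
    simp only [measure_univ, mul_one, ← ann_cyl μ x n ξ]
    exact measure_lt_top _ _
  have hfin2 : IsFiniteMeasure (ann μ (cyl n ξ) • ann μ) := by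
    refine ⟨?_⟩
    simp [Measure.smul_apply, measure_lt_top]
  have key : ν F = (ann μ (cyl n ξ) • ann μ) F := by
    refine eqOn_iInter (fun k => {η | ∀ j < k, y + pos η j ∉ rows x n ξ}) ?_ ?_ ?_ hF ?_
    · intro k a b hab ha j hj
      rw [pos_congr fun i hi => hab i (lt_trans hi hj)]
      exact ha j hj
    · exact fun a b hab η hη j hj => hη j (lt_of_lt_of_le hj hab)
    · intro k η hη
      rw [hval _ (measurableSet_cyl k η), Measure.smul_apply, smul_eq_mul,
        ← lintegral_wt_mul μ x y n k ξ η]
      · exact lintegral_congr_ae ((ae_goodEnv μ).mono fun ω hω => by simp only [quen_cyl hω])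
      · rw [Finset.disjoint_right]
        intro z hz
        obtain ⟨j, hj, rfl⟩ := mem_rows.1 hz
        exact hη j hj
    · exact fun η hη => Set.mem_iInter.2 fun k j _ => hsub hη j
  rw [← hval F hF, key, Measure.smul_apply, smul_eq_mul]

/-- Splitting the annealed law at a fixed time when the future avoids the rows of the past. -/
theorem ann_split (n : ℕ) (ξ : Steps d) {F : Set (Steps d)} (hF : MeasurableSet F)
    (hsub : F ⊆ Avoid 0 n ξ (pos ξ n)) :
    ann μ (cyl n ξ ∩ shift n ⁻¹' F) = ann μ (cyl n ξ) * ann μ F := by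
  rw [← lintegral_wt_mul_quen μ 0 n ξ (pos ξ n) hF hsub,
    ← lintegral_quen μ 0 ((measurableSet_cyl n ξ).inter (measurable_shift n hF))]
  refine lintegral_congr_ae ((ae_goodEnv μ).mono fun ω hω => ?_)
  simp only
  rw [quen_markov hω 0 n ξ hF, zero_add]

lemma ann_cyl_pos (n : ℕ) (ξ : Steps d) : 0 < ann μ (cyl n ξ) := by
  rw [ann_cyl μ 0, lintegral_pos_iff_support (measurable_wt 0 n ξ)]
  refine pos_iff_ne_zero.2 fun h => ?_
  have h2 : ∀ᵐ ω ∂envLaw μ, False := by
    filter_upwards [measure_eq_zero_iff_ae_notMem.1 h, ae_goodEnv μ] with ω h1 hω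
    refine h1 (Function.mem_support.2 (Finset.prod_ne_zero_iff.2 fun i _ => ?_))
    simpa using (hω _).1 _
  exact (IsProbabilityMeasure.ne_zero (envLaw μ)) (by simpa using h2)

/-- The split at a fixed time of an event decided by then, when the future avoids the rows of the past. -/
theorem ann_split_decided {n : ℕ} {A : Set (Steps d)} (hA : Decided n A) {F : Set (Steps d)}
    (hF : MeasurableSet F) (hsub : ∀ ξ ∈ A, F ⊆ Avoid 0 n ξ (pos ξ n)) :
    ann μ (A ∩ shift n ⁻¹' F) = ann μ A * ann μ F := by
  rw [hA.measure_inter _ (measurable_shift n hF), hA.measure_eq, Finset.sum_mul]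
  refine Finset.sum_congr rfl fun w hw => ann_split μ n _ hF (hsub _ ?_)
  simpa [wordsIn] using hw

/-- The quenched Markov property at a time `n`, integrated over an event decided by then. -/
theorem quen_markov_int {ω : Env d} (hω : GoodEnv ω) (x : Site d) {n : ℕ} {A : Set (Steps d)}
    (hA : Decided n A) (E : Site d → Set (Steps d)) (hE : ∀ z, MeasurableSet (E z)) :
    quen ω x (A ∩ {ξ | shift n ξ ∈ E (x + pos ξ n)}) =
      ∫⁻ ξ in A, quen ω (x + pos ξ n) (E (x + pos ξ n)) ∂quen ω x := by
  have hm : MeasurableSet {ξ : Steps d | shift n ξ ∈ E (x + pos ξ n)} := by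
    have : {ξ : Steps d | shift n ξ ∈ E (x + pos ξ n)} =
        ⋃ z : Site d, {ξ | pos ξ n = z} ∩ shift n ⁻¹' E (x + z) := by
      ext ξ; simp
    rw [this]
    refine .iUnion fun z => MeasurableSet.inter ?_ (measurable_shift n (hE _))
    have hd : Decided n {ξ : Steps d | pos ξ n = z} :=
      fun ξ η h h1 => (pos_congr h).trans h1
    exact hd.measurableSet
  rw [hA.measure_inter _ hm, lintegral_prefix n (quen ω x)
    (F := fun ξ => quen ω (x + pos ξ n) (E (x + pos ξ n)))
    (fun ξ η h => by simp only [pos_congr h]) A]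
  classical
  rw [wordsIn, Finset.sum_filter]
  refine Finset.sum_congr rfl fun w _ => ?_
  split_ifs with hw
  · rw [Set.inter_eq_left.2 (hA.cyl_subset hw), quen_cyl hω, mul_comm,
      ← quen_markov hω x n (ext w) (hE _)]
    refine congrArg _ (Set.ext fun ξ => and_congr_right fun hξ => ?_)
    simp [pos_congr hξ]
  · rw [Set.disjoint_iff_inter_eq_empty.1 ?_, measure_empty, mul_zero]
    exact Set.disjoint_left.2 fun ξ h1 h2 => hw (hA ξ _ (fun i hi => (h1 i hi).symm) h2)

omit [Law μ] in
lemma annealed_eq [Law μ] :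
    annealed μ = (ann μ).map fun ξ n => pos ξ n := by
  rw [annealed, ann, Measure.map_map (measurable_pi_lambda _ fun n => ?_) (measurable_stepsOf_env 0)]
  · congr 1
    funext z n
    simp [walk_eq]
  · exact Finset.measurable_sum _ fun i _ =>
      (measurable_of_countable (vec (d := d))).fun_comp (measurable_pi_apply i)

end Vale.Agent.P147
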