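import Vale.Agent.P147.Regen
import Vale.Agent.P147.Entropy

/-!
# P147: growth of the entropy of the slab displacements and its refinement at a first passage

The entropy of the displacement increases with the number of slabs. The surprise of the position of a later
regeneration, given the walk up to a first passage that precedes regeneration `k0`, is at least the entropy
of the displacement over the slabs after `k0`, up to the mass of an exceptional set of displacements.
-/

open MeasureTheory Filter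
open scoped ENNReal

namespace Vale.Agent.P147.Geo

open Cyl

variable {d : ℕ} (G : Geo d)

lemma tgt_subset_esc (K : ℕ) (x : Site d) : G.Tgt K x ⊆ G.Esc :=
  (G.tgt_subset_S K x).trans G.S_subset_Esc

/-- `a` slabs to the site `y`, then `b` slabs with displacement `v`: `a + b` slabs to `y + v`. -/
lemma mem_tgt_add {a b n : ℕ} {y v : Site d} {ξ : Steps d}
    (hξ : ξ ∈ (G.AtReg a n ∩ {ξ | pos ξ n = y}) ∩ shift n ⁻¹' G.Tgt b v) :
    ξ ∈ G.Tgt (a + b) (y + v) := by
  obtain ⟨⟨hn, hu⟩, hsh⟩ := hξ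
  obtain ⟨m, ⟨hm, hpm⟩, hms⟩ := Set.mem_iUnion.1 hsh
  obtain ⟨hS', hr', hc'⟩ := G.mem_atReg_inter.1 ⟨hm, hms⟩
  obtain ⟨hS, hr, hc⟩ := G.mem_atReg_inter.1 ⟨hn, hS'⟩
  refine Set.mem_iUnion.2 ⟨n + m, ⟨?_, ?_⟩, ?_⟩
  · refine (G.mem_atReg_inter.2 ⟨hS, (G.reg_shift hr).1 hr', ?_⟩).1
    rw [G.regCount_shift hr]; omega
  · change pos ξ (n + m) = y + v
    have hpm' : pos (shift n ξ) m = v := hpm
    have hu' : pos ξ n = y := hu
    rw [pos_add, hpm', hu']
  · exact ((G.reg_shift hr).1 hr').2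

variable [NeZero d] (μ : Measure (Dir d → ℝ)) [Law μ]

/-- The integral form of `ann_rec_split_S`. -/
lemma lintegral_rec_split {n : ℕ} {D : Set (Steps d)} (hD : Decided n D) (hr : ∀ ξ ∈ D, G.Rec n ξ)
    {F : Set (Steps d)} (hF : MeasurableSet F) (hsub : F ⊆ G.S) {f : Steps d → ℝ≥0∞}
    (hf : ∀ ξ ∈ D, ∀ η, (∀ i < n, η i = ξ i) → f η = f ξ) :
    ∫⁻ ξ in D ∩ shift n ⁻¹' F, f ξ ∂ann μ = ann μ F * ∫⁻ ξ in D, f ξ ∂ann μ := by
  classical
  have hg : ∀ ξ η : Steps d, (∀ i < n, η i = ξ i) → D.indicator f η = D.indicator f ξ := by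
    intro ξ η h
    by_cases h' : ξ ∈ D
    · rw [Set.indicator_of_mem h', Set.indicator_of_mem (hD ξ η h h'), hf ξ h' η h]
    · rw [Set.indicator_of_notMem h', Set.indicator_of_notMem fun h2 =>
        h' (hD η ξ (fun i hi => (h i hi).symm) h2)]
  rw [setLIntegral_congr_fun (hD.measurableSet.inter (measurable_shift n hF)) (g := D.indicator f)
      fun ξ hξ => (Set.indicator_of_mem hξ.1 f).symm,
    setLIntegral_congr_fun hD.measurableSet (g := D.indicator f)
      fun ξ hξ => (Set.indicator_of_mem hξ f).symm,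
    lintegral_prefix n (ann μ) hg, lintegral_prefix n (ann μ) hg, Finset.mul_sum]
  refine Finset.sum_congr rfl fun w _ => ?_
  rw [← Set.inter_assoc, G.ann_rec_split_S μ ((decided_cyl n _).inter hD) (fun ξ hξ => hr ξ hξ.2)
    hF hsub]
  ring

/-- The entropy of the displacement increases with the number of slabs. -/
theorem ent_mono (h : G.ManyReg μ) (hs : 0 < G.sReg μ) : Monotone (G.ent μ) := by
  suffices key : ∀ a b, G.ent μ b ≤ G.ent μ (a + b) from
    monotone_nat_of_le_succ fun k => (key 1 k).trans_eq (by rw [add_comm])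
  intro a b
  have hle := fun K x => G.disp_le_one μ h hs K x
  simp only [ent, ofReal_negMulLog (hle _ _)]
  calc ∑' x, G.disp μ b x * nlog (G.disp μ b x)
      = ∑' x, ∑' u, G.disp μ a u * (G.disp μ b (x - u) * nlog (G.disp μ b (x - u))) := by
        rw [ENNReal.tsum_comm]
        simp only [ENNReal.tsum_mul_left]
        have he : ∀ u, ∑' x, G.disp μ b (x - u) * nlog (G.disp μ b (x - u)) =
            ∑' x, G.disp μ b x * nlog (G.disp μ b x) := fun u =>
          (Equiv.subRight u).tsum_eq fun x => G.disp μ b x * nlog (G.disp μ b x)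
        simp only [he, ENNReal.tsum_mul_right, G.tsum_disp_eq_one μ h hs, one_mul]
    _ ≤ ∑' x, G.disp μ (a + b) x * nlog (G.disp μ (a + b) x) := by
        refine ENNReal.tsum_le_tsum fun x => ?_
        have hr : G.disp μ (a + b) x ≠ ∞ := ne_top_of_le_ne_top ENNReal.one_ne_top (hle _ _)
        refine (ENNReal.add_le_add_iff_right hr).1 ?_
        conv_lhs => arg 2; rw [G.disp_add μ h hs]
        rw [← ENNReal.tsum_add]
        calc ∑' u, (G.disp μ a u * (G.disp μ b (x - u) * nlog (G.disp μ b (x - u))) +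
              G.disp μ a u * G.disp μ b (x - u))
            ≤ ∑' u, (G.disp μ a u * G.disp μ b (x - u) * nlog (G.disp μ (a + b) x) +
              G.disp μ a u * G.disp μ (a + b) x) := by
              refine ENNReal.tsum_le_tsum fun u => ?_
              rcases eq_or_ne (G.disp μ a u) 0 with hp | hp
              · simp [hp]
              rcases eq_or_ne (G.disp μ b (x - u)) 0 with hq | hq
              · simp [hq]
              have hpos : 0 < G.disp μ (a + b) x := by
                rw [G.disp_add μ h hs]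
                exact lt_of_lt_of_le (pos_iff_ne_zero.2 (mul_ne_zero hp hq)) (ENNReal.le_tsum u)
              have hqt : G.disp μ b (x - u) ≠ ∞ :=
                ne_top_of_le_ne_top ENNReal.one_ne_top (hle _ _)
              calc G.disp μ a u * (G.disp μ b (x - u) * nlog (G.disp μ b (x - u))) +
                    G.disp μ a u * G.disp μ b (x - u)
                  = G.disp μ a u * G.disp μ b (x - u) * (nlog (G.disp μ b (x - u)) + 1) := by ring
                _ ≤ G.disp μ a u * G.disp μ b (x - u) * (nlog (G.disp μ (a + b) x) +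
                      G.disp μ (a + b) x / G.disp μ b (x - u)) :=
                    mul_le_mul_right (nlog_add_one_le hpos (hle _ _) (pos_iff_ne_zero.2 hq) (hle _ _)) _
                _ = _ := by rw [mul_add, mul_assoc _ _ (_ / _), ENNReal.mul_div_cancel hq hqt]
          _ = _ := by
              rw [ENNReal.tsum_add, ENNReal.tsum_mul_right, ENNReal.tsum_mul_right,
                G.tsum_disp_eq_one μ h hs, one_mul, ← G.disp_add μ h hs]

/-- The total surprise of the position of regeneration `K`, with no information. -/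
theorem sum_hT_zero (h : G.ManyReg μ) (hs : 0 < G.sReg μ) (K : ℕ) :
    ∑' x, G.hT μ (G.Tgt K x) 0 =
      G.sReg μ * G.ent μ K + ENNReal.ofReal (Real.negMulLog (G.sReg μ).toReal) := by
  have hs1 : G.sReg μ ≤ 1 := prob_le_one
  have hx : ∀ x, G.hT μ (G.Tgt K x) 0 =
      G.sReg μ * ENNReal.ofReal (Real.negMulLog (G.disp μ K x).toReal) +
        G.disp μ K x * ENNReal.ofReal (Real.negMulLog (G.sReg μ).toReal) := by
    intro x
    have hp1 := G.disp_le_one μ h hs K x
    rw [hT_zero, ← ofReal_negMulLog prob_le_one, ann_tgt, ENNReal.toReal_mul, Real.negMulLog_mul]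
    have hb : ∀ {y : ℝ≥0∞}, y ≤ 1 → 0 ≤ Real.negMulLog y.toReal := fun hy =>
      Real.negMulLog_nonneg ENNReal.toReal_nonneg
        (ENNReal.toReal_le_of_le_ofReal zero_le_one (by simpa using hy))
    rw [ENNReal.ofReal_add (mul_nonneg ENNReal.toReal_nonneg (hb hp1))
        (mul_nonneg ENNReal.toReal_nonneg (hb hs1)),
      ENNReal.ofReal_mul ENNReal.toReal_nonneg, ENNReal.ofReal_mul ENNReal.toReal_nonneg,
      ENNReal.ofReal_toReal (ne_top_of_le_ne_top ENNReal.one_ne_top hs1),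
      ENNReal.ofReal_toReal (ne_top_of_le_ne_top ENNReal.one_ne_top hp1)]
  simp only [hx, ENNReal.tsum_add, ENNReal.tsum_mul_left, ENNReal.tsum_mul_right,
    G.tsum_disp_eq_one μ h hs, one_mul, ent]

/-- The total surprise at any levels is at most the one with no information. -/
theorem sum_hT_le (h : G.ManyReg μ) (hs : 0 < G.sReg μ) (K : ℕ) (a : Site d → ℕ) :
    ∑' x, G.hT μ (G.Tgt K x) (a x) ≤
      G.sReg μ * G.ent μ K + ENNReal.ofReal (Real.negMulLog (G.sReg μ).toReal) :=
  (ENNReal.tsum_le_tsum fun x => G.hT_anti μ (G.measurableSet_Tgt K x) (G.tgt_subset_esc K x)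
    (Nat.zero_le (a x))).trans_eq (G.sum_hT_zero μ h hs K)

/-- One target of `hT_refine`. -/
lemma hT_refine_one (h : G.ManyReg μ) (hs : 0 < G.sReg μ) (k0 r : ℕ) (good : Set (Site d))
    (x : Site d) (a : ℕ)
    (ha : ∀ u ∈ good, (k0 : ℝ) ≤ G.lev (x - u) → (a : ℝ) ≤ G.lev (x - u)) :
    (∑' u : good, G.disp μ k0 (x - u) *
        (G.sReg μ * ENNReal.ofReal (Real.negMulLog (G.disp μ r u).toReal))) +
      (∑' u : good, G.disp μ k0 (x - u) * (G.disp μ r u * G.sReg μ)) ≤
      G.hT μ (G.Tgt (k0 + r) x) a + ann μ (G.Tgt (k0 + r) x) := by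
  set A : Set (Steps d) := G.Tgt (k0 + r) x with hA
  set D : good × ℕ → Set (Steps d) := fun p =>
    G.AtReg k0 p.2 ∩ {ξ | pos ξ p.2 = x - (p.1 : Site d)} with hDdef
  set E : good × ℕ → Set (Steps d) := fun p =>
    D p ∩ shift p.2 ⁻¹' G.Tgt r (p.1 : Site d) with hEdef
  set Q : good × ℕ → Set (Steps d) := fun p => D p ∩ shift p.2 ⁻¹' G.S with hQdef
  have hdec : ∀ p, Decided p.2 (D p) := fun p =>
    (G.decided_atReg k0 p.2).inter (decided_pos_eq p.2 _)
  have hrec : ∀ p, ∀ ξ ∈ D p, G.Rec p.2 ξ := fun p ξ hξ => hξ.1.1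
  have hEm : ∀ p, MeasurableSet (E p) := fun p =>
    (hdec p).measurableSet.inter (measurable_shift p.2 (G.measurableSet_Tgt r _))
  have hQm : ∀ p, MeasurableSet (Q p) := fun p =>
    (hdec p).measurableSet.inter (measurable_shift p.2 G.measurableSet_S)
  have hEQ : ∀ p, E p ⊆ Q p := fun p ξ hξ => ⟨hξ.1, G.tgt_subset_S r _ hξ.2⟩
  have hQd : Pairwise (Function.onFun Disjoint Q) := by
    rintro ⟨u, m⟩ ⟨v, n⟩ hne
    refine Set.disjoint_left.2 fun ξ h1 h2 => hne ?_
    have e := G.atReg_unique ⟨h1.1.1, h1.2⟩ ⟨h2.1.1, h2.2⟩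
    subst e
    exact Prod.ext (Subtype.ext (sub_right_injective (h1.1.2.symm.trans h2.1.2))) rfl
  have hEd : Pairwise (Function.onFun Disjoint E) := fun p q hpq =>
    (hQd hpq).mono (hEQ p) (hEQ q)
  have hEA : ∀ p, E p ⊆ A := fun p ξ hξ => by
    have := G.mem_tgt_add hξ
    rwa [sub_add_cancel] at this
  have hlev : ∀ p, ∀ ξ ∈ Q p, (a : ℝ) ≤ G.lev (x - (p.1 : Site d)) := by
    intro p ξ hξ
    obtain ⟨hS, hr, hc⟩ := G.mem_atReg_inter.1 ⟨hξ.1.1, hξ.2⟩
    have h1 := G.le_lv_of_regCount hS k0 p.2 hr hc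
    have h2 : pos ξ p.2 = x - (p.1 : Site d) := hξ.1.2
    rw [lv, h2] at h1
    exact ha _ p.1.2 h1
  have hQH : ∀ p, Q p ⊆ ⋃ t, G.Hit a t := fun p ξ hξ => by
    refine Set.mem_iUnion.2 ⟨_, G.hit_T ⟨p.2, ?_⟩⟩
    have h2 : pos ξ p.2 = x - (p.1 : Site d) := hξ.1.2
    rw [lv, h2]
    exact hlev p ξ hξ
  have hpt : ∀ p, nlog (G.disp μ r p.1) * ann μ (E p) + ann μ (E p) ≤
      (∫⁻ ξ in E p, nlog (G.cT μ A a ξ) ∂ann μ) + ∫⁻ ξ in Q p, G.cT μ A a ξ ∂ann μ := by
    intro p
    rcases eq_or_ne (ann μ (E p)) 0 with h0 | h0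
    · simp [h0]
    obtain ⟨ζ, hζ⟩ := nonempty_of_measure_ne_zero h0
    have hle : (a : ℝ) ≤ G.lev (x - (p.1 : Site d)) := hlev p ζ (hEQ p hζ)
    have hb : G.disp μ r p.1 ≠ 0 := fun hb => h0 (by
      simp only [hEdef]
      rw [G.ann_rec_split_S μ (hdec p) (hrec p) (G.measurableSet_Tgt r _) (G.tgt_subset_S r _),
        ann_tgt, hb]
      simp)
    have hbt : G.disp μ r p.1 ≠ ∞ :=
      ne_top_of_le_ne_top ENNReal.one_ne_top (G.disp_le_one μ h hs r _)
    have hf : ∀ ξ ∈ D p, ∀ η, (∀ i < p.2, η i = ξ i) → G.cT μ A a η = G.cT μ A a ξ := by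
      intro ξ hξ η hη
      have h2 : pos ξ p.2 = x - (p.1 : Site d) := hξ.2
      have h3 : (a : ℝ) ≤ G.lv ξ p.2 := by rw [lv, h2]; exact hle
      have h4 := G.hit_T ⟨p.2, h3⟩
      have hT : G.T a ξ ≤ p.2 := not_lt.1 fun hlt => by linarith [h4.2 _ hlt]
      exact G.cT_congr μ A le_rfl (fun i hi => hη i (lt_of_lt_of_le hi hT)) h4
    have hint : ∫⁻ ξ in E p, G.cT μ A a ξ / G.disp μ r p.1 ∂ann μ =
        ∫⁻ ξ in Q p, G.cT μ A a ξ ∂ann μ := by
      simp only [ENNReal.div_eq_inv_mul]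
      rw [lintegral_const_mul _ (G.measurable_cT μ A a)]
      simp only [hEdef, hQdef]
      rw [G.lintegral_rec_split μ (hdec p) (hrec p) (G.measurableSet_Tgt r _) (G.tgt_subset_S r _) hf,
        G.lintegral_rec_split μ (hdec p) (hrec p) G.measurableSet_S subset_rfl hf, ann_tgt,
        mul_assoc, ← mul_assoc (G.disp μ r p.1)⁻¹, ENNReal.inv_mul_cancel hb hbt, one_mul]
      rfl
    rw [← hint, ← lintegral_add_right _ ((G.measurable_cT μ A a).div_const _)]
    calc nlog (G.disp μ r p.1) * ann μ (E p) + ann μ (E p)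
        = ∫⁻ _ in E p, (nlog (G.disp μ r p.1) + 1) ∂ann μ := by
          rw [setLIntegral_const]; ring
      _ ≤ _ := by
          refine lintegral_mono_ae ((ae_restrict_iff' (hEm p)).2 ?_)
          filter_upwards [G.ae_cT_pos μ A a] with ξ hc hξ
          exact nlog_add_one_le (hc (hEA p hξ)) (G.cT_le_one μ A a ξ) (pos_iff_ne_zero.2 hb)
            (G.disp_le_one μ h hs r _)
  have hmass : ∀ u : good, ∑' n, ann μ (E (u, n)) =
      G.disp μ k0 (x - u) * (G.disp μ r u * G.sReg μ) := by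
    intro u
    rw [← ann_tgt, disp, ← ENNReal.tsum_mul_right]
    exact tsum_congr fun n => G.ann_rec_split_S μ (hdec (u, n)) (hrec (u, n))
      (G.measurableSet_Tgt r _) (G.tgt_subset_S r _)
  have hA' : MeasurableSet A := G.measurableSet_Tgt _ _
  calc (∑' u : good, G.disp μ k0 (x - u) *
          (G.sReg μ * ENNReal.ofReal (Real.negMulLog (G.disp μ r u).toReal))) +
        (∑' u : good, G.disp μ k0 (x - u) * (G.disp μ r u * G.sReg μ))
      = ∑' p, (nlog (G.disp μ r p.1) * ann μ (E p) + ann μ (E p)) := by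
        rw [ENNReal.tsum_prod', ← ENNReal.tsum_add]
        refine tsum_congr fun u => ?_
        dsimp only
        rw [ENNReal.tsum_add, ENNReal.tsum_mul_left, hmass,
          ofReal_negMulLog (G.disp_le_one μ h hs r _)]
        ring
    _ ≤ ∑' p, ((∫⁻ ξ in E p, nlog (G.cT μ A a ξ) ∂ann μ) +
          ∫⁻ ξ in Q p, G.cT μ A a ξ ∂ann μ) := ENNReal.tsum_le_tsum hpt
    _ ≤ G.hT μ A a + ann μ A := by
        rw [ENNReal.tsum_add, ← lintegral_iUnion hEm hEd, ← lintegral_iUnion hQm hQd]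
        exact add_le_add (lintegral_mono_set (Set.iUnion_subset hEA))
          ((lintegral_mono_set (Set.iUnion_subset hQH)).trans (G.lintegral_cT_le μ hA' a))

/-- The surprise at first passages that precede regeneration `k0` is at least the entropy of the slabs
after it, on a set of good displacements, up to the mass of the others. -/
theorem hT_refine (h : G.ManyReg μ) (hs : 0 < G.sReg μ) (k0 r : ℕ) (good : Set (Site d))
    (a : Site d → ℕ)
    (ha : ∀ x u, u ∈ good → (k0 : ℝ) ≤ G.lev (x - u) → (a x : ℝ) ≤ G.lev (x - u)) :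
    G.sReg μ * (∑' u : good, ENNReal.ofReal (Real.negMulLog (G.disp μ r u).toReal)) ≤
      (∑' x, G.hT μ (G.Tgt (k0 + r) x) (a x)) + G.sReg μ * ∑' u : ↥goodᶜ, G.disp μ r u := by
  have hone : ∀ u : Site d, ∑' x, G.disp μ k0 (x - u) = 1 := fun u =>
    ((Equiv.subRight u).tsum_eq (G.disp μ k0)).trans (G.tsum_disp_eq_one μ h hs k0)
  have hswap : ∀ c : good → ℝ≥0∞, ∑' x, ∑' u : good, G.disp μ k0 (x - u) * c u = ∑' u, c u := by
    intro c
    rw [ENNReal.tsum_comm]
    exact tsum_congr fun u => by rw [ENNReal.tsum_mul_right, hone, one_mul]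
  have hall : ∑' x, ann μ (G.Tgt (k0 + r) x) = G.sReg μ := by
    simp only [ann_tgt, ENNReal.tsum_mul_right, G.tsum_disp_eq_one μ h hs, one_mul]
  have hsplit : G.sReg μ = (∑' u : good, G.disp μ r u * G.sReg μ) +
      G.sReg μ * ∑' u : ↥goodᶜ, G.disp μ r u := by
    rw [ENNReal.tsum_mul_right, mul_comm, ← mul_add,
      ENNReal.summable.tsum_add_tsum_compl ENNReal.summable, G.tsum_disp_eq_one μ h hs, mul_one]
  have hsum := ENNReal.tsum_le_tsum fun x =>
    G.hT_refine_one μ h hs k0 r good x (a x) fun u hu => ha x u hu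
  rw [ENNReal.tsum_add, ENNReal.tsum_add, hswap fun u => G.sReg μ * _, hswap fun u => _ * G.sReg μ,
    hall, ENNReal.tsum_mul_left] at hsum
  have hne : (∑' u : good, G.disp μ r u * G.sReg μ) ≠ ∞ :=
    ne_top_of_le_ne_top (measure_ne_top (ann μ) G.S) (le_self_add.trans_eq hsplit.symm)
  refine (ENNReal.add_le_add_iff_right hne).1 (hsum.trans_eq ?_)
  conv_lhs => arg 2; rw [hsplit]
  ring

end Vale.Agent.P147.Geo
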