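import Vale.Agent.P147.Geo

/-!
# P147: regeneration times

If the future after a time `n` lies in the regeneration event and `n` is a record, the future avoids the rows
of the past, so it is independent of the past. This gives the renewal structure of the levels and of the
displacements.
-/

open MeasureTheory Filter
open scoped ENNReal

namespace Vale.Agent.P147.Geo

open Cyl

variable {d : ℕ} (G : Geo d)

lemma decided_rec (n : ℕ) : Decided n {ξ : Steps d | G.Rec n ξ} := by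
  intro ξ η h hξ j hj
  rw [G.lv_congr le_rfl h, G.lv_congr hj.le h]
  exact hξ j hj

lemma decided_preS (n : ℕ) : Decided n {ξ : Steps d | G.PreS n ξ} := by
  intro ξ η h hξ i h1 hi
  rw [G.lv_congr hi h, h 0 (by omega)]
  exact hξ i h1 hi

lemma preReg_congr {n j : ℕ} {ξ η : Steps d} (h : ∀ i < n, η i = ξ i) :
    G.PreReg n j η ↔ G.PreReg n j ξ := by
  unfold PreReg
  constructor
  · rintro ⟨hj, h1, h2, h3⟩
    refine ⟨hj, fun i hi => ?_, (h j hj).symm.trans h2, fun i hi hin => ?_⟩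
    · rw [← G.lv_congr hj.le h, ← G.lv_congr (by omega : i ≤ n) h]; exact h1 i hi
    · rw [← G.lv_congr hj.le h, ← G.lv_congr hin h]; exact h3 i hi hin
  · rintro ⟨hj, h1, h2, h3⟩
    refine ⟨hj, fun i hi => ?_, (h j hj).trans h2, fun i hi hin => ?_⟩
    · rw [G.lv_congr hj.le h, G.lv_congr (by omega : i ≤ n) h]; exact h1 i hi
    · rw [G.lv_congr hj.le h, G.lv_congr hin h]; exact h3 i hi hin

lemma preCount_congr {n : ℕ} {ξ η : Steps d} (h : ∀ i < n, η i = ξ i) :
    G.preCount n η = G.preCount n ξ := by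
  classical
  unfold preCount
  exact congrArg Finset.card (Finset.filter_congr fun j _ => G.preReg_congr h)

lemma decided_atReg (K n : ℕ) : Decided n (G.AtReg K n) := fun ξ η h hξ =>
  ⟨G.decided_rec n ξ η h hξ.1, G.decided_preS n ξ η h hξ.2.1, (G.preCount_congr h).trans hξ.2.2⟩

lemma decided_pos_eq (n : ℕ) (x : Site d) : Decided n {ξ : Steps d | pos ξ n = x} :=
  fun _ _ h h1 => (pos_congr h).trans h1

lemma avoid_of_rec {n : ℕ} {ξ : Steps d} (hξ : G.Rec n ξ) {F : Set (Steps d)}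
    (hF : ∀ η ∈ F, ∀ j, 0 ≤ G.lv η j) : F ⊆ Avoid 0 n ξ (pos ξ n) := by
  intro η hη j hj
  obtain ⟨i, hi, he⟩ := mem_rows.1 hj
  have h := congrArg G.lev he
  rw [zero_add, lev_add] at h
  have h1 : G.lev (pos ξ i) < G.lev (pos ξ n) := hξ i hi
  have h2 : 0 ≤ G.lev (pos η j) := hF η hη j
  linarith

lemma reg_iff_preReg {n j : ℕ} {ξ : Steps d} (hj : j < n) (hn : shift n ξ ∈ G.S) :
    G.Reg j ξ ↔ G.PreReg n j ξ := by
  constructor
  · rintro ⟨h1, h2⟩
    refine ⟨hj, h1, by simpa [shift] using h2.1, fun i hi _ => ?_⟩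
    have := h2.2.1 (i - j) (by omega)
    rw [lv_shift, Nat.add_sub_cancel' hi.le] at this
    linarith
  · rintro ⟨-, h1, h2, h3⟩
    refine ⟨h1, by simpa [shift] using h2, fun k hk => ?_, ?_⟩
    · rw [lv_shift]
      rcases le_or_gt (j + k) n with h | h
      · linarith [h3 (j + k) (by omega) h]
      · have h4 := hn.2.1 (j + k - n) (by omega)
        rw [lv_shift, Nat.add_sub_cancel' h.le] at h4
        linarith [h3 n hj le_rfl]
    · exact (G.esc_shift j).2 ((G.esc_shift n).1 hn.2.2)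

lemma mem_S_iff {n : ℕ} {ξ : Steps d} (hn : shift n ξ ∈ G.S) (hr : G.Rec n ξ) :
    ξ ∈ G.S ↔ G.PreS n ξ := by
  constructor
  · exact fun h i h1 _ => ⟨h.1, h.2.1 i h1⟩
  · intro h
    refine ⟨?_, fun i hi => ?_, (G.esc_shift n).1 hn.2.2⟩
    · rcases Nat.eq_zero_or_pos n with rfl | hpos
      · simpa [shift] using hn.1
      · exact (h n hpos le_rfl).1
    · rcases le_or_gt i n with h' | h'
      · exact (h i hi h').2
      · have h4 := hn.2.1 (i - n) (by omega)
        rw [lv_shift, Nat.add_sub_cancel' h'.le] at h4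
        rcases Nat.eq_zero_or_pos n with rfl | hpos
        · simpa using h4
        · linarith [(h n hpos le_rfl).2]

lemma reg_zero {ξ : Steps d} (h : ξ ∈ G.S) : G.Reg 0 ξ :=
  ⟨fun j hj => absurd hj (Nat.not_lt_zero j), by convert h; funext i; simp [shift]⟩

/-- The number of regeneration times before `n`. -/
noncomputable def regCount (n : ℕ) (ξ : Steps d) : ℕ :=
  open Classical in Nat.count (fun j => G.Reg j ξ) n

lemma regCount_eq {n : ℕ} {ξ : Steps d} (hn : shift n ξ ∈ G.S) :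
    G.regCount n ξ = G.preCount n ξ := by
  classical
  rw [regCount, Nat.count_eq_card_filter_range, preCount]
  exact congrArg Finset.card
    (Finset.filter_congr fun j hj => G.reg_iff_preReg (Finset.mem_range.1 hj) hn)

lemma mem_atReg_inter {K n : ℕ} {ξ : Steps d} :
    ξ ∈ G.AtReg K n ∩ shift n ⁻¹' G.S ↔ ξ ∈ G.S ∧ G.Reg n ξ ∧ G.regCount n ξ = K := by
  constructor
  · rintro ⟨⟨h1, h2, h3⟩, h4⟩
    exact ⟨(G.mem_S_iff h4 h1).2 h2, ⟨h1, h4⟩, (G.regCount_eq h4).trans h3⟩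
  · rintro ⟨h1, ⟨h2, h3⟩, h4⟩
    exact ⟨⟨h2, (G.mem_S_iff h3 h2).1 h1, (G.regCount_eq h3).symm.trans h4⟩, h3⟩

lemma atReg_unique {K m n : ℕ} {ξ : Steps d} (hm : ξ ∈ G.AtReg K m ∩ shift m ⁻¹' G.S)
    (hn : ξ ∈ G.AtReg K n ∩ shift n ⁻¹' G.S) : m = n := by
  classical
  rw [mem_atReg_inter] at hm hn
  exact Nat.count_injective hm.2.1 hn.2.1 (hm.2.2.trans hn.2.2.symm)

/-- The composition of regeneration times. -/
lemma reg_shift {n m : ℕ} {ξ : Steps d} (hn : G.Reg n ξ) :
    G.Reg m (shift n ξ) ↔ G.Reg (n + m) ξ := by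
  have hs : shift m (shift n ξ) = shift (n + m) ξ := by funext i; simp [shift, add_assoc]
  unfold Reg
  rw [hs]
  refine and_congr_left fun _ => ⟨fun h j hj => ?_, fun h j hj => ?_⟩
  · have hm : G.lv ξ n ≤ G.lv ξ (n + m) := by
      have := G.lv_nonneg_of_mem_S hn.2 m
      rw [lv_shift] at this
      linarith
    rcases lt_or_ge j n with h' | h'
    · linarith [hn.1 j h']
    · have := h (j - n) (by omega)
      rw [lv_shift, lv_shift, Nat.add_sub_cancel' h'] at this
      linarith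
  · rw [lv_shift, lv_shift]
    linarith [h (n + j) (by omega)]

lemma regCount_shift {n m : ℕ} {ξ : Steps d} (hn : G.Reg n ξ) :
    G.regCount (n + m) ξ = G.regCount n ξ + G.regCount m (shift n ξ) := by
  classical
  simp only [regCount, Nat.count_add]
  congr 1
  rw [Nat.count_eq_card_filter_range, Nat.count_eq_card_filter_range]
  exact congrArg Finset.card (Finset.filter_congr fun j _ => (G.reg_shift hn).symm)

/-- Later regenerations are at least one level higher. -/
lemma reg_lt {m n : ℕ} {ξ : Steps d} (hm : G.Reg m ξ) (hmn : m < n) :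
    G.lv ξ m + 1 ≤ G.lv ξ n := by
  have := hm.2.2.1 (n - m) (by omega)
  rw [lv_shift, Nat.add_sub_cancel' hmn.le] at this
  linarith

/-- After `K` regenerations the level is at least `K`. -/
lemma le_lv_of_regCount {ξ : Steps d} (hS : ξ ∈ G.S) :
    ∀ K n, G.Reg n ξ → G.regCount n ξ = K → (K : ℝ) ≤ G.lv ξ n := by
  classical
  intro K
  induction K with
  | zero => intro n _ _; simpa using G.lv_nonneg_of_mem_S hS n
  | succ K ih =>
    intro n hn hK
    have hex : ∃ j < n, G.Reg j ξ ∧ G.regCount j ξ = K := by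
      refine ⟨Nat.nth (fun j => G.Reg j ξ) K, ?_, ?_, ?_⟩
      · exact Nat.nth_lt_of_lt_count (by rw [regCount] at hK; omega)
      · exact Nat.nth_mem (p := fun j => G.Reg j ξ) K fun hf => by
          have := Nat.count_le_card hf n
          rw [regCount] at hK; omega
      · rw [regCount]
        exact Nat.count_nth (p := fun j => G.Reg j ξ) fun hf => by
          have := Nat.count_le_card hf n
          rw [regCount] at hK; omega
    obtain ⟨j, hj, h1, h2⟩ := hex
    push_cast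
    linarith [ih j h1 h2, G.reg_lt h1 hj]

lemma tgt_subset_S (K : ℕ) (x : Site d) : G.Tgt K x ⊆ G.S := by
  intro ξ hξ
  obtain ⟨n, ⟨h1, -⟩, h2⟩ := Set.mem_iUnion.1 hξ
  exact (G.mem_atReg_inter.1 ⟨h1, h2⟩).1

variable [NeZero d]

lemma measurableSet_atReg (K n : ℕ) : MeasurableSet (G.AtReg K n ∩ shift n ⁻¹' G.S) :=
  ((G.decided_atReg K n).measurableSet).inter (measurable_shift n G.measurableSet_S)

lemma measurableSet_Tgt (K : ℕ) (x : Site d) : MeasurableSet (G.Tgt K x) :=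
  .iUnion fun n => ((G.decided_atReg K n).inter (decided_pos_eq n x)).measurableSet.inter
    (measurable_shift n G.measurableSet_S)

omit [NeZero d] in
lemma tgt_disjoint (K : ℕ) : Pairwise (Function.onFun Disjoint (G.Tgt K)) := by
  intro x y hxy
  refine Set.disjoint_left.2 fun ξ hx hy => hxy ?_
  obtain ⟨m, ⟨h1, h2⟩, h3⟩ := Set.mem_iUnion.1 hx
  obtain ⟨n, ⟨h4, h5⟩, h6⟩ := Set.mem_iUnion.1 hy
  cases G.atReg_unique ⟨h1, h3⟩ ⟨h4, h6⟩
  exact h2.symm.trans h5

variable (μ : Measure (Dir d → ℝ)) [Law μ]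

/-- The future after a record is independent of the past, if it stays at nonnegative levels. -/
theorem ann_rec_split {n : ℕ} {A : Set (Steps d)} (hA : Decided n A) (hr : ∀ ξ ∈ A, G.Rec n ξ)
    {F : Set (Steps d)} (hF : MeasurableSet F) (hsub : ∀ η ∈ F, ∀ j, 0 ≤ G.lv η j) :
    ann μ (A ∩ shift n ⁻¹' F) = ann μ A * ann μ F :=
  ann_split_decided μ hA hF fun ξ hξ => G.avoid_of_rec (hr ξ hξ) hsub

theorem ann_rec_split_S {n : ℕ} {A : Set (Steps d)} (hA : Decided n A) (hr : ∀ ξ ∈ A, G.Rec n ξ)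
    {F : Set (Steps d)} (hF : MeasurableSet F) (hsub : F ⊆ G.S) :
    ann μ (A ∩ shift n ⁻¹' F) = ann μ A * ann μ F :=
  G.ann_rec_split μ hA hr hF fun _ hη => G.lv_nonneg_of_mem_S (hsub hη)

lemma ann_atReg (K n : ℕ) :
    ann μ (G.AtReg K n ∩ shift n ⁻¹' G.S) = ann μ (G.AtReg K n) * G.sReg μ :=
  G.ann_rec_split_S μ (G.decided_atReg K n) (fun _ h => h.1) G.measurableSet_S subset_rfl

lemma ann_tgt (K : ℕ) (x : Site d) : ann μ (G.Tgt K x) = G.disp μ K x * G.sReg μ := by
  have hdec : ∀ n, Decided n (G.AtReg K n ∩ {ξ | pos ξ n = x}) := fun n =>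
    (G.decided_atReg K n).inter (decided_pos_eq n x)
  rw [Tgt, measure_iUnion]
  · rw [disp, ← ENNReal.tsum_mul_right]
    exact tsum_congr fun n => G.ann_rec_split_S μ (hdec n) (fun _ h => h.1.1) G.measurableSet_S
      subset_rfl
  · exact fun m n hmn => Set.disjoint_left.2 fun ξ h1 h2 =>
      hmn (G.atReg_unique ⟨h1.1.1, h1.2⟩ ⟨h2.1.1, h2.2⟩)
  · exact fun n => (hdec n).measurableSet.inter (measurable_shift n G.measurableSet_S)

omit [Law μ] in
lemma tsum_disp (K : ℕ) : ∑' x, G.disp μ K x = ∑' n, ann μ (G.AtReg K n) := by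
  unfold disp
  rw [ENNReal.tsum_comm]
  refine tsum_congr fun n => ?_
  rw [← measure_iUnion]
  · congr 1
    ext ξ; simp
  · exact fun x y hxy => Set.disjoint_left.2 fun ξ h1 h2 => hxy (h1.2.symm.trans h2.2)
  · exact fun x => ((G.decided_atReg K n).inter (decided_pos_eq n x)).measurableSet

/-- Almost surely on the regeneration event there are infinitely many regeneration times. -/
def ManyReg : Prop := ∀ N : ℕ, ann μ (G.Esc \ {ξ | ∃ n ≥ N, G.Reg n ξ}) = 0

omit [Law μ] in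
lemma ae_infinite_reg (h : G.ManyReg μ) :
    ∀ᵐ ξ ∂ann μ, ξ ∈ G.S → {n | G.Reg n ξ}.Infinite := by
  have h' : ∀ᵐ ξ ∂ann μ, ∀ N : ℕ, ξ ∉ G.Esc \ {ξ | ∃ n ≥ N, G.Reg n ξ} :=
    ae_all_iff.2 fun N => measure_eq_zero_iff_ae_notMem.1 (h N)
  filter_upwards [h'] with ξ hξ hS
  refine Set.infinite_of_forall_exists_gt fun N => ?_
  have := hξ (N + 1)
  simp only [Set.mem_sdiff, hS.2.2, true_and, not_not, Set.mem_ofPred_eq] at this
  obtain ⟨n, hn, hr⟩ := this
  exact ⟨n, hr, by omega⟩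

omit [Law μ] in
lemma ann_S_eq (h : G.ManyReg μ) (K : ℕ) :
    ann μ (⋃ n, G.AtReg K n ∩ shift n ⁻¹' G.S) = G.sReg μ := by
  refine le_antisymm (measure_mono (Set.iUnion_subset fun n ξ hξ => (G.mem_atReg_inter.1 hξ).1)) ?_
  refine measure_mono_ae ?_
  filter_upwards [G.ae_infinite_reg μ h] with ξ hξ hS
  refine Set.mem_iUnion.2 ⟨Nat.nth (fun j => G.Reg j ξ) K, G.mem_atReg_inter.2 ⟨hS, ?_, ?_⟩⟩
  · exact Nat.nth_mem_of_infinite (hξ hS) K
  · classical
    exact Nat.count_nth_of_infinite (hξ hS) K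

lemma tsum_disp_eq_one (h : G.ManyReg μ) (hs : 0 < G.sReg μ) (K : ℕ) :
    ∑' x, G.disp μ K x = 1 := by
  have h1 : (∑' n, ann μ (G.AtReg K n)) * G.sReg μ = 1 * G.sReg μ := by
    rw [one_mul]
    conv_rhs => rw [← G.ann_S_eq μ h K]
    rw [measure_iUnion, ← ENNReal.tsum_mul_right]
    · exact tsum_congr fun n => (G.ann_atReg μ K n).symm
    · exact fun m n hmn => Set.disjoint_left.2 fun ξ h1 h2 => hmn (G.atReg_unique h1 h2)
    · exact G.measurableSet_atReg K
  rw [tsum_disp]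
  exact (ENNReal.mul_left_inj hs.ne' (measure_ne_top _ _)).1 h1

lemma disp_le_one (h : G.ManyReg μ) (hs : 0 < G.sReg μ) (K : ℕ) (x : Site d) :
    G.disp μ K x ≤ 1 :=
  (ENNReal.le_tsum x).trans_eq (G.tsum_disp_eq_one μ h hs K)

/-- Regeneration slabs are independent: the split of `a + b` slabs. -/
theorem disp_add (h : G.ManyReg μ) (hs : 0 < G.sReg μ) (a b : ℕ) (x : Site d) :
    G.disp μ (a + b) x = ∑' u, G.disp μ a u * G.disp μ b (x - u) := by
  refine (ENNReal.mul_left_inj hs.ne' (measure_ne_top (ann μ) G.S)).1 ?_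
  rw [← ann_tgt, ← ENNReal.tsum_mul_right]
  set P : Site d → ℕ → Set (Steps d) := fun u n =>
    (G.AtReg a n ∩ {ξ | pos ξ n = u}) ∩ shift n ⁻¹' G.Tgt b (x - u)
  have hP : ∀ u, G.disp μ a u * G.disp μ b (x - u) * G.sReg μ = ∑' n, ann μ (P u n) := by
    intro u
    rw [mul_assoc, ← ann_tgt, disp, ← ENNReal.tsum_mul_right]
    exact tsum_congr fun n => (G.ann_rec_split_S μ
      ((G.decided_atReg a n).inter (decided_pos_eq n u)) (fun _ h => h.1.1)
      (G.measurableSet_Tgt b _) (G.tgt_subset_S b _)).symm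
  simp only [hP, ← ENNReal.tsum_prod]
  rw [← measure_iUnion]
  · refine measure_congr ?_
    filter_upwards [G.ae_infinite_reg μ h] with ξ hinf
    classical
    apply propext
    constructor
    · intro hξ
      obtain ⟨k, ⟨hk, hpk⟩, hks⟩ := Set.mem_iUnion.1 hξ
      obtain ⟨hS, hr, hc⟩ := G.mem_atReg_inter.1 ⟨hk, hks⟩
      set n := Nat.nth (fun j => G.Reg j ξ) a
      have hn : G.Reg n ξ := Nat.nth_mem_of_infinite (hinf hS) a
      have hna : G.regCount n ξ = a := Nat.count_nth_of_infinite (hinf hS) a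
      have hle : n ≤ k := by
        by_contra hlt
        have := Nat.count_monotone (fun j => G.Reg j ξ) (by omega : k + 1 ≤ n)
        rw [Nat.count_succ, if_pos hr] at this
        simp only [regCount] at hc hna
        omega
      obtain ⟨m, rfl⟩ := Nat.exists_eq_add_of_le hle
      refine Set.mem_iUnion.2 ⟨(pos ξ n, n), ⟨(G.mem_atReg_inter.2 ⟨hS, hn, hna⟩).1, rfl⟩, ?_⟩
      refine Set.mem_iUnion.2 ⟨m, ⟨?_, ?_⟩, ?_⟩
      · refine (G.mem_atReg_inter.2 ⟨hn.2, (G.reg_shift hn).2 hr, ?_⟩).1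
        rw [G.regCount_shift hn] at hc
        omega
      · change pos (shift n ξ) m = x - pos ξ n
        have hpk' : pos ξ (n + m) = x := hpk
        rw [← hpk', pos_add]; abel
      · change shift m (shift n ξ) ∈ G.S
        exact ((G.reg_shift hn).2 hr).2
    · intro hξ
      obtain ⟨⟨u, n⟩, ⟨hn, hu⟩, hsh⟩ := Set.mem_iUnion.1 hξ
      obtain ⟨m, ⟨hm, hpm⟩, hms⟩ := Set.mem_iUnion.1 hsh
      obtain ⟨hS', hr', hc'⟩ := G.mem_atReg_inter.1 ⟨hm, hms⟩
      obtain ⟨hS, hr, hc⟩ := G.mem_atReg_inter.1 ⟨hn, hS'⟩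
      refine Set.mem_iUnion.2 ⟨n + m, ⟨?_, ?_⟩, ?_⟩
      · refine (G.mem_atReg_inter.2 ⟨hS, (G.reg_shift hr).1 hr', ?_⟩).1
        rw [G.regCount_shift hr]; omega
      · change pos ξ (n + m) = x
        have hpm' : pos (shift n ξ) m = x - u := hpm
        have hu' : pos ξ n = u := hu
        rw [pos_add, hpm', hu']; abel
      · exact ((G.reg_shift hr).1 hr').2
  · rintro ⟨u, m⟩ ⟨v, n⟩ hne
    refine Set.disjoint_left.2 fun ξ h1 h2 => hne ?_
    have e := G.atReg_unique ⟨h1.1.1, G.tgt_subset_S b _ h1.2⟩ ⟨h2.1.1, G.tgt_subset_S b _ h2.2⟩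
    subst e
    exact Prod.ext (h1.1.2.symm.trans h2.1.2) rfl
  · exact fun p => ((G.decided_atReg a p.2).inter (decided_pos_eq p.2 p.1)).measurableSet.inter
      (measurable_shift p.2 (G.measurableSet_Tgt b _))

end Vale.Agent.P147.Geo
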