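import Vale.Agent.P147.Geo

/-!
# P147: regeneration has positive probability, and the walk escapes one way or the other
-/

open MeasureTheory Filter
open scoped ENNReal symmDiff

namespace Vale.Agent.P147

open Cyl

/-! ### Retrying -/

section Retry

variable {α : Type*} [Nonempty α] [Fintype α] [MeasurableSpace α] [MeasurableSingletonClass α]

/-- Decided sets approximate every measurable set. -/
lemma exists_decided_approx (ν : Measure (ℕ → α)) [IsFiniteMeasure ν] {B : Set (ℕ → α)}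
    (hB : MeasurableSet B) :
    ∀ ε : ℝ≥0∞, 0 < ε → ∃ M D, Decided M D ∧ ν (B ∆ D) ≤ ε := by
  classical
  set C : Set (Set (ℕ → α)) := {A | ∃ M, Decided M A} with hC
  have hgen : (MeasurableSpace.pi : MeasurableSpace (ℕ → α)) = MeasurableSpace.generateFrom C := by
    refine le_antisymm ?_ (MeasurableSpace.generateFrom_le ?_)
    · refine iSup_le fun i => ?_
      rintro s ⟨t, -, rfl⟩
      refine MeasurableSpace.measurableSet_generateFrom ⟨i + 1, fun ξ η hη hξ => ?_⟩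
      simpa [hη i (Nat.lt_succ_self i)] using hξ
    · rintro s ⟨M, hM⟩
      exact hM.measurableSet
  have hpi : IsPiSystem C := by
    rintro s ⟨M, hM⟩ t ⟨M', hM'⟩ -
    exact ⟨max M M', (hM.mono (le_max_left _ _)).inter (hM'.mono (le_max_right _ _))⟩
  induction B, hB using MeasurableSpace.induction_on_inter hgen hpi with
  | empty => exact fun ε _ => ⟨0, ∅, fun _ _ _ h => h.elim, by simp⟩
  | basic t ht =>
    obtain ⟨M, hM⟩ := ht
    exact fun ε _ => ⟨M, t, hM, by simp⟩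
  | compl t _ ih =>
    intro ε hε
    obtain ⟨M, D, hD, hν⟩ := ih ε hε
    exact ⟨M, Dᶜ, hD.compl, by rwa [compl_symmDiff_compl]⟩
  | iUnion f _ hfm ih =>
    intro ε hε
    have hε2 : 0 < ε / 2 := ENNReal.div_pos hε.ne' (by simp)
    obtain ⟨δ, hδ, hδs⟩ := ENNReal.exists_pos_sum_of_countable hε2.ne' ℕ
    choose M D hD hν using fun i => ih i (δ i : ℝ≥0∞) (ENNReal.coe_pos.2 (hδ i))
    have htail : Tendsto (fun N => ν ((⋃ i, f i) \ ⋃ i ∈ Finset.range N, f i)) atTop (nhds 0) := by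
      have hanti : Antitone fun N => (⋃ i, f i) \ ⋃ i ∈ Finset.range N, f i := fun a b hab =>
        Set.sdiff_subset_sdiff_right
          (Set.biUnion_subset_biUnion_left (Finset.range_subset_range.2 hab))
      have := tendsto_measure_iInter_atTop (μ := ν) (fun N => ((MeasurableSet.iUnion hfm).diff
        ((Finset.range N).measurableSet_biUnion fun i _ => hfm i)).nullMeasurableSet) hanti
        ⟨0, measure_ne_top _ _⟩
      rwa [show (⋂ N, (⋃ i, f i) \ ⋃ i ∈ Finset.range N, f i) = ∅ from ?_, measure_empty] at this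
      refine Set.eq_empty_of_forall_notMem fun x hx => ?_
      simp only [Set.mem_iInter, Set.mem_sdiff, Set.mem_iUnion, Finset.mem_range] at hx
      obtain ⟨i, hi⟩ := (hx 0).1
      exact (hx (i + 1)).2 ⟨i, Nat.lt_succ_self i, hi⟩
    obtain ⟨N, hN⟩ := (htail.eventually (eventually_le_nhds hε2)).exists
    refine ⟨(Finset.range N).sup M, ⋃ i ∈ Finset.range N, D i, ?_, ?_⟩
    · intro ξ η h hξ
      simp only [Set.mem_iUnion] at hξ ⊢
      obtain ⟨i, hi, hξi⟩ := hξ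
      exact ⟨i, hi, (hD i).mono (Finset.le_sup hi) ξ η h hξi⟩
    · have hsub : (⋃ i, f i) ∆ (⋃ i ∈ Finset.range N, D i) ⊆
          ((⋃ i, f i) \ ⋃ i ∈ Finset.range N, f i) ∪ ⋃ i, f i ∆ D i := by
        intro x hx
        simp only [Set.mem_symmDiff, Set.mem_iUnion, Set.mem_union, Set.mem_sdiff] at hx ⊢
        rcases hx with ⟨⟨i, hi⟩, hn⟩ | ⟨⟨i, hiN, hi⟩, hn⟩
        · by_cases h : ∃ k, ∃ (_ : k ∈ Finset.range N), x ∈ f k
          · obtain ⟨k, hk, hxk⟩ := h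
            exact Or.inr ⟨k, Or.inl ⟨hxk, fun h' => hn ⟨k, hk, h'⟩⟩⟩
          · exact Or.inl ⟨⟨i, hi⟩, h⟩
        · exact Or.inr ⟨i, Or.inr ⟨hi, fun h' => hn ⟨i, h'⟩⟩⟩
      refine (measure_mono hsub).trans ((measure_union_le _ _).trans ?_)
      rw [← ENNReal.add_halves ε]
      exact add_le_add hN ((measure_iUnion_le _).trans ((ENNReal.tsum_le_tsum hν).trans hδs.le))

/-- A measurable set that loses a fixed fraction of every decided set is null. -/
lemma measure_eq_zero_of_retry (ν : Measure (ℕ → α)) [IsFiniteMeasure ν] {B : Set (ℕ → α)}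
    (hB : MeasurableSet B) {c : ℝ≥0∞} (hc : c < 1)
    (h : ∀ M D, Decided M D → ν (B ∩ D) ≤ c * ν D) : ν B = 0 := by
  have hle : ν B ≤ c * ν B := by
    refine ENNReal.le_of_forall_pos_le_add fun ε hε _ => ?_
    obtain ⟨M, D, hD, hν⟩ := exists_decided_approx ν hB (ε / 2) (ENNReal.div_pos (ENNReal.coe_ne_zero.2 hε.ne') (by simp))
    have h1 : B ⊆ (B ∩ D) ∪ B ∆ D := fun x hx => by
      by_cases hxD : x ∈ D
      · exact Or.inl ⟨hx, hxD⟩
      · exact Or.inr (Or.inl ⟨hx, hxD⟩)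
    have h2 : D ⊆ B ∪ B ∆ D := fun x hx => by
      by_cases hxB : x ∈ B
      · exact Or.inl hxB
      · exact Or.inr (Or.inr ⟨hx, hxB⟩)
    calc ν B ≤ ν (B ∩ D) + ν (B ∆ D) := (measure_mono h1).trans (measure_union_le _ _)
      _ ≤ c * (ν B + ν (B ∆ D)) + ν (B ∆ D) :=
          add_le_add ((h M D hD).trans
            (mul_le_mul_right ((measure_mono h2).trans (measure_union_le _ _)) _)) le_rfl
      _ ≤ c * ν B + (ν (B ∆ D) + ν (B ∆ D)) := by
          rw [mul_add, add_assoc]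
          exact add_le_add le_rfl (add_le_add (mul_le_of_le_one_left' hc.le) le_rfl)
      _ ≤ c * ν B + (ε / 2 + ε / 2) := add_le_add le_rfl (add_le_add hν hν)
      _ = c * ν B + ε := by rw [ENNReal.add_halves]
  by_contra h0
  exact absurd hle (not_le.2 (by
    calc c * ν B < 1 * ν B := (ENNReal.mul_lt_mul_iff_left h0 (measure_ne_top _ _)).2 hc
      _ = ν B := one_mul _))

/-- If, at every time in `P`, a set of infinitely many such times loses a fixed fraction, it is null. -/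
lemma measure_eq_zero_of_io (ν : Measure (ℕ → α)) [IsFiniteMeasure ν] {B : Set (ℕ → α)}
    (hB : MeasurableSet B) (P : ℕ → Set (ℕ → α)) (hP : ∀ k, Decided k (P k))
    (hio : ∀ ξ ∈ B, ∀ M, ∃ k ≥ M, ξ ∈ P k) {c : ℝ≥0∞} (hc : c < 1)
    (h : ∀ k A, Decided k A → A ⊆ P k → ν (A ∩ B) ≤ c * ν A) : ν B = 0 := by
  classical
  refine measure_eq_zero_of_retry ν hB hc fun M D hD => ?_
  set A : ℕ → Set (ℕ → α) := fun k =>
    {ξ | M ≤ k ∧ ξ ∈ D ∧ ξ ∈ P k ∧ ∀ j, M ≤ j → j < k → ξ ∉ P j}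
  have hA : ∀ k, Decided k (A k) := by
    rintro k ξ η hη ⟨h1, h2, h3, h4⟩
    refine ⟨h1, (hD.mono h1) ξ η hη h2, hP k ξ η hη h3, fun j hj hjk hj' => h4 j hj hjk ?_⟩
    exact (hP j).mono hjk.le η ξ (fun i hi => (hη i hi).symm) hj'
  have hdisj : Pairwise (Function.onFun Disjoint A) := by
    intro i j hij
    refine Set.disjoint_left.2 fun ξ hi hj => ?_
    rcases lt_or_gt_of_ne hij with hl | hl
    · exact hj.2.2.2 i hi.1 hl hi.2.2.1
    · exact hi.2.2.2 j hj.1 hl hj.2.2.1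
  have hsub : B ∩ D ⊆ ⋃ k, A k ∩ B := by
    rintro ξ ⟨hξ, hξD⟩
    have hex : ∃ k, M ≤ k ∧ ξ ∈ P k := hio ξ hξ M
    refine Set.mem_iUnion.2 ⟨Nat.find hex, ⟨(Nat.find_spec hex).1, hξD, (Nat.find_spec hex).2,
      fun j hj hjk hj' => Nat.find_min hex hjk ⟨hj, hj'⟩⟩, hξ⟩
  calc ν (B ∩ D) ≤ ∑' k, ν (A k ∩ B) := (measure_mono hsub).trans (measure_iUnion_le _)
    _ ≤ ∑' k, c * ν (A k) := ENNReal.tsum_le_tsum fun k => h k _ (hA k) fun _ hξ => hξ.2.2.1
    _ = c * ν (⋃ k, A k) := by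
        rw [ENNReal.tsum_mul_left, measure_iUnion hdisj fun k => (hA k).measurableSet]
    _ ≤ c * ν D := mul_le_mul_right (measure_mono (Set.iUnion_subset fun k ξ hξ => hξ.2.1)) _

end Retry

variable {d : ℕ} [NeZero d] (μ : Measure (Dir d → ℝ)) [Law μ] (G : Geo d)

/-- Splitting at a fixed time into two finite paths with disjoint rows. -/
lemma ann_cyl_inter_cyl (n k : ℕ) (ξ η : Steps d)
    (h : Disjoint (rows 0 n ξ) (rows (pos ξ n) k η)) :
    ann μ (cyl n ξ ∩ shift n ⁻¹' cyl k η) = ann μ (cyl n ξ) * ann μ (cyl k η) := by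
  rw [← lintegral_wt_mul μ 0 (pos ξ n) n k ξ η h,
    ← lintegral_quen μ 0 ((measurableSet_cyl n ξ).inter (measurable_shift n (measurableSet_cyl k η)))]
  refine lintegral_congr_ae ((ae_goodEnv μ).mono fun ω hω => ?_)
  simp only
  rw [quen_markov hω 0 n ξ (measurableSet_cyl k η), zero_add, quen_cyl hω]

omit [Law μ] in
lemma wt_le_one [Law μ] {ω : Env d} (hω : GoodEnv ω) (x : Site d) (n : ℕ) (ξ : Steps d) :
    wt ω x n ξ ≤ 1 := by
  rw [← quen_cyl hω]; exact prob_le_one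

lemma ann_shift_preimage_eq_zero {E : Set (Steps d)} (hE : MeasurableSet E) (h0 : ann μ E = 0)
    (n : ℕ) : ann μ (shift n ⁻¹' E) = 0 := by
  rw [measure_sum_words n _ (measurable_shift n hE)]
  refine Finset.sum_eq_zero fun w _ => le_antisymm ?_ bot_le
  rw [← lintegral_quen μ 0 ((measurableSet_cyl n _).inter (measurable_shift n hE)), ← h0,
    ← lintegral_quen μ (0 + pos (ext w) n) hE]
  refine lintegral_mono_ae ((ae_goodEnv μ).mono fun ω hω => ?_)
  rw [quen_markov hω 0 n (ext w) hE]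
  exact mul_le_of_le_one_left' (wt_le_one μ hω 0 n _)

namespace Geo

omit [NeZero d] in
lemma decided_record (n : ℕ) : Decided n {ξ | G.Rec n ξ} := by
  intro ξ η h hξ j hj
  rw [G.lv_congr le_rfl h, G.lv_congr hj.le h]
  exact hξ j hj

omit [NeZero d] in
lemma avoid_point_of_rec {n : ℕ} {ξ η : Steps d} (hξ : G.Rec n ξ) (hη : ∀ j, 0 ≤ G.lv η j) :
    η ∈ Avoid 0 n ξ (pos ξ n) := by
  intro j hj
  obtain ⟨i, hi, he⟩ := mem_rows.1 hj
  have := congrArg G.lev he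
  rw [zero_add, lev_add] at this
  change G.lv ξ i = G.lv ξ n + G.lv η j at this
  linarith [hξ i hi, hη j]

omit [NeZero d] in
lemma esc_min {ξ : Steps d} (h : ξ ∈ G.Esc) : ∃ n, ∀ k, G.lv ξ n ≤ G.lv ξ k := by
  obtain ⟨N, hN⟩ := G.esc_iff.1 h 1
  obtain ⟨n, -, hn⟩ := (Finset.range (N + 1)).exists_min_image (G.lv ξ) ⟨0, by simp⟩
  refine ⟨n, fun k => ?_⟩
  rcases Nat.lt_or_ge k (N + 1) with hk | hk
  · exact hn k (Finset.mem_range.2 hk)
  · have h0 := hn 0 (by simp)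
    rw [lv_zero] at h0
    have := hN k (by omega)
    push_cast at this
    linarith

theorem sReg_pos (h : 0 < ann μ G.Esc) : 0 < G.sReg μ := by
  set Q : Set (Steps d) := {ξ | ∀ n, 0 ≤ G.lv ξ n} ∩ G.Esc with hQ
  have hQm : MeasurableSet Q := by
    refine MeasurableSet.inter ?_ G.measurableSet_Esc
    rw [Set.ofPred_forall]
    exact .iInter fun n => measurableSet_le measurable_const (G.measurable_lv n)
  have hQpos : 0 < ann μ Q := by
    refine pos_iff_ne_zero.2 fun h0 => h.ne' (measure_mono_null (t := ⋃ n, shift n ⁻¹' Q) ?_ ?_)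
    · intro ξ hξ
      obtain ⟨n, hn⟩ := G.esc_min hξ
      refine Set.mem_iUnion.2 ⟨n, fun k => ?_, (G.esc_shift n).2 hξ⟩
      rw [lv_shift]
      linarith [hn (n + k)]
    · exact measure_iUnion_null fun n => ann_shift_preimage_eq_zero μ hQm h0 n
  set c : Steps d := fun _ => G.es
  have hsub : cyl 1 c ∩ shift 1 ⁻¹' Q ⊆ G.S := by
    rintro ξ ⟨hc, hq, he⟩
    have h0 : ξ 0 = G.es := hc 0 Nat.one_pos
    refine ⟨h0, fun n hn => ?_, (G.esc_shift 1).1 he⟩
    have h1 : G.lv ξ 1 = 1 := by rw [lv_succ, lv_zero, h0, lev_es, zero_add]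
    have := hq (n - 1)
    rw [lv_shift, Nat.add_sub_cancel' hn, h1] at this
    linarith
  refine lt_of_lt_of_le ?_ (measure_mono hsub)
  rw [ann_split μ 1 c hQm fun η hη => G.avoid_point_of_rec (fun j hj => ?_) hη.1]
  · exact ENNReal.mul_pos (ann_cyl_pos μ 1 c).ne' hQpos.ne'
  · obtain rfl : j = 0 := by omega
    simp [lv_succ, c, lev_es]

/-- The levels are not bounded above. -/
def Unbdd : Set (Steps d) := {ξ | ∀ M : ℕ, ∃ n, (M : ℝ) ≤ G.lv ξ n}

omit [NeZero d] in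
lemma measurableSet_Unbdd : MeasurableSet G.Unbdd := by
  have : G.Unbdd = ⋂ M : ℕ, ⋃ n, {ξ | (M : ℝ) ≤ G.lv ξ n} := by ext ξ; simp [Unbdd]
  rw [this]
  exact .iInter fun M => .iUnion fun n => measurableSet_le measurable_const (G.measurable_lv n)

omit [NeZero d] in
lemma exists_rec {ξ : Steps d} (h : ξ ∈ G.Unbdd) (M : ℕ) : ∃ k ≥ M, G.Rec k ξ := by
  classical
  obtain ⟨m, -, hm⟩ := (Finset.range (M + 1)).exists_max_image (G.lv ξ) ⟨0, by simp⟩
  obtain ⟨L, hL⟩ := exists_nat_gt (G.lv ξ m)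
  obtain ⟨n, hn⟩ := h L
  have hex : ∃ k, G.lv ξ m < G.lv ξ k := ⟨n, lt_of_lt_of_le hL hn⟩
  refine ⟨Nat.find hex, ?_, fun j hj => ?_⟩
  · by_contra hk
    have := hm _ (Finset.mem_range.2 (by omega : Nat.find hex < M + 1))
    linarith [Nat.find_spec hex]
  · exact lt_of_le_of_lt (not_lt.1 (Nat.find_min hex hj)) (Nat.find_spec hex)

/-- On unbounded levels every event of future nonnegative levels recurs at records. -/
lemma ae_records {F : Set (Steps d)} (hF : MeasurableSet F) (hpos : 0 < ann μ F)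
    (hnn : ∀ ξ ∈ F, ∀ j, 0 ≤ G.lv ξ j) (N : ℕ) :
    ann μ (G.Unbdd \ {ξ | ∃ n ≥ N, G.Rec n ξ ∧ shift n ξ ∈ F}) = 0 := by
  refine measure_eq_zero_of_io (ann μ) (G.measurableSet_Unbdd.diff ?_)
    (fun k => {ξ | G.Rec k ξ ∧ N ≤ k}) (fun k ξ η h hξ => ⟨G.decided_record k ξ η h hξ.1, hξ.2⟩)
    (fun ξ hξ M => ?_) (c := 1 - ann μ F) (ENNReal.sub_lt_self ENNReal.one_ne_top one_ne_zero hpos.ne')
    fun k A hA hAP => ?_
  · have : {ξ | ∃ n ≥ N, G.Rec n ξ ∧ shift n ξ ∈ F} =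
        ⋃ n, ⋃ (_ : n ≥ N), {ξ | G.Rec n ξ} ∩ shift n ⁻¹' F := by
      ext ξ; simp [and_left_comm]
    rw [this]
    exact .iUnion fun n => .iUnion fun _ =>
      (G.decided_record n).measurableSet.inter (measurable_shift n hF)
  · obtain ⟨k, hk, hk'⟩ := G.exists_rec hξ.1 (max M N)
    exact ⟨k, (le_max_left _ _).trans hk, hk', (le_max_right _ _).trans hk⟩
  · have hsub : A ∩ (G.Unbdd \ {ξ | ∃ n ≥ N, G.Rec n ξ ∧ shift n ξ ∈ F}) ⊆ A \ shift k ⁻¹' F :=
      fun ξ hξ => ⟨hξ.1, fun h => hξ.2.2 ⟨k, (hAP hξ.1).2, (hAP hξ.1).1, h⟩⟩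
    refine (measure_mono hsub).trans ?_
    rw [← Set.sdiff_self_inter, measure_sdiff Set.inter_subset_left
        (hA.measurableSet.inter (measurable_shift k hF)).nullMeasurableSet (measure_ne_top _ _),
      ann_split_decided μ hA hF (fun ξ hξ η hη => G.avoid_point_of_rec (hAP hξ).1 (hnn η hη)),
      ENNReal.sub_mul (fun _ _ => measure_ne_top _ _), one_mul, mul_comm]

/-- First step `es` and later levels at least one. -/
def S0 : Set (Steps d) := {ξ | ξ 0 = G.es ∧ ∀ n, 1 ≤ n → 1 ≤ G.lv ξ n}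

omit [NeZero d] in
lemma measurableSet_S0 : MeasurableSet G.S0 := by
  have : G.S0 = (fun ξ : Steps d => ξ 0) ⁻¹' {G.es} ∩
      ⋂ n, ⋂ (_ : 1 ≤ n), {ξ | 1 ≤ G.lv ξ n} := by ext ξ; simp [S0]
  rw [this]
  exact (measurable_pi_apply 0 (measurableSet_singleton _)).inter
    (.iInter fun n => .iInter fun _ => measurableSet_le measurable_const (G.measurable_lv n))

theorem unbounded_subset_esc (h : 0 < G.sReg μ) :
    ann μ ({ξ | ∀ M : ℕ, ∃ n, (M : ℝ) ≤ G.lv ξ n} \ G.Esc) = 0 := by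
  have hpos : 0 < ann μ G.S0 := lt_of_lt_of_le h (measure_mono fun ξ hξ => ⟨hξ.1, hξ.2.1⟩)
  refine measure_mono_null (t := ⋃ N, G.Unbdd \ {ξ | ∃ n ≥ N, G.Rec n ξ ∧ shift n ξ ∈ G.S0}) ?_
    (measure_iUnion_null fun N => G.ae_records μ G.measurableSet_S0 hpos (fun ξ hξ j => ?_) N)
  · rintro ξ ⟨hu, hne⟩
    by_contra hnot
    have hcon : ∀ N, ∃ n ≥ N, G.Rec n ξ ∧ shift n ξ ∈ G.S0 := fun N => by
      by_contra hc
      exact hnot (Set.mem_iUnion.2 ⟨N, hu, hc⟩)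
    refine hne (G.esc_iff.2 fun M => ?_)
    have later : ∀ n, shift n ξ ∈ G.S0 → ∀ k, n < k → G.lv ξ n + 1 ≤ G.lv ξ k := fun n hn k hk => by
      have := hn.2 (k - n) (by omega)
      rw [lv_shift, Nat.add_sub_cancel' hk.le] at this
      linarith
    have climb : ∀ M : ℕ, ∃ n, G.Rec n ξ ∧ shift n ξ ∈ G.S0 ∧ (M : ℝ) ≤ G.lv ξ n := by
      intro M
      induction M with
      | zero =>
        obtain ⟨n, -, h1, h2⟩ := hcon 1
        refine ⟨n, h1, h2, ?_⟩
        rcases Nat.eq_zero_or_pos n with rfl | hn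
        · simp
        · have := h1 0 hn
          rw [lv_zero] at this
          simpa using this.le
      | succ M ih =>
        obtain ⟨n, -, h2, h3⟩ := ih
        obtain ⟨k, hk, k1, k2⟩ := hcon (n + 1)
        refine ⟨k, k1, k2, ?_⟩
        have := later n h2 k (by omega)
        push_cast
        linarith
    obtain ⟨n, -, h2, h3⟩ := climb M
    refine ⟨n + 1, fun k hk => ?_⟩
    linarith [later n h2 k (by omega)]
  · rcases Nat.eq_zero_or_pos j with rfl | hj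
    · simp
    · linarith [hξ.2 j hj]

theorem esc_ae_exists_reg (h : 0 < G.sReg μ) (N : ℕ) :
    ann μ (G.Esc \ {ξ | ∃ n ≥ N, G.Reg n ξ}) = 0 := by
  refine measure_mono_null ?_
    (G.ae_records μ G.measurableSet_S h (fun ξ hξ j => G.lv_nonneg_of_mem_S hξ j) N)
  rintro ξ ⟨he, hn⟩
  refine ⟨fun M => ?_, hn⟩
  obtain ⟨n, hn'⟩ := G.esc_iff.1 he M
  exact ⟨n, hn' n le_rfl⟩

/-- A bounded path with a site visited infinitely often. -/
lemma ann_site_io (M : ℕ) (z : Site d) :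
    ann μ {ξ | (∀ n, G.lv ξ n < M) ∧ ∀ N, ∃ n ≥ N, pos ξ n = z} = 0 := by
  set Z := {ξ : Steps d | (∀ n, G.lv ξ n < M) ∧ ∀ N, ∃ n ≥ N, pos ξ n = z} with hZ
  have hp : ∀ n, Decided n {ξ : Steps d | pos ξ n = z} := fun n ξ η h h1 => (pos_congr h).trans h1
  have hZm : MeasurableSet Z := by
    have : Z = (⋂ n, {ξ | G.lv ξ n < M}) ∩ ⋂ N, ⋃ n, ⋃ (_ : n ≥ N), {ξ : Steps d | pos ξ n = z} := by
      ext ξ; simp [Z]
    rw [this]
    exact (MeasurableSet.iInter fun n => measurableSet_lt (G.measurable_lv n) measurable_const).inter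
      (.iInter fun N => .iUnion fun n => .iUnion fun _ => (hp n).measurableSet)
  rw [← lintegral_quen μ 0 hZm, lintegral_eq_zero_iff (measurable_quen 0 hZm)]
  filter_upwards [ae_goodEnv μ] with ω hω
  obtain ⟨K, hK⟩ := exists_nat_ge ((M : ℝ) - G.lev z)
  set C : Set (Steps d) := cyl K fun _ => G.es
  have hC : MeasurableSet C := measurableSet_cyl _ _
  have hw : 0 < quen ω z C := by
    rw [quen_cyl hω]
    refine pos_iff_ne_zero.2 (Finset.prod_ne_zero_iff.2 fun i _ => ?_)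
    simpa using (hω _).1 _
  refine measure_eq_zero_of_io (quen ω 0) hZm (fun n => {ξ : Steps d | pos ξ n = z}) hp
    (fun ξ hξ => hξ.2) (c := 1 - quen ω z C)
    (ENNReal.sub_lt_self ENNReal.one_ne_top one_ne_zero hw.ne') fun k A hA hAP => ?_
  have hsub : A ∩ Z ⊆ A \ shift k ⁻¹' C := by
    rintro ξ ⟨hξA, hb, -⟩
    refine ⟨hξA, fun hc => ?_⟩
    have h1 : G.lv (shift k ξ) K = K := by
      rw [G.lv_congr le_rfl hc]
      have : ∀ m : ℕ, G.lv (fun _ => G.es) m = (m : ℝ) := by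
        intro m
        induction m with
        | zero => simp
        | succ m ih => rw [lv_succ, ih, lev_es]; push_cast; ring
      exact this K
    rw [lv_shift] at h1
    have h2 := hb (k + K)
    have h3 : G.lv ξ k = G.lev z := by rw [lv, hAP hξA]
    linarith
  refine (measure_mono hsub).trans ?_
  have hsplit : quen ω 0 (A ∩ shift k ⁻¹' C) = quen ω 0 A * quen ω z C := by
    rw [hA.measure_inter _ (measurable_shift k hC), hA.measure_eq, Finset.sum_mul]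
    refine Finset.sum_congr rfl fun w hw' => ?_
    have hz : pos (ext w) k = z := hAP (by simpa [wordsIn] using hw')
    rw [quen_markov hω 0 k _ hC, quen_cyl hω 0 k, zero_add, hz]
  rw [← Set.sdiff_self_inter, measure_sdiff Set.inter_subset_left
      (hA.measurableSet.inter (measurable_shift k hC)).nullMeasurableSet (measure_ne_top _ _),
    hsplit, ENNReal.sub_mul (fun _ _ => measure_ne_top _ _), one_mul, mul_comm]

/-- `n` is the first visit, at level at least `-B`, of its column. -/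
def Fresh (B : ℕ) (n : ℕ) : Set (Steps d) :=
  {ξ | -(B : ℝ) ≤ G.lv ξ n ∧
    ∀ j < n, -(B : ℝ) ≤ G.lv ξ j → ¬ ∃ a : ℤ, pos ξ n = pos ξ j + a • vec G.es}

omit [NeZero d] in
lemma decided_fresh (B n : ℕ) : Decided n (G.Fresh B n) := by
  rintro ξ η h ⟨h1, h2⟩
  refine ⟨by rwa [G.lv_congr le_rfl h], fun j hj hl => ?_⟩
  rw [G.lv_congr hj.le h] at hl
  rw [pos_cyl le_rfl h, pos_cyl hj.le h]
  exact h2 j hj hl

omit [NeZero d] in
lemma lev_zsmul (a : ℤ) : G.lev (a • vec G.es) = a := by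
  have h : G.lev (a • vec G.es) = (a : ℝ) * G.lev (vec G.es) := by
    simp only [lev, Finset.mul_sum]
    exact Finset.sum_congr rfl fun i _ => by simp; ring
  rw [h, lev_es, mul_one]

omit [NeZero d] in
lemma pos_const (i : ℕ) : pos (fun _ => G.es) i = (i : ℤ) • vec G.es := by
  simp [pos]

/-- A path bounded above meets only finitely many fresh columns. -/
lemma ann_fresh_io (M B : ℕ) :
    ann μ {ξ | (∀ n, G.lv ξ n < M) ∧ ∀ N, ∃ n ≥ N, ξ ∈ G.Fresh B n} = 0 := by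
  set Z := {ξ : Steps d | (∀ n, G.lv ξ n < M) ∧ ∀ N, ∃ n ≥ N, ξ ∈ G.Fresh B n}
  have hZm : MeasurableSet Z := by
    have : Z = (⋂ n, {ξ | G.lv ξ n < M}) ∩ ⋂ N, ⋃ n, ⋃ (_ : n ≥ N), G.Fresh B n := by
      ext ξ; simp [Z]
    rw [this]
    exact (MeasurableSet.iInter fun n => measurableSet_lt (G.measurable_lv n) measurable_const).inter
      (.iInter fun N => .iUnion fun n => .iUnion fun _ => (G.decided_fresh B n).measurableSet)
  set C : Set (Steps d) := cyl (M + B) fun _ => G.es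
  have hC : MeasurableSet C := measurableSet_cyl _ _
  refine measure_eq_zero_of_io (ann μ) hZm (G.Fresh B) (G.decided_fresh B) (fun ξ hξ => hξ.2)
    (c := 1 - ann μ C) (ENNReal.sub_lt_self ENNReal.one_ne_top one_ne_zero
      (ann_cyl_pos μ _ _).ne') fun k A hA hAP => ?_
  have hsub : A ∩ Z ⊆ A \ shift k ⁻¹' C := by
    rintro ξ ⟨hξA, hb, -⟩
    refine ⟨hξA, fun hc => ?_⟩
    have h1 : G.lv (shift k ξ) (M + B) = ((M + B : ℕ) : ℝ) := by
      rw [G.lv_congr le_rfl hc, lv, pos_const, lev_zsmul]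
      simp
    rw [lv_shift] at h1
    push_cast at h1
    have h2 := hb (k + (M + B))
    linarith [(hAP hξA).1]
  refine (measure_mono hsub).trans ?_
  have hsplit : ann μ (A ∩ shift k ⁻¹' C) = ann μ A * ann μ C := by
    rw [hA.measure_inter _ (measurable_shift k hC), hA.measure_eq, Finset.sum_mul]
    refine Finset.sum_congr rfl fun w hw' => ann_cyl_inter_cyl μ k _ _ _ ?_
    obtain ⟨hl, hf⟩ := hAP (by simpa [wordsIn] using hw' : ext w ∈ A)
    rw [Finset.disjoint_right]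
    intro x hx hx'
    obtain ⟨i, -, rfl⟩ := mem_rows.1 hx
    obtain ⟨j, hj, hje⟩ := mem_rows.1 hx'
    rw [zero_add, pos_const] at hje
    refine hf j hj ?_ ⟨-(i : ℤ), ?_⟩
    · rw [lv, hje, lev_add, lev_zsmul]
      have : (0 : ℝ) ≤ ((i : ℤ) : ℝ) := by simp
      change -(B : ℝ) ≤ G.lv (ext w) k + ((i : ℤ) : ℝ)
      linarith
    · rw [hje, neg_smul]; abel
  rw [← Set.sdiff_self_inter, measure_sdiff Set.inter_subset_left
      (hA.measurableSet.inter (measurable_shift k hC)).nullMeasurableSet (measure_ne_top _ _),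
    hsplit, ENNReal.sub_mul (fun _ _ => measure_ne_top _ _), one_mul, mul_comm]

omit [NeZero d] in
lemma exists_site_io {ξ : Steps d} {M B : ℕ} (hM : ∀ n, G.lv ξ n < M)
    (hB : ∀ N, ∃ n ≥ N, -(B : ℝ) ≤ G.lv ξ n) (hf : ¬ ∀ N, ∃ n ≥ N, ξ ∈ G.Fresh B n) :
    ∃ z, ∀ N, ∃ n ≥ N, pos ξ n = z := by
  classical
  push Not at hf
  obtain ⟨N₀, hN₀⟩ := hf
  set T : Finset (Site d) := (Finset.range N₀).biUnion fun j =>
    (Finset.Icc ⌈-(B : ℝ) - G.lv ξ j⌉ ⌊(M : ℝ) - G.lv ξ j⌋).image fun a => pos ξ j + a • vec G.es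
  have hmem : ∀ n, -(B : ℝ) ≤ G.lv ξ n → pos ξ n ∈ T := by
    intro n hn
    have hex : ∃ j, j ≤ n ∧ -(B : ℝ) ≤ G.lv ξ j ∧ ∃ a : ℤ, pos ξ n = pos ξ j + a • vec G.es :=
      ⟨n, le_rfl, hn, 0, by simp⟩
    obtain ⟨hjn, hjl, a, ha⟩ := Nat.find_spec hex
    set j := Nat.find hex
    have hfresh : ξ ∈ G.Fresh B j := by
      refine ⟨hjl, fun i hi hil => ?_⟩
      rintro ⟨b, hb⟩
      exact Nat.find_min hex hi ⟨by omega, hil, a + b, by rw [ha, hb, add_smul]; abel⟩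
    have hjN : j < N₀ := not_le.1 fun h => hN₀ j h hfresh
    refine Finset.mem_biUnion.2 ⟨j, Finset.mem_range.2 hjN,
      Finset.mem_image.2 ⟨a, Finset.mem_Icc.2 ?_, ha.symm⟩⟩
    have hl : G.lv ξ n = G.lv ξ j + (a : ℝ) := by
      rw [lv, ha, lev_add, lev_zsmul]; rfl
    exact ⟨Int.ceil_le.2 (by linarith), Int.le_floor.2 (by linarith [hM n])⟩
  by_contra hc
  push Not at hc
  choose N hN using hc
  obtain ⟨n, hn, hnl⟩ := hB (T.sup N)
  exact hN _ n ((Finset.le_sup (hmem n hnl)).trans hn) rfl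

theorem esc_or_neg_esc (h : 0 < G.sReg μ) : ann μ (G.Esc ∪ G.neg.Esc)ᶜ = 0 := by
  refine measure_mono_null
    (t := ({ξ | ∀ M : ℕ, ∃ n, (M : ℝ) ≤ G.lv ξ n} \ G.Esc) ∪
      ((⋃ p : ℕ × ℕ, {ξ | (∀ n, G.lv ξ n < p.1) ∧ ∀ N, ∃ n ≥ N, ξ ∈ G.Fresh p.2 n}) ∪
        ⋃ p : ℕ × Site d, {ξ | (∀ n, G.lv ξ n < p.1) ∧ ∀ N, ∃ n ≥ N, pos ξ n = p.2})) ?_ ?_
  · intro ξ hξ
    simp only [Set.mem_compl_iff, Set.mem_union, not_or] at hξ
    by_cases hu : ∀ M : ℕ, ∃ n, (M : ℝ) ≤ G.lv ξ n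
    · exact Or.inl ⟨hu, hξ.1⟩
    refine Or.inr ?_
    push Not at hu
    obtain ⟨M, hM⟩ := hu
    obtain ⟨B, hB⟩ : ∃ B : ℕ, ∀ N, ∃ n ≥ N, -(B : ℝ) ≤ G.lv ξ n := by
      have h2 := hξ.2
      rw [esc_iff] at h2
      push Not at h2
      obtain ⟨B, hB⟩ := h2
      refine ⟨B, fun N => ?_⟩
      obtain ⟨n, hn, hl⟩ := hB N
      rw [lv_neg] at hl
      exact ⟨n, hn, by linarith⟩
    by_cases hf : ∀ N, ∃ n ≥ N, ξ ∈ G.Fresh B n
    · exact Or.inl (Set.mem_iUnion.2 ⟨(M, B), hM, hf⟩)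
    · obtain ⟨z, hz⟩ := G.exists_site_io hM hB hf
      exact Or.inr (Set.mem_iUnion.2 ⟨(M, z), hM, hz⟩)
  · exact measure_union_null (G.unbounded_subset_esc μ h)
      (measure_union_null (measure_iUnion_null fun p => G.ann_fresh_io μ p.1 p.2)
        (measure_iUnion_null fun p => G.ann_site_io μ p.1 p.2))

end Geo

end Vale.Agent.P147
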